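import Vale.Agent.Lib.P125.Basic

/-!
# P125, module ALT: growth of the norms of the alternating vectors

`alt_mono`: relabel by `i ↦ min i (2m-1)` (for `m ≥ 1`): `mapDomain φ (alt (2n)) = alt (2m)`
since the tail `∑_{2m-1 ≤ i < 2n} (-1)^i = -1`.
`growth`: otherwise `N (alt (2 (1 + (j+1) D))) > 2 N (alt (2 (1 + j D)))` for all `j`
(if `D = 0` take `M = 1`), so `N (alt (2 (1 + j D))) ≥ 2 ^ j N (alt 2)`, against
`N (alt (2 (1 + j D))) ≤ 2 (1 + j D) N (e 0)`.
-/

open Finset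

namespace P125

theorem Alt_mapDomain_low (φ : ℕ → ℕ) (n : ℕ) (h : ∀ i, i < n → φ i = i) :
    (alt n).mapDomain φ = alt n := by
  unfold alt
  rw [mapDomain_sum']
  apply Finset.sum_congr rfl
  intro i hi
  rw [mapDomain_smul_e, h i (Finset.mem_range.mp hi)]

theorem Alt_mapDomain_add (φ : ℕ → ℕ) (m q : ℕ) (h1 : ∀ i, i < 2 * m → φ i = i)
    (h2 : ∀ i, 2 * m ≤ i → φ i = q) (k : ℕ) :
    (alt (2 * m + 2 * k)).mapDomain φ = alt (2 * m) := by
  induction k with
  | zero => exact Alt_mapDomain_low φ (2 * m) h1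
  | succ k ih =>
    have hk : 2 * m + 2 * (k + 1) = (2 * m + 2 * k) + 1 + 1 := by ring
    rw [hk, alt_succ, alt_succ, Finsupp.mapDomain_add, Finsupp.mapDomain_add, ih,
      mapDomain_smul_e, mapDomain_smul_e, h2 (2 * m + 2 * k) (by omega),
      h2 (2 * m + 2 * k + 1) (by omega), add_assoc, ← add_smul]
    have : (-1 : ℝ) ^ (2 * m + 2 * k) + (-1 : ℝ) ^ (2 * m + 2 * k + 1) = 0 := by
      rw [pow_succ]; ring
    rw [this, zero_smul, add_zero]

theorem alt_mono (N : Seminorm ℝ (ℕ →₀ ℝ)) (hN : MonoContr N) {m n : ℕ} (h : m ≤ n) :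
    N (alt (2 * m)) ≤ N (alt (2 * n)) := by
  rcases Nat.eq_zero_or_pos m with hm | hm
  · subst hm
    rw [Nat.mul_zero, alt_zero, map_zero]
    exact apply_nonneg N _
  · obtain ⟨k, rfl⟩ := Nat.exists_eq_add_of_le h
    have hmono : Monotone (fun i : ℕ => min i (2 * m - 1)) := by
      intro a b hab
      exact min_le_min hab le_rfl
    have key := hN (fun i : ℕ => min i (2 * m - 1)) hmono (alt (2 * (m + k)))
    have h3 : (alt (2 * (m + k))).mapDomain (fun i : ℕ => min i (2 * m - 1)) = alt (2 * m) := by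
      rw [mul_add]
      apply Alt_mapDomain_add (fun i : ℕ => min i (2 * m - 1)) m (2 * m - 1)
      · intro i hi
        exact min_eq_left (by omega)
      · intro i hi
        exact min_eq_right (by omega)
    rw [h3] at key
    exact key

theorem Alt_e_le (N : Seminorm ℝ (ℕ →₀ ℝ)) (hN : MonoContr N) (i : ℕ) : N (e i) ≤ N (e 0) := by
  have hmono : Monotone (fun j : ℕ => j + i) := by
    intro a b hab
    exact Nat.add_le_add_right hab i
  have key := hN (fun j : ℕ => j + i) hmono (e 0)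
  rw [mapDomain_e] at key
  simpa using key

theorem alt_le (N : Seminorm ℝ (ℕ →₀ ℝ)) (hN : MonoContr N) (n : ℕ) :
    N (alt n) ≤ n * N (e 0) := by
  induction n with
  | zero => simp [alt_zero]
  | succ n ih =>
    rw [alt_succ]
    have h1 : N (alt n + (-1 : ℝ) ^ n • e n) ≤ N (alt n) + N ((-1 : ℝ) ^ n • e n) :=
      map_add_le_add N _ _
    have h2 : N ((-1 : ℝ) ^ n • e n) = N (e n) := by
      rw [map_smul_eq_mul]
      simp
    have h3 := Alt_e_le N hN n
    push_cast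
    rw [h2] at h1
    linarith

theorem alt_two (N : Seminorm ℝ (ℕ →₀ ℝ)) : N (alt 2) = N (e 0 - e 1) := by
  have : alt 2 = e 0 - e 1 := by
    have h2 : (2 : ℕ) = 0 + 1 + 1 := rfl
    rw [h2, alt_succ, alt_succ, alt_zero]
    simp [sub_eq_add_neg]
  rw [this]

theorem growth (N : Seminorm ℝ (ℕ →₀ ℝ)) (hN : MonoContr N) (h : N (e 0 - e 1) ≠ 0) (D : ℕ) :
    ∃ M : ℕ, D < M ∧ N (alt (2 * M)) ≤ 2 * N (alt (2 * (M - D))) ∧
      0 < N (alt (2 * (M - D))) := by
  have hpos : 0 < N (alt (2 * 1)) := by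
    rw [Nat.mul_one, alt_two]
    exact lt_of_le_of_ne (apply_nonneg N _) (Ne.symm h)
  have hposn : ∀ n : ℕ, 1 ≤ n → 0 < N (alt (2 * n)) := fun n hn =>
    lt_of_lt_of_le hpos (alt_mono N hN hn)
  by_contra hcon
  push Not at hcon
  have hgrow : ∀ M : ℕ, D < M → 2 * N (alt (2 * (M - D))) < N (alt (2 * M)) := by
    intro M hM
    by_contra hle
    push Not at hle
    have h1 := hcon M hM hle
    have h2 := hposn (M - D) (by omega)
    linarith
  have hstep : ∀ j : ℕ, (2 : ℝ) ^ j * N (alt (2 * 1)) ≤ N (alt (2 * (1 + j * D))) := by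
    intro j
    induction j with
    | zero => simp
    | succ j ih =>
      have h1 := hgrow (1 + (j + 1) * D) (by nlinarith [Nat.zero_le (j * D)])
      have h2 : 1 + (j + 1) * D - D = 1 + j * D := by
        have : 1 + (j + 1) * D = 1 + j * D + D := by ring
        omega
      rw [h2] at h1
      rw [pow_succ]
      linarith
  have hub : ∀ j : ℕ, (2 : ℝ) ^ j * N (alt (2 * 1)) ≤ 2 * (1 + j * D) * N (e 0) := by
    intro j
    have h1 := alt_le N hN (2 * (1 + j * D))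
    push_cast at h1
    exact (hstep j).trans h1
  have he0 : 0 ≤ N (e 0) := apply_nonneg N _
  obtain ⟨k, hk⟩ := pow_unbounded_of_one_lt (2 * (1 + 2 * D) * N (e 0) / N (alt (2 * 1)))
    (one_lt_two : (1 : ℝ) < 2)
  rw [div_lt_iff₀ hpos] at hk
  have h1 := hub (2 * k)
  have h2 : (k : ℝ) + 1 ≤ 2 ^ k := by
    have : k + 1 ≤ 2 ^ k := Nat.lt_two_pow_self
    exact_mod_cast this
  have hD : (0 : ℝ) ≤ D := Nat.cast_nonneg D
  have hk0 : (0 : ℝ) ≤ k := Nat.cast_nonneg k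
  have h3 : 2 * (1 + ((2 * k : ℕ) : ℝ) * D) * N (e 0) ≤
      2 * (1 + 2 * D) * N (e 0) * 2 ^ k := by
    push_cast
    have h4 : 2 * (1 + 2 * (k : ℝ) * D) ≤ 2 * (1 + 2 * D) * 2 ^ k := by
      have h5 : 2 * (1 + 2 * (k : ℝ) * D) ≤ 2 * (1 + 2 * D) * (k + 1) := by nlinarith
      have h6 : 2 * (1 + 2 * (D : ℝ)) * (k + 1) ≤ 2 * (1 + 2 * D) * 2 ^ k :=
        mul_le_mul_of_nonneg_left h2 (by positivity)
      linarith
    calc 2 * (1 + 2 * (k : ℝ) * D) * N (e 0) ≤ (2 * (1 + 2 * D) * 2 ^ k) * N (e 0) :=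
          mul_le_mul_of_nonneg_right h4 he0
      _ = 2 * (1 + 2 * D) * N (e 0) * 2 ^ k := by ring
  have h4 : (2 : ℝ) ^ (2 * k) = 2 ^ k * 2 ^ k := by rw [two_mul, pow_add]
  rw [h4] at h1
  have h5 : (0 : ℝ) < 2 ^ k := by positivity
  nlinarith [mul_lt_mul_of_pos_right hk h5]

end P125
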