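import Vale.Agent.Lib.P125.Defs

/-!
# P125 : basic facts on `e`, `Phi`, `total`, `mapDomain`
-/

open Finset

namespace P125

theorem e_apply (i j : ℕ) : e i j = if i = j then 1 else 0 := by
  classical
  simp [e, Finsupp.single_apply]

theorem e_self (i : ℕ) : e i i = 1 := by simp [e]

theorem mapDomain_e (φ : ℕ → ℕ) (i : ℕ) : (e i).mapDomain φ = e (φ i) := by
  simp [e, Finsupp.mapDomain_single]

theorem mapDomain_smul_e (φ : ℕ → ℕ) (x : ℝ) (i : ℕ) :
    (x • e i).mapDomain φ = x • e (φ i) := by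
  rw [Finsupp.mapDomain_smul, mapDomain_e]

theorem mapDomain_sub' (φ : ℕ → ℕ) (a b : ℕ →₀ ℝ) :
    (a - b).mapDomain φ = a.mapDomain φ - b.mapDomain φ := by
  have := (Finsupp.lmapDomain ℝ ℝ φ).map_sub a b
  simpa using this

theorem mapDomain_neg' (φ : ℕ → ℕ) (a : ℕ →₀ ℝ) :
    (-a).mapDomain φ = - a.mapDomain φ := by
  have := (Finsupp.lmapDomain ℝ ℝ φ).map_neg a
  simpa using this

theorem mapDomain_sum' {α : Type*} (φ : ℕ → ℕ) (s : Finset α) (g : α → ℕ →₀ ℝ) :
    (∑ i ∈ s, g i).mapDomain φ = ∑ i ∈ s, (g i).mapDomain φ := by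
  exact map_sum (Finsupp.lmapDomain ℝ ℝ φ) g s

theorem eq_sum_e (a : ℕ →₀ ℝ) : a = ∑ i ∈ a.support, a i • e i := by
  classical
  ext j
  rw [Finsupp.finsetSum_apply]
  simp only [Finsupp.smul_apply, e_apply, smul_eq_mul, mul_ite, mul_one, mul_zero]
  rw [Finset.sum_ite_eq' a.support j (fun i => a i)]
  split_ifs with h
  · rfl
  · simpa using h

theorem Phi_add (s : ℕ) (A B : ℕ →₀ ℝ) : Phi s (A + B) = Phi s A + Phi s B := by
  simp [Phi, Finset.sum_add_distrib]

theorem Phi_sub (s : ℕ) (A B : ℕ →₀ ℝ) : Phi s (A - B) = Phi s A - Phi s B := by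
  simp [Phi, Finset.sum_sub_distrib]

theorem Phi_neg (s : ℕ) (A : ℕ →₀ ℝ) : Phi s (-A) = - Phi s A := by
  simp [Phi, Finset.sum_neg_distrib]

theorem Phi_zero (s : ℕ) : Phi s 0 = 0 := by simp [Phi]

theorem Phi_smul (s : ℕ) (x : ℝ) (A : ℕ →₀ ℝ) : Phi s (x • A) = x * Phi s A := by
  simp [Phi, Finset.mul_sum]

theorem Phi_e (s t : ℕ) : Phi s (e t) = if t ≤ s then 1 else 0 := by
  classical
  simp only [Phi, e_apply]
  rw [Finset.sum_ite_eq (range (s + 1)) t (fun _ => (1 : ℝ))]
  simp

theorem Phi_sum {α : Type*} (s : ℕ) (S : Finset α) (g : α → ℕ →₀ ℝ) :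
    Phi s (∑ i ∈ S, g i) = ∑ i ∈ S, Phi s (g i) := by
  simp only [Phi, Finsupp.finsetSum_apply]
  rw [Finset.sum_comm]

theorem total_add (A B : ℕ →₀ ℝ) : total (A + B) = total A + total B := by
  classical
  exact Finsupp.sum_add_index' (fun _ => rfl) (fun _ _ _ => rfl)

theorem total_zero : total 0 = 0 := by simp [total]

theorem total_neg (A : ℕ →₀ ℝ) : total (-A) = - total A := by
  have h := total_add A (-A)
  rw [add_neg_cancel, total_zero] at h
  linarith

theorem total_sub (A B : ℕ →₀ ℝ) : total (A - B) = total A - total B := by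
  rw [sub_eq_add_neg, total_add, total_neg, sub_eq_add_neg]

theorem total_e (i : ℕ) : total (e i) = 1 := by simp [total, e]

theorem total_sum {α : Type*} (S : Finset α) (g : α → ℕ →₀ ℝ) :
    total (∑ i ∈ S, g i) = ∑ i ∈ S, total (g i) := by
  classical
  induction S using Finset.induction_on with
  | empty => simp [total_zero]
  | insert a S ha ih => rw [Finset.sum_insert ha, Finset.sum_insert ha, total_add, ih]

/-- For large `s` the partial sum is the total. -/
theorem Phi_eq_total (s : ℕ) (A : ℕ →₀ ℝ) (h : ∀ t, s < t → A t = 0) : Phi s A = total A := by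
  classical
  unfold Phi total Finsupp.sum
  symm
  apply Finset.sum_subset
  · intro t ht
    rw [Finsupp.mem_support_iff] at ht
    rw [Finset.mem_range]
    by_contra hc
    exact ht (h t (by omega))
  · intro t _ ht
    simpa using ht

theorem alt_succ (n : ℕ) : alt (n + 1) = alt n + (-1 : ℝ) ^ n • e n := by
  simp [alt, Finset.sum_range_succ]

theorem alt_zero : alt 0 = 0 := by simp [alt]

theorem alt_apply (n i : ℕ) : alt n i = if i < n then (-1 : ℝ) ^ i else 0 := by
  classical
  unfold alt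
  rw [Finsupp.finsetSum_apply]
  simp only [Finsupp.smul_apply, e_apply, smul_eq_mul, mul_ite, mul_one, mul_zero]
  rw [Finset.sum_ite_eq' (range n) i (fun i => (-1 : ℝ) ^ i)]
  simp

/-- Pairs form of the alternating vector. -/
theorem alt_two_mul (m : ℕ) : alt (2 * m) = ∑ l ∈ range m, (e (2 * l) - e (2 * l + 1)) := by
  induction m with
  | zero => simp [alt_zero]
  | succ m ih =>
    rw [Finset.sum_range_succ, ← ih, show 2 * (m + 1) = 2 * m + 1 + 1 by ring, alt_succ, alt_succ]
    have h1 : (-1 : ℝ) ^ (2 * m) = 1 := by simp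
    have h2 : (-1 : ℝ) ^ (2 * m + 1) = -1 := by rw [pow_succ, h1]; ring
    rw [h1, h2, one_smul, neg_one_smul]
    abel

/-- Monotone contraction applied to a strictly increasing relabelling gives the same norm: the
lower bound. -/
theorem MonoContr.le_mapDomain {N : Seminorm ℝ (ℕ →₀ ℝ)} (hN : MonoContr N) {σ : ℕ → ℕ}
    (hσ : StrictMono σ) (a : ℕ →₀ ℝ) : N a ≤ N (a.mapDomain σ) := by
  classical
  -- `ψ n` = number of `i` with `σ i < n`
  let ψ : ℕ → ℕ := fun n => ((range n).filter fun i => σ i < n).card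
  have hψ : Monotone ψ := by
    intro m n hmn
    apply Finset.card_le_card
    intro i hi
    rw [Finset.mem_filter, Finset.mem_range] at hi ⊢
    exact ⟨lt_of_lt_of_le hi.1 hmn, lt_of_lt_of_le hi.2 hmn⟩
  have hcomp : ∀ i, ψ (σ i) = i := by
    intro i
    have : ((range (σ i)).filter fun j => σ j < σ i) = range i := by
      ext j
      rw [Finset.mem_filter, Finset.mem_range, Finset.mem_range, hσ.lt_iff_lt]
      constructor
      · exact fun h => h.2
      · exact fun h => ⟨lt_of_lt_of_le h (hσ.id_le i), h⟩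
    show ((range (σ i)).filter fun j => σ j < σ i).card = i
    rw [this, Finset.card_range]
  have h := hN ψ hψ (a.mapDomain σ)
  rw [← Finsupp.mapDomain_comp] at h
  have h2 : (ψ ∘ σ) = id := by
    funext i
    exact hcomp i
  rw [h2, Finsupp.mapDomain_id] at h
  exact h

theorem MonoContr.eq_mapDomain {N : Seminorm ℝ (ℕ →₀ ℝ)} (hN : MonoContr N) {σ : ℕ → ℕ}
    (hσ : StrictMono σ) (a : ℕ →₀ ℝ) : N (a.mapDomain σ) = N a :=
  le_antisymm (hN σ hσ.monotone a) (hN.le_mapDomain hσ a)

theorem MonoContr.e_eq {N : Seminorm ℝ (ℕ →₀ ℝ)} (hN : MonoContr N) (i : ℕ) :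
    N (e i) = N (e 0) := by
  apply le_antisymm
  · have := hN (fun _ => i) (fun _ _ _ => le_rfl) (e 0)
    rwa [mapDomain_e] at this
  · have := hN (fun _ => 0) (fun _ _ _ => le_rfl) (e i)
    rwa [mapDomain_e] at this

/-- `N (e i - e j) ≤ N (e 0 - e 1)` for `i < j`. -/
theorem MonoContr.pair_le {N : Seminorm ℝ (ℕ →₀ ℝ)} (hN : MonoContr N) {i j : ℕ} (hij : i ≤ j) :
    N (e i - e j) ≤ N (e 0 - e 1) := by
  have := hN (fun n => if n = 0 then i else j) (by
    intro m n hmn
    simp only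
    split_ifs with h1 h2 h2
    · exact le_rfl
    · exact hij
    · omega
    · exact le_rfl) (e 0 - e 1)
  rw [mapDomain_sub', mapDomain_e, mapDomain_e] at this
  simpa using this

end P125
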