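import Vale.Agent.Lib.P125.Lim1

/-!
# P125, module LIM2: iterated limit (spreading model)

`Lim2.J N l a y` is the iterated limit of `N (y + ∑ a i • e (s i))`, where `i` runs through the
list `l` and the positions `s i` tend to infinity one after the other (the position of the head
of the list is the outermost limit).  The new seminorm is `N' a = J N l a 0` for the list `l` of
the elements of the support of `a` in increasing order.
-/

open Finset Filter Topology

namespace P125

namespace Lim2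

/-- Iterated limit along the hyperfilter. -/
noncomputable def J (N : (ℕ →₀ ℝ) → ℝ) : List ℕ → (ℕ →₀ ℝ) → (ℕ →₀ ℝ) → ℝ
  | [], _, y => N y
  | i :: l, a, y => ulim (fun s => J N l a (y + a i • e s))

theorem J_nil (N : (ℕ →₀ ℝ) → ℝ) (a y : ℕ →₀ ℝ) : J N [] a y = N y := rfl

theorem J_cons (N : (ℕ →₀ ℝ) → ℝ) (i : ℕ) (l : List ℕ) (a y : ℕ →₀ ℝ) :
    J N (i :: l) a y = ulim (fun s => J N l a (y + a i • e s)) := rfl

variable {N : Seminorm ℝ (ℕ →₀ ℝ)}

theorem N_add_smul_e_le (h2 : ∀ i, N (e i) ≤ 1) (y : ℕ →₀ ℝ) (x : ℝ) (s : ℕ) :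
    N (y + x • e s) ≤ N y + |x| := by
  refine (map_add_le_add N _ _).trans ?_
  rw [map_smul_eq_mul, Real.norm_eq_abs]
  have := mul_le_of_le_one_right (abs_nonneg x) (h2 s)
  linarith

theorem J_bounds (h2 : ∀ i, N (e i) ≤ 1) (l : List ℕ) (a : ℕ →₀ ℝ) :
    ∀ y, 0 ≤ J N l a y ∧ J N l a y ≤ N y + (l.map fun i => |a i|).sum := by
  induction l with
  | nil =>
    intro y
    rw [J_nil]
    exact ⟨apply_nonneg N y, by simp⟩
  | cons i l ih =>
    intro y
    have hb : ∀ s, |J N l a (y + a i • e s)| ≤ N y + |a i| + (l.map fun i => |a i|).sum := by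
      intro s
      rw [abs_of_nonneg (ih _).1]
      have h1 := (ih (y + a i • e s)).2
      have h3 := N_add_smul_e_le h2 y (a i) s
      linarith
    rw [J_cons]
    constructor
    · exact le_ulim hb (Eventually.of_forall fun s => (ih _).1)
    · refine ulim_le hb (Eventually.of_forall fun s => ?_)
      have h1 := (ih (y + a i • e s)).2
      have h3 := N_add_smul_e_le h2 y (a i) s
      rw [List.map_cons, List.sum_cons]
      linarith

theorem J_abs_le (h2 : ∀ i, N (e i) ≤ 1) (l : List ℕ) (a y : ℕ →₀ ℝ) (x : ℝ) (s : ℕ) :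
    |J N l a (y + x • e s)| ≤ N y + |x| + (l.map fun i => |a i|).sum := by
  rw [abs_of_nonneg (J_bounds h2 l a _).1]
  have h1 := (J_bounds h2 l a (y + x • e s)).2
  have h3 := N_add_smul_e_le h2 y x s
  linarith

theorem J_tendsto (h2 : ∀ i, N (e i) ≤ 1) (i : ℕ) (l : List ℕ) (a y : ℕ →₀ ℝ) :
    Tendsto (fun s => J N l a (y + a i • e s)) (hyperfilter ℕ : Filter ℕ)
      (𝓝 (J N (i :: l) a y)) := by
  rw [J_cons]
  exact tendsto_ulim (J_abs_le h2 l a y (a i))

theorem J_add (h2 : ∀ i, N (e i) ≤ 1) (l : List ℕ) (a b : ℕ →₀ ℝ) :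
    ∀ y z, J N l (a + b) (y + z) ≤ J N l a y + J N l b z := by
  induction l with
  | nil =>
    intro y z
    rw [J_nil, J_nil, J_nil]
    exact map_add_le_add N y z
  | cons i l ih =>
    intro y z
    refine le_of_tendsto_of_tendsto' (J_tendsto h2 i l (a + b) (y + z))
      ((J_tendsto h2 i l a y).add (J_tendsto h2 i l b z)) ?_
    intro s
    have h : y + z + (a + b) i • e s = (y + a i • e s) + (z + b i • e s) := by
      rw [Finsupp.add_apply, add_smul]
      abel
    rw [h]
    exact ih _ _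

theorem J_smul (h2 : ∀ i, N (e i) ≤ 1) (c : ℝ) (l : List ℕ) (a : ℕ →₀ ℝ) :
    ∀ y, J N l (c • a) (c • y) = |c| * J N l a y := by
  induction l with
  | nil =>
    intro y
    rw [J_nil, J_nil, map_smul_eq_mul, Real.norm_eq_abs]
  | cons i l ih =>
    intro y
    refine tendsto_nhds_unique (J_tendsto h2 i l (c • a) (c • y)) ?_
    have h := (J_tendsto h2 i l a y).const_mul |c|
    refine h.congr ?_
    intro s
    rw [← ih, Finsupp.smul_apply, smul_add, smul_assoc]

/-- Zero entries can be deleted. -/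
theorem J_filter (N : (ℕ →₀ ℝ) → ℝ) (l : List ℕ) (a : ℕ →₀ ℝ) :
    ∀ y, J N (l.filter fun i => i ∈ a.support) a y = J N l a y := by
  induction l with
  | nil => intro y; rfl
  | cons i l ih =>
    intro y
    by_cases hi : i ∈ a.support
    · rw [List.filter_cons_of_pos (by simpa using hi), J_cons, J_cons]
      congr 1
      funext s
      exact ih _
    · have h0 : a i = 0 := by simpa using hi
      rw [List.filter_cons_of_neg (by simpa using hi), ih, J_cons]
      have : (fun s => J N l a (y + a i • e s)) = fun _ => J N l a y := by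
        funext s
        rw [h0, zero_smul, add_zero]
      rw [this, ulim_const]

/-- Relabelling. -/
theorem J_map (N : (ℕ →₀ ℝ) → ℝ) {σ : ℕ → ℕ} (hσ : Function.Injective σ) (l : List ℕ)
    (a : ℕ →₀ ℝ) : ∀ y, J N (l.map σ) (a.mapDomain σ) y = J N l a y := by
  induction l with
  | nil => intro y; rfl
  | cons i l ih =>
    intro y
    rw [List.map_cons, J_cons, J_cons]
    congr 1
    funext s
    rw [ih, Finsupp.mapDomain_apply hσ]

theorem J_MT {p K : ℝ} (hp : 0 ≤ p) (h1 : MT p K N) (h2 : ∀ i, N (e i) ≤ 1) (l : List ℕ) :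
    MT p K (fun q : (ℕ →₀ ℝ) × (ℕ →₀ ℝ) => J N l q.1 q.2) := by
  induction l with
  | nil => exact h1.comp (AddMonoidHom.snd (ℕ →₀ ℝ) (ℕ →₀ ℝ))
  | cons i l ih =>
    let L : ℕ → (ℕ →₀ ℝ) × (ℕ →₀ ℝ) →+ (ℕ →₀ ℝ) × (ℕ →₀ ℝ) := fun s =>
      { toFun := fun q => (q.1, q.2 + q.1 i • e s)
        map_zero' := by simp
        map_add' := by
          intro q r
          ext1
          · rfl
          · show q.2 + r.2 + (q.1 + r.1) i • e s = (q.2 + q.1 i • e s) + (r.2 + r.1 i • e s)
            rw [Finsupp.add_apply, add_smul]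
            abel }
    have hL : ∀ s, MT p K (fun q : (ℕ →₀ ℝ) × (ℕ →₀ ℝ) =>
        (fun q : (ℕ →₀ ℝ) × (ℕ →₀ ℝ) => J N l q.1 q.2) (L s q)) := fun s => ih.comp (L s)
    refine MT_of_tendsto (l := (hyperfilter ℕ : Filter ℕ)) hp hL ?_
    intro q
    exact J_tendsto h2 i l q.1 q.2

/-- Lower bound (B). -/
theorem J_lowerB {δ : ℝ} (h2 : ∀ i, N (e i) ≤ 1)
    (h3 : ∀ m, ∀ a : ℕ →₀ ℝ, (∀ i < m, 0 ≤ a i) → δ * ∑ i ∈ range m, a i ≤ N a)
    (l : List ℕ) (a : ℕ →₀ ℝ) (q : ℕ) :
    ∀ y : ℕ →₀ ℝ, (∀ i < q, 0 ≤ y i) → δ * ∑ i ∈ range q, y i ≤ J N l a y := by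
  induction l with
  | nil =>
    intro y hy
    exact h3 q y hy
  | cons i l ih =>
    intro y hy
    rw [J_cons]
    refine le_ulim (J_abs_le h2 l a y (a i)) ?_
    filter_upwards [eventually_ge_hyper q] with s hs
    have hval : ∀ j, j < q → (y + a i • e s) j = y j := by
      intro j hj
      rw [Finsupp.add_apply, Finsupp.smul_apply, e_apply, if_neg (by omega), smul_zero, add_zero]
    have h := ih (y + a i • e s) (fun j hj => by rw [hval j hj]; exact hy j hj)
    rw [Finset.sum_congr rfl (fun j hj => hval j (Finset.mem_range.1 hj))] at h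
    exact h

theorem sum_range_eq_total (y : ℕ →₀ ℝ) : ∃ q, ∑ i ∈ range q, y i = total y := by
  classical
  refine ⟨y.support.sup id + 1, ?_⟩
  unfold total Finsupp.sum
  symm
  apply Finset.sum_subset
  · intro i hi
    rw [Finset.mem_range]
    exact Nat.lt_succ_of_le (Finset.le_sup (f := id) hi)
  · intro i _ hi
    simpa using hi

/-- Lower bound (A). -/
theorem J_lowerA {δ : ℝ} (h2 : ∀ i, N (e i) ≤ 1)
    (h3 : ∀ m, ∀ a : ℕ →₀ ℝ, (∀ i < m, 0 ≤ a i) → δ * ∑ i ∈ range m, a i ≤ N a)
    (l l' : List ℕ) (a : ℕ →₀ ℝ) (hl : ∀ i ∈ l, 0 ≤ a i) :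
    ∀ y : ℕ →₀ ℝ, (∀ i, 0 ≤ y i) → δ * (total y + (l.map fun i => a i).sum) ≤
      J N (l ++ l') a y := by
  induction l with
  | nil =>
    intro y hy
    obtain ⟨q, hq⟩ := sum_range_eq_total y
    rw [List.map_nil, List.sum_nil, add_zero, List.nil_append, ← hq]
    exact J_lowerB h2 h3 l' a q y (fun i _ => hy i)
  | cons i l ih =>
    intro y hy
    rw [List.cons_append, J_cons]
    refine le_ulim (J_abs_le h2 (l ++ l') a y (a i)) (Eventually.of_forall fun s => ?_)
    have hi : 0 ≤ a i := hl i (List.mem_cons_self)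
    have h := ih (fun j hj => hl j (List.mem_cons_of_mem _ hj)) (y + a i • e s) (by
      intro j
      rw [Finsupp.add_apply, Finsupp.smul_apply, e_apply, smul_eq_mul]
      have := hy j
      split_ifs
      · linarith
      · linarith)
    have ht : total (y + a i • e s) = total y + a i := by
      rw [total_add]
      congr 1
      simp [total, e]
    rw [ht] at h
    rw [List.map_cons, List.sum_cons, ← add_assoc]
    exact h

/-- The new functional. -/
noncomputable def N' (N : (ℕ →₀ ℝ) → ℝ) (a : ℕ →₀ ℝ) : ℝ :=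
  J N (a.support.sort (· ≤ ·)) a 0

theorem list_sum_range (g : ℕ → ℝ) (m : ℕ) :
    ((List.range m).map g).sum = ∑ j ∈ range m, g j := by
  induction m with
  | zero => simp
  | succ m ih =>
    rw [List.range_succ, List.map_append, List.sum_append, ih, Finset.sum_range_succ]
    simp

theorem range_filter_support (a : ℕ →₀ ℝ) (m : ℕ) (hm : ∀ i ∈ a.support, i < m) :
    (List.range m).filter (fun i => i ∈ a.support) = a.support.sort (· ≤ ·) := by
  apply List.Perm.eq_of_pairwise (le := (· ≤ ·))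
  · intro x y _ _ h1 h2
    exact le_antisymm h1 h2
  · exact (List.pairwise_lt_range (n := m)).imp (fun h => le_of_lt h) |>.filter _
  · exact Finset.pairwise_sort _ _
  · rw [List.perm_ext_iff_of_nodup]
    · intro x
      rw [List.mem_filter, List.mem_range, Finset.mem_sort]
      constructor
      · intro h
        simpa using h.2
      · intro h
        exact ⟨hm x h, by simpa using h⟩
    · exact (List.nodup_range).filter _
    · exact Finset.sort_nodup _ _

theorem N'_eq (N : (ℕ →₀ ℝ) → ℝ) (a : ℕ →₀ ℝ) (m : ℕ) (hm : ∀ i ∈ a.support, i < m) :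
    N' N a = J N (List.range m) a 0 := by
  unfold N'
  rw [← range_filter_support a m hm]
  exact J_filter N (List.range m) a 0

theorem exists_bound (a : ℕ →₀ ℝ) : ∃ m, ∀ i ∈ a.support, i < m :=
  ⟨a.support.sup id + 1, fun _ hi => Nat.lt_succ_of_le (Finset.le_sup (f := id) hi)⟩

theorem mem_support_bound {a : ℕ →₀ ℝ} {m : ℕ} (h : ∀ i, m ≤ i → a i = 0) :
    ∀ i ∈ a.support, i < m := by
  intro i hi
  by_contra hc
  rw [Finsupp.mem_support_iff] at hi
  exact hi (h i (not_lt.1 hc))

theorem apply_eq_zero_of_bound {a : ℕ →₀ ℝ} {m m' : ℕ} (h : ∀ i ∈ a.support, i < m)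
    (hmm : m ≤ m') : ∀ i, m' ≤ i → a i = 0 := by
  intro i hi
  by_contra hc
  have := h i (Finsupp.mem_support_iff.2 hc)
  omega

theorem N'_add (h2 : ∀ i, N (e i) ≤ 1) (a b : ℕ →₀ ℝ) :
    N' N (a + b) ≤ N' N a + N' N b := by
  obtain ⟨m, hm⟩ := exists_bound a
  obtain ⟨k, hk⟩ := exists_bound b
  have ha := apply_eq_zero_of_bound hm (le_max_left m k)
  have hb := apply_eq_zero_of_bound hk (le_max_right m k)
  rw [N'_eq N a (max m k) (mem_support_bound ha), N'_eq N b (max m k) (mem_support_bound hb),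
    N'_eq N (a + b) (max m k) (mem_support_bound (fun i hi => by
      rw [Finsupp.add_apply, ha i hi, hb i hi, add_zero]))]
  have h := J_add h2 (List.range (max m k)) a b 0 0
  rwa [add_zero] at h

theorem N'_smul (h2 : ∀ i, N (e i) ≤ 1) (c : ℝ) (a : ℕ →₀ ℝ) :
    N' N (c • a) = |c| * N' N a := by
  obtain ⟨m, hm⟩ := exists_bound a
  have ha := apply_eq_zero_of_bound hm le_rfl
  rw [N'_eq N a m hm, N'_eq N (c • a) m (mem_support_bound (fun i hi => by
      rw [Finsupp.smul_apply, ha i hi, smul_zero]))]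
  have h := J_smul h2 c (List.range m) a 0
  rwa [smul_zero] at h

end Lim2

theorem limit2 (p K δ : ℝ) (hp : 1 ≤ p) (hK : 0 ≤ K) (hδ : 0 < δ)
    (N : Seminorm ℝ (ℕ →₀ ℝ)) (h1 : MT p K N) (h2 : ∀ i, N (e i) ≤ 1)
    (h3 : ∀ m, ∀ a : ℕ →₀ ℝ, (∀ i < m, 0 ≤ a i) → δ * ∑ i ∈ range m, a i ≤ N a) :
    ∃ N' : Seminorm ℝ (ℕ →₀ ℝ), MT p K N' ∧ (∀ i, N' (e i) ≤ 1) ∧
      (∀ m, ∀ a : ℕ →₀ ℝ, (∀ i < m, 0 ≤ a i) → δ * ∑ i ∈ range m, a i ≤ N' a) ∧
      ∀ σ : ℕ → ℕ, StrictMono σ → ∀ a : ℕ →₀ ℝ, N' (a.mapDomain σ) = N' a := by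
  classical
  refine ⟨Seminorm.of (Lim2.N' N) (Lim2.N'_add h2) (fun c a => by
    rw [Lim2.N'_smul h2 c a, Real.norm_eq_abs]), ?_, ?_, ?_, ?_⟩
  · -- Markov type
    intro S _ _ P μ hP f t ht
    let m : ℕ := Finset.univ.sup fun i : S => (f i).support.sup id + 1
    have hm : ∀ i : S, ∀ n, m ≤ n → f i n = 0 := by
      intro i n hn
      by_contra hc
      have h4 : n ≤ (f i).support.sup id :=
        Finset.le_sup (f := id) (Finsupp.mem_support_iff.2 hc)
      have h5 : (f i).support.sup id + 1 ≤ m :=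
        Finset.le_sup (f := fun i : S => (f i).support.sup id + 1) (Finset.mem_univ i)
      omega
    have hN : ∀ i j : S, Lim2.N' N (f j - f i) =
        Lim2.J N (List.range m) (f j - f i) 0 := by
      intro i j
      apply Lim2.N'_eq
      apply Lim2.mem_support_bound
      intro n hn
      rw [Finsupp.sub_apply, hm j n hn, hm i n hn, sub_zero]
    have h := Lim2.J_MT (by linarith) h1 h2 (List.range m) S P μ hP
      (fun i => (f i, (0 : ℕ →₀ ℝ))) t ht
    simp only [Prod.fst_sub, Prod.snd_sub, sub_zero] at h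
    show ∑ i, ∑ j, μ i * (P ^ t) i j * (Lim2.N' N (f j - f i)) ^ p ≤
        K ^ p * t * ∑ i, ∑ j, μ i * P i j * (Lim2.N' N (f j - f i)) ^ p
    simp only [hN]
    exact h
  · intro i
    show Lim2.N' N (e i) ≤ 1
    have hm : ∀ j ∈ (e i).support, j < i + 1 := by
      intro j hj
      rw [Finsupp.mem_support_iff, e_apply] at hj
      by_contra hc
      apply hj
      rw [if_neg (by omega)]
    rw [Lim2.N'_eq N (e i) (i + 1) hm]
    have h := (Lim2.J_bounds h2 (List.range (i + 1)) (e i) 0).2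
    have h0 : N (0 : ℕ →₀ ℝ) = 0 := map_zero N
    have hs : ((List.range (i + 1)).map fun j => |e i j|).sum = 1 := by
      rw [Lim2.list_sum_range, Finset.sum_eq_single i]
      · rw [e_self, abs_one]
      · intro j _ hj
        rw [e_apply, if_neg (Ne.symm hj), abs_zero]
      · intro hj
        exact absurd (Finset.mem_range.2 (Nat.lt_succ_self i)) hj
    rw [h0, hs] at h
    linarith
  · intro m a ha
    show δ * ∑ i ∈ range m, a i ≤ Lim2.N' N a
    obtain ⟨k, hk⟩ := Lim2.exists_bound a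
    have hz := Lim2.apply_eq_zero_of_bound hk (Nat.le_add_left k m)
    rw [Lim2.N'_eq N a (m + k) (Lim2.mem_support_bound hz), List.range_add]
    have h := Lim2.J_lowerA h2 h3 (List.range m) ((List.range k).map (m + ·)) a
      (fun i hi => ha i (List.mem_range.1 hi)) 0 (fun i => le_rfl)
    rw [total_zero, zero_add, Lim2.list_sum_range] at h
    exact h
  · intro σ hσ a
    show Lim2.N' N (a.mapDomain σ) = Lim2.N' N a
    unfold Lim2.N'
    have hs : (a.mapDomain σ).support.sort (· ≤ ·) = (a.support.sort (· ≤ ·)).map σ := by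
      apply List.Perm.eq_of_pairwise (le := (· ≤ ·))
      · intro x y _ _ h1 h2
        exact le_antisymm h1 h2
      · exact Finset.pairwise_sort _ _
      · rw [List.pairwise_map]
        exact (Finset.pairwise_sort _ _).imp (fun h => hσ.monotone h)
      · rw [List.perm_ext_iff_of_nodup]
        · intro x
          rw [Finset.mem_sort, List.mem_map, Finsupp.mapDomain_support_of_injective hσ.injective,
            Finset.mem_image]
          simp only [Finset.mem_sort]
        · exact Finset.sort_nodup _ _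
        · exact (Finset.sort_nodup _ _).map hσ.injective
    rw [hs]
    exact Lim2.J_map N hσ.injective _ a 0

end P125
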