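import Vale.Agent.Lib.P125.Lim1

/-!
# P125, module LIM3: block averages

PROOF.  For `R ≥ 1` let `Av R : (ℕ →₀ ℝ) →ₗ (ℕ →₀ ℝ)`, `e i ↦ (1/R) ∑_{l<R} e (i R + l)`.
Key inequality: for `φ` monotone there is `C(a, φ)` such that for all `r`, `q`
`N (Av (2^(r+q)) (mapDomain φ a)) ≤ N (Av (2^r) a) + C / 2^q`, and `C = 0` can be taken if
`φ = id`.  Proof: with `R1 = 2^r`, `R2 = 2^q` and `b l = Av R1 (e l)` (block `l` of size `R1`),
`Av (R1 R2) (e i) = (1/R2) ∑_{j<R2} b (i R2 + j)`, so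
`Av (R1 R2) (mapDomain φ a) = ∑_i a i (1/R2) ∑_{j<R2} b (φ i R2 + j)`.  Replace the inner index by
`φ i R2 + j + i`: the error is at most `2 i / R2` for each `i` (sliding a window of length `R2` by
`i`; `N (b l) ≤ 1`).  For fixed `j` the map `σ_j : i ↦ φ i R2 + j + i` is strictly increasing and
`∑_i a i b (σ_j i) = Av R1 (mapDomain σ_j a) = mapDomain σ' (Av R1 a)` with
`σ' (i R1 + l) = σ_j i R1 + l` (`l < R1`) strictly increasing, so by `h4` its norm is
`N (Av R1 a)`.  Average over `j`.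
`D r a = N (Av (2^r) a)` is nonincreasing in `r` and `≥ 0`, so it converges; `N' a = lim D r a` is
a seminorm, `MT` by `MT.comp` and `MT_of_tendsto`; `MonoContr`: let `q → ∞`, then `r → ∞`.
`N (Av R (e 0 - e 1)) ≥ δ * ∑_{i<R} 1/R = δ` by `h3` with `m = R`.
-/

open Finset Filter Topology

namespace P125

namespace Lim3x

/-- Block `i` of size `R`, averaged. -/
noncomputable def blk (R i : ℕ) : ℕ →₀ ℝ := (1 / (R : ℝ)) • ∑ l ∈ range R, e (i * R + l)

/-- Block averaging map. -/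
noncomputable def Av (R : ℕ) : (ℕ →₀ ℝ) →ₗ[ℝ] (ℕ →₀ ℝ) := Finsupp.linearCombination ℝ (blk R)

theorem Av_apply (R : ℕ) (a : ℕ →₀ ℝ) : Av R a = ∑ i ∈ a.support, a i • blk R i := rfl

theorem Av_e (R i : ℕ) : Av R (e i) = blk R i := by
  simp [Av, e, Finsupp.linearCombination_single]

theorem Av_mapDomain (R : ℕ) (φ : ℕ → ℕ) (a : ℕ →₀ ℝ) :
    Av R (a.mapDomain φ) = ∑ i ∈ a.support, a i • blk R (φ i) := by
  conv_lhs => rw [eq_sum_e a]
  rw [mapDomain_sum', map_sum]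
  apply Finset.sum_congr rfl
  intro i _
  rw [mapDomain_smul_e, map_smul, Av_e]

theorem blk_mul (R₁ R₂ i : ℕ) (h1 : 0 < R₁) (h2 : 0 < R₂) :
    blk (R₁ * R₂) i = (1 / (R₂ : ℝ)) • ∑ j ∈ range R₂, blk R₁ (i * R₂ + j) := by
  have h1' : (R₁ : ℝ) ≠ 0 := by positivity
  have h2' : (R₂ : ℝ) ≠ 0 := by positivity
  unfold blk
  rw [← Finset.smul_sum, smul_smul]
  congr 1
  · push_cast; field_simp
  · have key : ∀ n : ℕ, ∑ l ∈ range (R₁ * n), e (i * (R₁ * R₂) + l) =
        ∑ j ∈ range n, ∑ l ∈ range R₁, e ((i * R₂ + j) * R₁ + l) := by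
      intro n
      induction n with
      | zero => simp
      | succ n ih =>
        rw [Finset.sum_range_succ, ← ih, Nat.mul_succ, Finset.sum_range_add]
        congr 1
        apply Finset.sum_congr rfl
        intro l _
        congr 1
        ring
    exact key R₂

variable {N : Seminorm ℝ (ℕ →₀ ℝ)}

theorem N_sum_le {α : Type*} (N : Seminorm ℝ (ℕ →₀ ℝ)) (s : Finset α) (g : α → ℕ →₀ ℝ) :
    N (∑ i ∈ s, g i) ≤ ∑ i ∈ s, N (g i) :=
  Finset.le_sum_of_subadditive N (map_zero N).le (map_add_le_add N) _ _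

theorem N_blk_le (h2 : ∀ i, N (e i) ≤ 1) (R i : ℕ) : N (blk R i) ≤ 1 := by
  unfold blk
  rw [map_smul_eq_mul, Real.norm_eq_abs]
  have h : N (∑ l ∈ range R, e (i * R + l)) ≤ R := by
    refine (N_sum_le N _ _).trans ?_
    refine (Finset.sum_le_sum fun l _ => h2 (i * R + l)).trans ?_
    simp
  rcases Nat.eq_zero_or_pos R with hR | hR
  · subst hR; simp
  · have hR' : (0 : ℝ) < R := by exact_mod_cast hR
    rw [abs_of_pos (by positivity)]
    rw [one_div, inv_mul_le_iff₀ hR']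
    simpa using h

theorem N_blocks (h4 : ∀ σ : ℕ → ℕ, StrictMono σ → ∀ a : ℕ →₀ ℝ, N (a.mapDomain σ) = N a)
    (R : ℕ) (hR : 0 < R) (σ : ℕ → ℕ) (hσ : StrictMono σ) (a : ℕ →₀ ℝ) :
    N (∑ i ∈ a.support, a i • blk R (σ i)) = N (Av R a) := by
  let σ' : ℕ → ℕ := fun n => σ (n / R) * R + n % R
  have hσ' : StrictMono σ' := by
    intro m n hmn
    show σ (m / R) * R + m % R < σ (n / R) * R + n % R
    rcases Nat.lt_or_ge (m / R) (n / R) with h | h
    · have h1 : σ (m / R) + 1 ≤ σ (n / R) := hσ h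
      have h2 : m % R < R := Nat.mod_lt _ hR
      calc σ (m / R) * R + m % R < σ (m / R) * R + R := by omega
        _ = (σ (m / R) + 1) * R := by ring
        _ ≤ σ (n / R) * R := Nat.mul_le_mul_right _ h1
        _ ≤ _ := Nat.le_add_right _ _
    · have h3 : m / R ≤ n / R := Nat.div_le_div_right hmn.le
      have h5 : m / R = n / R := le_antisymm h3 h
      have h6 := Nat.div_add_mod m R
      have h7 := Nat.div_add_mod n R
      rw [h5] at h6 ⊢
      omega
  rw [← h4 σ' hσ' (Av R a), Av_apply, mapDomain_sum']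
  congr 1
  apply Finset.sum_congr rfl
  intro i _
  rw [Finsupp.mapDomain_smul]
  congr 1
  unfold blk
  rw [Finsupp.mapDomain_smul, mapDomain_sum']
  congr 1
  apply Finset.sum_congr rfl
  intro l hl
  rw [mapDomain_e]
  have hl' : l < R := Finset.mem_range.1 hl
  congr 1
  show σ i * R + l = σ ((i * R + l) / R) * R + (i * R + l) % R
  have h1 : (i * R + l) / R = i := by
    rw [mul_comm, Nat.mul_add_div hR, Nat.div_eq_of_lt hl', add_zero]
  have h2 : (i * R + l) % R = l := by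
    rw [mul_comm, Nat.mul_add_mod, Nat.mod_eq_of_lt hl']
  rw [h1, h2]

theorem shift_sum (g : ℕ → ℕ →₀ ℝ) (n i : ℕ) :
    ∑ j ∈ range n, g j - ∑ j ∈ range n, g (j + i) =
      ∑ j ∈ range i, g j - ∑ j ∈ range i, g (n + j) := by
  have h1 := Finset.sum_range_add g n i
  have h2 := Finset.sum_range_add g i n
  rw [add_comm i n] at h2
  have h3 : ∑ j ∈ range n, g (j + i) = ∑ j ∈ range n, g (i + j) := by
    apply Finset.sum_congr rfl; intro j _; rw [add_comm]
  rw [h3, sub_eq_sub_iff_add_eq_add, ← h1, ← h2]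

/-- The error constant. -/
noncomputable def Cst (a : ℕ →₀ ℝ) : ℝ := ∑ i ∈ a.support, |a i| * (2 * i)

theorem key (h2 : ∀ i, N (e i) ≤ 1)
    (h4 : ∀ σ : ℕ → ℕ, StrictMono σ → ∀ a : ℕ →₀ ℝ, N (a.mapDomain σ) = N a)
    (φ : ℕ → ℕ) (hφ : Monotone φ) (a : ℕ →₀ ℝ) (R₁ R₂ : ℕ) (h₁ : 0 < R₁) (h₂ : 0 < R₂) :
    N (Av (R₁ * R₂) (a.mapDomain φ)) ≤ N (Av R₁ a) + Cst a / R₂ := by
  have hR₂ : (0 : ℝ) < R₂ := by exact_mod_cast h₂
  rw [Av_mapDomain]
  -- main term
  set A : ℕ →₀ ℝ := ∑ i ∈ a.support, a i • blk (R₁ * R₂) (φ i) with hA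
  set B : ℕ →₀ ℝ := (1 / (R₂ : ℝ)) • ∑ j ∈ range R₂, ∑ i ∈ a.support,
    a i • blk R₁ (φ i * R₂ + j + i) with hB
  have hBN : N B ≤ N (Av R₁ a) := by
    rw [hB, map_smul_eq_mul, Real.norm_eq_abs, abs_of_pos (by positivity), one_div,
      inv_mul_le_iff₀ hR₂]
    refine (N_sum_le N _ _).trans ?_
    have : ∀ j ∈ range R₂, N (∑ i ∈ a.support, a i • blk R₁ (φ i * R₂ + j + i)) =
        N (Av R₁ a) := by
      intro j _
      apply N_blocks h4 R₁ h₁ (fun i => φ i * R₂ + j + i)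
      intro m n hmn
      have := Nat.mul_le_mul_right R₂ (hφ hmn.le)
      show φ m * R₂ + j + m < φ n * R₂ + j + n
      omega
    rw [Finset.sum_congr rfl this]
    simp
  have hAB : A - B = (1 / (R₂ : ℝ)) • ∑ i ∈ a.support, a i •
      (∑ j ∈ range i, blk R₁ (φ i * R₂ + j) - ∑ j ∈ range i, blk R₁ (φ i * R₂ + (R₂ + j))) := by
    rw [hA, hB, Finset.sum_comm, Finset.smul_sum, ← Finset.sum_sub_distrib, Finset.smul_sum]
    apply Finset.sum_congr rfl
    intro i _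
    rw [blk_mul R₁ R₂ (φ i) h₁ h₂, ← shift_sum (fun j => blk R₁ (φ i * R₂ + j)) R₂ i]
    rw [← Finset.smul_sum, smul_comm (a i) (1 / (R₂ : ℝ)), ← smul_sub, ← smul_sub]
    simp only [add_assoc]
  have hABN : N (A - B) ≤ Cst a / R₂ := by
    rw [hAB, map_smul_eq_mul, Real.norm_eq_abs, abs_of_pos (by positivity), one_div,
      inv_mul_le_iff₀ hR₂, mul_div_cancel₀ _ hR₂.ne']
    refine (N_sum_le N _ _).trans ?_
    apply Finset.sum_le_sum
    intro i _
    rw [map_smul_eq_mul, Real.norm_eq_abs]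
    apply mul_le_mul_of_nonneg_left _ (abs_nonneg _)
    refine (map_sub_le_add N _ _).trans ?_
    have hs : ∀ (g : ℕ → ℕ), N (∑ j ∈ range i, blk R₁ (g j)) ≤ i := by
      intro g
      refine (N_sum_le N _ _).trans ?_
      refine (Finset.sum_le_sum fun j _ => N_blk_le h2 R₁ (g j)).trans ?_
      simp
    have e1 := hs (fun j => φ i * R₂ + j)
    have e2 := hs (fun j => φ i * R₂ + (R₂ + j))
    linarith
  calc N A = N (B + (A - B)) := by rw [add_sub_cancel]
    _ ≤ N B + N (A - B) := map_add_le_add N _ _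
    _ ≤ _ := add_le_add hBN hABN

end Lim3x

open Lim3x in
theorem limit3 (p K δ : ℝ) (hp : 1 ≤ p) (hK : 0 ≤ K) (hδ : 0 < δ)
    (N : Seminorm ℝ (ℕ →₀ ℝ)) (h1 : MT p K N) (h2 : ∀ i, N (e i) ≤ 1)
    (h3 : ∀ m, ∀ a : ℕ →₀ ℝ, (∀ i < m, 0 ≤ a i) → δ * ∑ i ∈ range m, a i ≤ N a)
    (h4 : ∀ σ : ℕ → ℕ, StrictMono σ → ∀ a : ℕ →₀ ℝ, N (a.mapDomain σ) = N a) :
    ∃ N' : Seminorm ℝ (ℕ →₀ ℝ), MT p K N' ∧ MonoContr N' ∧ δ ≤ N' (e 0 - e 1) := by
  let D : ℕ → Seminorm ℝ (ℕ →₀ ℝ) := fun r => N.comp (Av (2 ^ r))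
  have hD : ∀ r a, D r a = N (Av (2 ^ r) a) := fun r a => rfl
  have hkey : ∀ (φ : ℕ → ℕ), Monotone φ → ∀ (a : ℕ →₀ ℝ) (r q : ℕ),
      D (r + q) (a.mapDomain φ) ≤ D r a + Cst a / 2 ^ q := by
    intro φ hφ a r q
    have := key h2 h4 φ hφ a (2 ^ r) (2 ^ q) (by positivity) (by positivity)
    rw [← pow_add] at this
    simpa [hD] using this
  -- exact monotonicity for the identity
  have hanti : ∀ a, Antitone fun r => D r a := by
    intro a
    apply antitone_nat_of_succ_le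
    intro r
    show N (Av (2 ^ (r + 1)) a) ≤ N (Av (2 ^ r) a)
    have e1 : Av (2 ^ (r + 1)) a = (1 / ((2 : ℕ) : ℝ)) • ∑ j ∈ range 2, ∑ i ∈ a.support,
        a i • blk (2 ^ r) (i * 2 + j) := by
      rw [Av_apply, Finset.sum_comm, Finset.smul_sum, pow_succ]
      apply Finset.sum_congr rfl
      intro i _
      rw [blk_mul (2 ^ r) 2 i (by positivity) (by norm_num), ← Finset.smul_sum, smul_comm]
    rw [e1, map_smul_eq_mul, Real.norm_eq_abs, abs_of_pos (by norm_num)]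
    have e2 : ∀ j ∈ range 2, N (∑ i ∈ a.support, a i • blk (2 ^ r) (i * 2 + j)) =
        N (Av (2 ^ r) a) := by
      intro j _
      apply N_blocks h4 (2 ^ r) (by positivity) (fun i => i * 2 + j)
      intro m n hmn
      show m * 2 + j < n * 2 + j
      omega
    have e3 := N_sum_le N (range 2) (fun j => ∑ i ∈ a.support, a i • blk (2 ^ r) (i * 2 + j))
    rw [Finset.sum_congr rfl e2] at e3
    simp only [Finset.sum_const, Finset.card_range, nsmul_eq_mul, Nat.cast_ofNat] at e3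
    push_cast
    linarith
  have hbdd : ∀ a, BddBelow (Set.range fun r => D r a) := by
    intro a
    refine ⟨0, ?_⟩
    rintro _ ⟨r, rfl⟩
    exact apply_nonneg (D r) a
  have hlim : ∀ a, Tendsto (fun r => D r a) atTop (𝓝 (⨅ r, D r a)) :=
    fun a => tendsto_atTop_ciInf (hanti a) (hbdd a)
  refine ⟨seminormLim D (fun a => ⨅ r, D r a) hlim, ?_, ?_, ?_⟩
  · refine MT_of_tendsto (N := fun r => (D r : (ℕ →₀ ℝ) → ℝ)) (by linarith) ?_ hlim
    intro r
    exact MT.comp h1 (Av (2 ^ r)).toAddMonoidHom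
  · intro φ hφ a
    rw [seminormLim_apply, seminormLim_apply]
    apply ge_of_tendsto (hlim a)
    apply Filter.Eventually.of_forall
    intro r
    -- `⨅ ≤ D (r+q) (mapDomain φ a) ≤ D r a + C / 2^q`
    have hle : ∀ q : ℕ, (⨅ r, D r (a.mapDomain φ)) ≤ D r a + Cst a / 2 ^ q := fun q =>
      (ciInf_le (hbdd _) (r + q)).trans (hkey φ hφ a r q)
    have ht : Tendsto (fun q : ℕ => D r a + Cst a / 2 ^ q) atTop (𝓝 (D r a + 0)) := by
      apply Tendsto.add tendsto_const_nhds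
      have := (tendsto_pow_atTop_nhds_zero_of_lt_one (r := (1 / 2 : ℝ)) (by norm_num)
        (by norm_num)).const_mul (Cst a)
      simpa [div_eq_mul_inv] using this
    rw [add_zero] at ht
    exact ge_of_tendsto' ht hle
  · rw [seminormLim_apply]
    apply le_ciInf
    intro r
    show δ ≤ N (Av (2 ^ r) (e 0 - e 1))
    have hR : (0 : ℝ) < ((2 ^ r : ℕ) : ℝ) := by positivity
    have hval : ∀ i < 2 ^ r, (Av (2 ^ r) (e 0 - e 1)) i = 1 / ((2 ^ r : ℕ) : ℝ) := by
      intro i hi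
      rw [map_sub, Av_e, Av_e, Finsupp.sub_apply]
      unfold blk
      simp only [Finsupp.smul_apply, Finsupp.finsetSum_apply, e_apply, smul_eq_mul, zero_mul,
        zero_add, one_mul]
      have s1 : (∑ x ∈ range (2 ^ r), if x = i then (1 : ℝ) else 0) = 1 := by
        rw [Finset.sum_ite_eq' (range (2 ^ r)) i (fun _ => (1 : ℝ)), if_pos (Finset.mem_range.2 hi)]
      have s2 : (∑ x ∈ range (2 ^ r), if 2 ^ r + x = i then (1 : ℝ) else 0) = 0 := by
        apply Finset.sum_eq_zero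
        intro x _
        rw [if_neg]
        omega
      rw [s1, s2]
      ring
    have h := h3 (2 ^ r) (Av (2 ^ r) (e 0 - e 1)) (by
      intro i hi
      rw [hval i hi]
      positivity)
    rw [Finset.sum_congr rfl (fun i hi => hval i (Finset.mem_range.1 hi))] at h
    simp only [Finset.sum_const, Finset.card_range, nsmul_eq_mul] at h
    rw [mul_one_div_cancel hR.ne', mul_one] at h
    exact h

end P125
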