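import Vale.Agent.Lib.P125.Core
import Vale.Agent.Lib.P125.Lim2
import Vale.Agent.Lib.P125.Lim3

/-!
# P125, module THMM

PROOF of `thmM`.  Suppose not (so for each `n ≥ 1` there is a bad `N_n`, with
`N_n (∑_{i<n} e i) > c n`).  By Hahn-Banach (`exists_extension_of_le_sublinear`, or
`Seminorm` versions) there is a linear `ψ ≤ N_n` with `ψ (∑_{i<n} e i) = N_n (∑_{i<n} e i) > c n`.
`ψ (e i) ≤ 1`.  `J = {j < n | c/2 ≤ ψ (e j)}` has `|J| ≥ c n / 2`.  Let `σ` be the increasing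
enumeration of `J` (`Finset.orderEmbOfFin`), and
`L a = ∑_{i<|J|} a i • e (σ i)`, `N'_n = N_n ∘ L` (`Seminorm.comp`): `MT.comp`;
`N'_n (e i) ≤ 1` for all `i` (`= 0` for `i ≥ |J|`).  If `m ≤ |J|` and `a i ≥ 0` for `i < m` then
`N'_n a ≥ N_n (∑_{i<m} a i • e (σ i))` (filter `· < σ m`, or everything if `m = |J|`)
`≥ ψ (∑_{i<m} a i • e (σ i)) ≥ (c/2) ∑_{i<m} a i`.  As `|J| → ∞` with `n`, the hypothesis `H` of
`limit_norm` holds with `δ = c/2`.  The limit norm contradicts `core`.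
-/

open Finset

namespace P125

theorem limit_norm (p K δ : ℝ) (hp : 1 ≤ p) (hK : 0 ≤ K) (hδ : 0 < δ)
    (H : ∀ n : ℕ, ∃ N : Seminorm ℝ (ℕ →₀ ℝ), MT p K N ∧ (∀ i, N (e i) ≤ 1) ∧
      ∀ m ≤ n, ∀ a : ℕ →₀ ℝ, (∀ i < m, 0 ≤ a i) → δ * ∑ i ∈ range m, a i ≤ N a) :
    ∃ N : Seminorm ℝ (ℕ →₀ ℝ), MT p K N ∧ MonoContr N ∧ δ ≤ N (e 0 - e 1) := by
  obtain ⟨N, a1, a2, a3⟩ := limit1 p K δ hp hK hδ H
  obtain ⟨N', b1, b2, b3, b4⟩ := limit2 p K δ hp hK hδ N a1 a2 a3
  exact limit3 p K δ hp hK hδ N' b1 b2 b3 b4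

/-- Hahn-Banach: a norming functional for one vector -/
theorem ThmM_norming (N : Seminorm ℝ (ℕ →₀ ℝ)) (s : ℕ →₀ ℝ) (hs : s ≠ 0) :
    ∃ ψ : (ℕ →₀ ℝ) →ₗ[ℝ] ℝ, ψ s = N s ∧ ∀ x, ψ x ≤ N x := by
  have hN_hom : ∀ c : ℝ, 0 < c → ∀ x, N (c • x) = c * N x := by
    intro c hc x
    rw [map_smul_eq_mul, Real.norm_of_nonneg hc.le]
  let f : (ℕ →₀ ℝ) →ₗ.[ℝ] ℝ := LinearPMap.mkSpanSingleton s (N s) hs
  have hdom : ∀ x : f.domain, f x ≤ N x := by
    rintro ⟨x, hx⟩
    have hx' : x ∈ Submodule.span ℝ {s} := hx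
    obtain ⟨t, rfl⟩ := Submodule.mem_span_singleton.1 hx'
    have e1 : f ⟨t • s, hx⟩ = t • N s :=
      LinearPMap.mkSpanSingleton'_apply _ _ _ _ _
    rw [e1]
    show t • N s ≤ N (t • s)
    rw [map_smul_eq_mul, smul_eq_mul, Real.norm_eq_abs]
    exact mul_le_mul_of_nonneg_right (le_abs_self t) (apply_nonneg N s)
  obtain ⟨ψ, h1, h2⟩ := exists_extension_of_le_sublinear
    f N hN_hom (fun x y => map_add_le_add N x y) hdom
  refine ⟨ψ, ?_, h2⟩
  have h3 := h1 ⟨s, Submodule.mem_span_singleton_self s⟩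
  have h4 : f ⟨s, Submodule.mem_span_singleton_self s⟩ = N s :=
    LinearPMap.mkSpanSingleton_apply ℝ _ hs (N s)
  rw [h4] at h3
  exact h3

/-- the linear map `a ↦ ∑ a i • e (σ i)` over `i < n` -/
noncomputable def ThmM_L {n : ℕ} (σ : Fin n → ℕ) : (ℕ →₀ ℝ) →ₗ[ℝ] (ℕ →₀ ℝ) where
  toFun a := ∑ i : Fin n, a i • e (σ i)
  map_add' a b := by
    simp only [Finsupp.add_apply, add_smul, Finset.sum_add_distrib]
  map_smul' c a := by
    simp only [Finsupp.smul_apply, smul_eq_mul, RingHom.id_apply, Finset.smul_sum, smul_smul]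

theorem ThmM_L_apply {n : ℕ} (σ : Fin n → ℕ) (a : ℕ →₀ ℝ) :
    ThmM_L σ a = ∑ i : Fin n, a i • e (σ i) := rfl

theorem ThmM_L_e_lt {n : ℕ} (σ : Fin n → ℕ) (i : ℕ) (hi : i < n) :
    ThmM_L σ (e i) = e (σ ⟨i, hi⟩) := by
  rw [ThmM_L_apply, Finset.sum_eq_single (⟨i, hi⟩ : Fin n)]
  · rw [e_self, one_smul]
  · intro j _ hj
    rw [e_apply, if_neg, zero_smul]
    intro h
    exact hj (Fin.ext h.symm)
  · intro h
    exact absurd (Finset.mem_univ _) h

theorem ThmM_L_e_ge {n : ℕ} (σ : Fin n → ℕ) (i : ℕ) (hi : n ≤ i) :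
    ThmM_L σ (e i) = 0 := by
  rw [ThmM_L_apply]
  apply Finset.sum_eq_zero
  intro j _
  rw [e_apply, if_neg, zero_smul]
  intro h
  have := j.isLt
  omega

theorem ThmM_filter_L {n : ℕ} (σ : Fin n → ℕ) (a : ℕ →₀ ℝ) (M m : ℕ)
    (hM : ∀ i : Fin n, σ i < M ↔ (i : ℕ) < m) :
    (ThmM_L σ a).filter (· < M) = ∑ i : Fin n, if (i : ℕ) < m then a i • e (σ i) else 0 := by
  rw [ThmM_L_apply]
  have h1 : (∑ i : Fin n, a i • e (σ i)).filter (· < M) =
      ∑ i : Fin n, (a i • e (σ i)).filter (· < M) :=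
    map_sum (Finsupp.filterAddHom (M := ℝ) (fun j : ℕ => j < M)) _ _
  rw [h1]
  apply Finset.sum_congr rfl
  intro i _
  rw [Finsupp.filter_smul]
  unfold e
  by_cases h : (i : ℕ) < m
  · rw [if_pos h, Finsupp.filter_single_of_pos (fun x => x < M) ((hM i).2 h)]
  · rw [if_neg h, Finsupp.filter_single_of_neg (fun x => x < M) (fun h2 => h ((hM i).1 h2)), smul_zero]

theorem thmM (p K c : ℝ) (hp : 1 < p) (hK : 0 ≤ K) (hc : 0 < c) :
    ∃ n : ℕ, 1 ≤ n ∧ ∀ N : Seminorm ℝ (ℕ →₀ ℝ), MT p K N →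
      (∀ (m : ℕ) (a : ℕ →₀ ℝ), N (a.filter (· < m)) ≤ N a) → (∀ i < n, N (e i) ≤ 1) →
      N (∑ i ∈ range n, e i) ≤ c * n := by
  classical
  by_contra hcon
  push Not at hcon
  have hδ : 0 < c / 2 := by positivity
  have H : ∀ n : ℕ, ∃ N : Seminorm ℝ (ℕ →₀ ℝ), MT p K N ∧ (∀ i, N (e i) ≤ 1) ∧
      ∀ m ≤ n, ∀ a : ℕ →₀ ℝ, (∀ i < m, 0 ≤ a i) →
        (c / 2) * ∑ i ∈ range m, a i ≤ N a := by
    intro n
    -- choose a large index
    obtain ⟨n', hn'⟩ := exists_nat_ge ((n : ℝ) / (c / 2))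
    have hn1 : 1 ≤ n' + 1 := by omega
    obtain ⟨N, hMT, hfil, hle, hbig⟩ := hcon (n' + 1) hn1
    have hn2 : (n : ℝ) ≤ (c / 2) * ((n' + 1 : ℕ) : ℝ) := by
      rw [div_le_iff₀ hδ] at hn'
      push_cast
      nlinarith
    set k := n' + 1 with hk
    set s : ℕ →₀ ℝ := ∑ i ∈ range k, e i with hsdef
    have hs : s ≠ 0 := by
      intro h
      rw [h, map_zero] at hbig
      have : 0 ≤ c * (k : ℝ) := by positivity
      linarith
    obtain ⟨ψ, hψs, hψ⟩ := ThmM_norming N s hs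
    set J : Finset ℕ := (range k).filter (fun j => c / 2 ≤ ψ (e j)) with hJ
    have hcard : n ≤ J.card := by
      have h1 : N s ≤ J.card + (c / 2) * k := by
        rw [← hψs, hsdef, map_sum]
        calc ∑ i ∈ range k, ψ (e i) ≤
            ∑ i ∈ range k, ((if c / 2 ≤ ψ (e i) then (1 : ℝ) else 0) + c / 2) := by
              apply Finset.sum_le_sum
              intro i hi
              split_ifs with h
              · have := (hψ (e i)).trans (hle i (Finset.mem_range.1 hi))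
                linarith
              · push Not at h
                linarith
          _ = J.card + (c / 2) * k := by
              rw [Finset.sum_add_distrib, ← Finset.sum_filter, Finset.sum_const,
                Finset.sum_const, Finset.card_range]
              simp only [nsmul_eq_mul, mul_one]
              ring
      have h2 : (n : ℝ) ≤ J.card := by linarith
      exact_mod_cast h2
    obtain ⟨J', hJ', hJ'card⟩ := Finset.exists_subset_card_eq hcard
    set σ : Fin n ↪o ℕ := J'.orderEmbOfFin hJ'card with hσ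
    have hσmem : ∀ i, σ i ∈ J := fun i => hJ' (Finset.orderEmbOfFin_mem _ _ _)
    have hσk : ∀ i, σ i < k := fun i =>
      Finset.mem_range.1 (Finset.mem_filter.1 (hσmem i)).1
    have hσψ : ∀ i, c / 2 ≤ ψ (e (σ i)) := fun i => (Finset.mem_filter.1 (hσmem i)).2
    refine ⟨N.comp (ThmM_L σ), ?_, ?_, ?_⟩
    · exact hMT.comp (ThmM_L σ).toAddMonoidHom
    · intro i
      rw [Seminorm.comp_apply]
      rcases lt_or_ge i n with hi | hi
      · rw [ThmM_L_e_lt _ i hi]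
        exact hle _ (hσk _)
      · rw [ThmM_L_e_ge _ i hi, map_zero]
        exact zero_le_one
    · intro m hm a ha
      rw [Seminorm.comp_apply]
      obtain ⟨M, hM⟩ : ∃ M : ℕ, ∀ i : Fin n, σ i < M ↔ (i : ℕ) < m := by
        rcases lt_or_ge m n with h | h
        · refine ⟨σ ⟨m, h⟩, fun i => ?_⟩
          rw [σ.lt_iff_lt]
          exact Fin.lt_def
        · refine ⟨k, fun i => ?_⟩
          have := i.isLt
          exact ⟨fun _ => by omega, fun _ => hσk i⟩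
      have h1 := hfil M (ThmM_L σ a)
      rw [ThmM_filter_L σ a M m hM] at h1
      refine le_trans ?_ h1
      refine le_trans ?_ (hψ _)
      rw [map_sum]
      have h2 : ∑ i ∈ range m, a i = ∑ i : Fin n, if (i : ℕ) < m then a i else 0 := by
        rw [Fin.sum_univ_eq_sum_range (fun i => if i < m then a i else 0) n,
          ← Finset.sum_filter]
        congr 1
        ext i
        rw [Finset.mem_range, Finset.mem_filter, Finset.mem_range]
        omega
      rw [h2, Finset.mul_sum]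
      apply Finset.sum_le_sum
      intro i _
      split_ifs with h
      · rw [map_smul, smul_eq_mul, mul_comm]
        exact mul_le_mul_of_nonneg_left (hσψ i) (ha i h)
      · simp
  obtain ⟨N, h1, h2, h3⟩ := limit_norm p K (c / 2) hp.le hK hδ H
  have h4 := core p K hp hK N h1 h2
  rw [h4] at h3
  linarith

end P125
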