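import Vale.Agent.Lib.P125.Tree

/-!
# P125, module TREE2: Markov type and monotonicity for the tree seminorms

`tree_MT`: `N a ^ p = ev p t 0 a`; prove by induction on `t`, for all `y : S → X`,
`f : S → ℕ → ℝ`, the inequality
`∑ μ i (P^k) i j ev p t (y j - y i) (f j - f i) ≤ K^p k ∑ μ i P i j ev p t (y j - y i) (f j - f i)`;
at a node `ev (node d i l r) (y j - y i) (..)` is the half sum of `ev l ((y j + f j i • d) - (..))`
and the same for `r`; at a leaf it is `MT` of the norm of `X`.
`tree_mono`: if all labels of `t` are `≥ m` then `ev p t y (a.filter (· < m)) = ‖y‖^p` and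
`‖y‖^p ≤ ev p t y a` (`norm_le_ev`); the general case by induction.
-/

open Finset

namespace P125

namespace Tree2

theorem ev_MT {X : Type*} [NormedAddCommGroup X] [NormedSpace ℝ X] {p K : ℝ}
    (h : MT p K (fun x : X => ‖x‖)) {S : Type} [Fintype S] [DecidableEq S] (P : Matrix S S ℝ)
    (μ : S → ℝ) (hP : IsRevChain P μ) (k : ℕ) (hk : 1 ≤ k) (t : LTree X) :
    ∀ (y : S → X) (f : S → ℕ → ℝ),
      ∑ i, ∑ j, μ i * (P ^ k) i j * t.ev p (y j - y i) (f j - f i) ≤
        K ^ p * k * ∑ i, ∑ j, μ i * P i j * t.ev p (y j - y i) (f j - f i) := by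
  induction t with
  | leaf =>
    intro y f
    exact h S P μ hP y k hk
  | node d n l r ihl ihr =>
    intro y f
    have h1 := ihl (fun j => y j + f j n • d) f
    have h2 := ihr (fun j => y j - f j n • d) f
    have e1 : ∀ i j, (LTree.node d n l r).ev p (y j - y i) (f j - f i) =
        (l.ev p ((y j + f j n • d) - (y i + f i n • d)) (f j - f i) +
          r.ev p ((y j - f j n • d) - (y i - f i n • d)) (f j - f i)) / 2 := by
      intro i j
      have e2 : (y j - y i) + (f j - f i) n • d = (y j + f j n • d) - (y i + f i n • d) := by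
        rw [Pi.sub_apply, sub_smul]
        abel
      have e3 : (y j - y i) - (f j - f i) n • d = (y j - f j n • d) - (y i - f i n • d) := by
        rw [Pi.sub_apply, sub_smul]
        abel
      show (l.ev p ((y j - y i) + (f j - f i) n • d) (f j - f i) +
        r.ev p ((y j - y i) - (f j - f i) n • d) (f j - f i)) / 2 = _
      rw [e2, e3]
    have e4 : ∀ Q : Matrix S S ℝ,
        ∑ i, ∑ j, μ i * Q i j * (LTree.node d n l r).ev p (y j - y i) (f j - f i) =
          (∑ i, ∑ j, μ i * Q i j *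
              l.ev p ((y j + f j n • d) - (y i + f i n • d)) (f j - f i) +
            ∑ i, ∑ j, μ i * Q i j *
              r.ev p ((y j - f j n • d) - (y i - f i n • d)) (f j - f i)) / 2 := by
      intro Q
      rw [← sum_add_distrib, sum_div]
      refine sum_congr rfl fun i _ => ?_
      rw [← sum_add_distrib, sum_div]
      refine sum_congr rfl fun j _ => ?_
      rw [e1]
      ring
    rw [e4, e4]
    linarith

theorem ev_filter_eq {X : Type*} [NormedAddCommGroup X] [NormedSpace ℝ X] {p : ℝ} (m : ℕ)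
    (a : ℕ →₀ ℝ) (t : LTree X) : ∀ (s : ℕ), t.lab s → m ≤ s → ∀ y : X,
      t.ev p y (a.filter (· < m)) = ‖y‖ ^ p := by
  induction t with
  | leaf =>
    intro s _ _ y
    rfl
  | node d n l r ihl ihr =>
    intro s hs hm y
    obtain ⟨h1, h2, h3⟩ := hs
    have e1 : (a.filter (· < m)) n = 0 := by
      rw [Finsupp.filter_apply, if_neg (by omega)]
    show (l.ev p (y + (a.filter (· < m)) n • d) (a.filter (· < m)) +
      r.ev p (y - (a.filter (· < m)) n • d) (a.filter (· < m))) / 2 = _
    rw [e1, zero_smul, add_zero, sub_zero, ihl n h2 (by omega), ihr n h3 (by omega)]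
    ring

theorem ev_filter_le {X : Type*} [NormedAddCommGroup X] [NormedSpace ℝ X] {p : ℝ} (hp : 1 ≤ p)
    (m : ℕ) (a : ℕ →₀ ℝ) (t : LTree X) : ∀ (s : ℕ), t.lab s → ∀ y : X,
      t.ev p y (a.filter (· < m)) ≤ t.ev p y a := by
  induction t with
  | leaf =>
    intro s _ y
    exact le_rfl
  | node d n l r ihl ihr =>
    intro s hs y
    rcases lt_or_ge n m with hn | hn
    · obtain ⟨h1, h2, h3⟩ := hs
      have e1 : (a.filter (· < m)) n = a n := by
        rw [Finsupp.filter_apply, if_pos hn]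
      show (l.ev p (y + (a.filter (· < m)) n • d) (a.filter (· < m)) +
        r.ev p (y - (a.filter (· < m)) n • d) (a.filter (· < m))) / 2 ≤
          (l.ev p (y + a n • d) a + r.ev p (y - a n • d) a) / 2
      rw [e1]
      have h4 := ihl n h2 (y + a n • d)
      have h5 := ihr n h3 (y - a n • d)
      linarith
    · have h6 : (LTree.node d n l r).lab n := ⟨le_rfl, hs.2.1, hs.2.2⟩
      rw [ev_filter_eq m a _ n h6 hn y]
      exact norm_le_ev hp _ y a

end Tree2

theorem tree_MT {X : Type*} [NormedAddCommGroup X] [NormedSpace ℝ X] {p K : ℝ} (hp : 1 ≤ p)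
    (hK : 0 ≤ K) (h : MT p K (fun x : X => ‖x‖)) (t : LTree X) (N : Seminorm ℝ (ℕ →₀ ℝ))
    (hN : ∀ a : ℕ →₀ ℝ, N a = (t.ev p 0 a) ^ (1 / p)) : MT p K N := by
  intro S _ _ P μ hP f k hk
  have h1 := Tree2.ev_MT h P μ hP k hk t (fun _ => 0) (fun i => ⇑(f i))
  have h2 : ∀ i j, N (f j - f i) ^ p = t.ev p ((0 : X) - 0) (⇑(f j) - ⇑(f i)) := by
    intro i j
    rw [hN, ← Real.rpow_mul (ev_nonneg _ _ _), one_div, inv_mul_cancel₀ (by linarith),
      Real.rpow_one, sub_zero, Finsupp.coe_sub]
  simp only [h2]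
  exact h1

theorem tree_mono {X : Type*} [NormedAddCommGroup X] [NormedSpace ℝ X] {p : ℝ} (hp : 1 ≤ p)
    (t : LTree X) (ht : t.lab 0) (m : ℕ) (a : ℕ →₀ ℝ) (y : X) :
    t.ev p y (a.filter (· < m)) ≤ t.ev p y a :=
  Tree2.ev_filter_le hp m a t 0 ht y

end P125
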