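import Vale.Agent.Lib.P125.Split
import Vale.Agent.Lib.P125.Tree2
import Vale.Agent.Lib.P125.ThmM

/-!
# P125, module BETA

PROOF.  `n` from `thmM p K (1/16)`, `r = 1 + 1/n` (`n^(1-1/r) ≤ 2`, as `1 - 1/r = 1/(n+1)` and
`n ≤ 2^(n+1)`).  For `D : ℕ` let `β_D = sup {(ev p t 0 1)^(1/p) | t.bud r 1, t.depth ≤ D}`
(finite, `≤ D`, since `‖y + ..‖ ≤ ‖y‖ + D` pointwise).  For a tree `u` of depth `≤ D` with
`u.bud r s`, `s > 0`: scale by `s^(-1/r)`: `(ev p u 0 1)^(1/p) ≤ s^(1/r) β_D`; with `s = 2/n`: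
`(2/n)^(1/r) ≤ 4/n`.  Take `t` with `t.bud r 1` and `s` from `tree_split`; `N` from
`tree_seminorm` for `s`.  `N (e i) ≤ (4/n) β_D` (third part of `tree_split`).  `thmM` for the
seminorm `N` divided by `(4/n) β_D` (or by `(4/n) β_D + ε`) gives
`N (∑_{i<n} e i) ≤ (1/16) n (4/n) β_D = β_D / 4`.  So `(ev p t 0 1)^(1/p) ≤ 2 + β_D / 4`,
`β_D ≤ 2 + β_D / 4`, `β_D ≤ 8/3`.
-/

open Finset

namespace P125

/-- The budget of a tree is nonnegative. -/
theorem Beta_bud_nonneg {X : Type*} [NormedAddCommGroup X] {r : ℝ} :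
    ∀ (t : LTree X) (s : ℝ), t.bud r s → 0 ≤ s
  | LTree.leaf, _, h => h
  | LTree.node d _ l _, s, h => by
    have h1 := Beta_bud_nonneg l _ h.1
    have h2 : 0 ≤ ‖d‖ ^ r := Real.rpow_nonneg (norm_nonneg _) _
    linarith

/-- The budget is monotone in `s`. -/
theorem Beta_bud_mono {X : Type*} [NormedAddCommGroup X] {r : ℝ} :
    ∀ (t : LTree X) (s s' : ℝ), s ≤ s' → t.bud r s → t.bud r s'
  | LTree.leaf, _, _, hs, h => le_trans (show (0 : ℝ) ≤ _ from h) hs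
  | LTree.node d _ l r', s, s', hs, h =>
    ⟨Beta_bud_mono l _ _ (by linarith) h.1, Beta_bud_mono r' _ _ (by linarith) h.2⟩

/-- The tree with all steps multiplied by `c`. -/
def Beta_scale {X : Type*} [NormedAddCommGroup X] [NormedSpace ℝ X] (c : ℝ) : LTree X → LTree X
  | LTree.leaf => LTree.leaf
  | LTree.node d i l r => LTree.node (c • d) i (Beta_scale c l) (Beta_scale c r)

theorem Beta_scale_depth {X : Type*} [NormedAddCommGroup X] [NormedSpace ℝ X] (c : ℝ) :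
    ∀ t : LTree X, (Beta_scale c t).depth = t.depth
  | LTree.leaf => rfl
  | LTree.node d i l r => by
    simp only [Beta_scale, LTree.depth, Beta_scale_depth c l, Beta_scale_depth c r]

theorem Beta_scale_bud {X : Type*} [NormedAddCommGroup X] [NormedSpace ℝ X] {r c : ℝ}
    (hc : 0 ≤ c) : ∀ (t : LTree X) (s : ℝ), t.bud r s → (Beta_scale c t).bud r (c ^ r * s)
  | LTree.leaf, s, h => mul_nonneg (Real.rpow_nonneg hc _) h
  | LTree.node d i l r', s, h => by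
    have e1 : c ^ r * s - ‖c • d‖ ^ r = c ^ r * (s - ‖d‖ ^ r) := by
      rw [norm_smul, Real.norm_of_nonneg hc, Real.mul_rpow hc (norm_nonneg _)]
      ring
    refine ⟨?_, ?_⟩
    · rw [e1]
      exact Beta_scale_bud hc l _ h.1
    · rw [e1]
      exact Beta_scale_bud hc r' _ h.2

theorem Beta_scale_ev {X : Type*} [NormedAddCommGroup X] [NormedSpace ℝ X] {p c : ℝ}
    (hc : 0 ≤ c) (a : ℕ → ℝ) : ∀ (t : LTree X) (y : X),
      (Beta_scale c t).ev p (c • y) a = c ^ p * t.ev p y a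
  | LTree.leaf, y => by
    simp only [Beta_scale, LTree.ev]
    rw [norm_smul, Real.norm_of_nonneg hc, Real.mul_rpow hc (norm_nonneg _)]
  | LTree.node d i l r', y => by
    simp only [Beta_scale, LTree.ev]
    have e1 : c • y + a i • c • d = c • (y + a i • d) := by
      rw [smul_add, smul_comm]
    have e2 : c • y - a i • c • d = c • (y - a i • d) := by
      rw [smul_sub, smul_comm]
    rw [e1, e2, Beta_scale_ev hc a l, Beta_scale_ev hc a r']
    ring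

/-- Pointwise bound. -/
theorem Beta_ev_le {X : Type*} [NormedAddCommGroup X] [NormedSpace ℝ X] {p r : ℝ} (hp : 0 ≤ p)
    (hr : 0 < r) : ∀ (t : LTree X) (D : ℕ) (s : ℝ) (y : X), s ≤ 1 → t.bud r s → t.depth ≤ D →
      t.ev p y (fun _ => 1) ≤ (‖y‖ + D) ^ p
  | LTree.leaf, D, s, y, _, _, _ => by
    simp only [LTree.ev]
    apply Real.rpow_le_rpow (norm_nonneg _) _ hp
    have : (0 : ℝ) ≤ D := Nat.cast_nonneg D
    linarith
  | LTree.node d i l r', D, s, y, hs, h, hD => by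
    have hD1 : 1 ≤ D := by
      simp only [LTree.depth] at hD
      omega
    obtain ⟨D', rfl⟩ : ∃ D', D = D' + 1 := ⟨D - 1, by omega⟩
    have hl : l.depth ≤ D' := by
      simp only [LTree.depth] at hD
      omega
    have hr' : r'.depth ≤ D' := by
      simp only [LTree.depth] at hD
      omega
    have hd0 : 0 ≤ ‖d‖ ^ r := Real.rpow_nonneg (norm_nonneg _) _
    have hd1 : ‖d‖ ^ r ≤ 1 := by
      have := Beta_bud_nonneg l _ h.1
      linarith
    have hd : ‖d‖ ≤ 1 := by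
      by_contra hc
      push Not at hc
      have := Real.one_lt_rpow hc hr
      linarith
    have h1 := Beta_ev_le hp hr l D' _ (y + (1 : ℝ) • d) (by linarith) h.1 hl
    have h2 := Beta_ev_le hp hr r' D' _ (y - (1 : ℝ) • d) (by linarith) h.2 hr'
    simp only [LTree.ev]
    have h3 : (‖y + (1 : ℝ) • d‖ + D') ^ p ≤ (‖y‖ + (D' + 1 : ℕ)) ^ p := by
      apply Real.rpow_le_rpow (by positivity) _ hp
      have := norm_add_le y ((1 : ℝ) • d)
      rw [one_smul] at this ⊢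
      push_cast
      linarith
    have h4 : (‖y - (1 : ℝ) • d‖ + D') ^ p ≤ (‖y‖ + (D' + 1 : ℕ)) ^ p := by
      apply Real.rpow_le_rpow (by positivity) _ hp
      have := norm_sub_le y ((1 : ℝ) • d)
      rw [one_smul] at this ⊢
      push_cast
      linarith
    linarith

/-- Markov type passes to nonnegative multiples. -/
theorem Beta_MT_smul {p K : ℝ} {N N' : Seminorm ℝ (ℕ →₀ ℝ)} {c : ℝ} (hc : 0 ≤ c)
    (hN' : ∀ a, N' a = c * N a) (h : MT p K N) : MT p K N' := by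
  intro S _ _ P μ hP f t ht
  have h1 := h S P μ hP f t ht
  have e1 : ∀ i j : S, N' (f j - f i) ^ p = c ^ p * N (f j - f i) ^ p := by
    intro i j
    rw [hN', Real.mul_rpow hc (apply_nonneg N _)]
  have e2 : ∑ i, ∑ j, μ i * (P ^ t) i j * N' (f j - f i) ^ p =
      c ^ p * ∑ i, ∑ j, μ i * (P ^ t) i j * N (f j - f i) ^ p := by
    rw [Finset.mul_sum]
    refine Finset.sum_congr rfl fun i _ => ?_
    rw [Finset.mul_sum]
    refine Finset.sum_congr rfl fun j _ => ?_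
    rw [e1]
    ring
  have e3 : ∑ i, ∑ j, μ i * P i j * N' (f j - f i) ^ p =
      c ^ p * ∑ i, ∑ j, μ i * P i j * N (f j - f i) ^ p := by
    rw [Finset.mul_sum]
    refine Finset.sum_congr rfl fun i _ => ?_
    rw [Finset.mul_sum]
    refine Finset.sum_congr rfl fun j _ => ?_
    rw [e1]
    ring
  rw [e2, e3]
  have h2 := mul_le_mul_of_nonneg_left h1 (Real.rpow_nonneg hc p)
  calc _ ≤ _ := h2
    _ = _ := by ring

/-- `n^(1-1/r) ≤ 2` for `r = 1 + 1/n`. -/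
theorem Beta_npow (n : ℕ) (hn : 1 ≤ n) :
    (n : ℝ) ^ (1 - 1 / (1 + 1 / (n : ℝ))) ≤ 2 := by
  have hn0 : (0 : ℝ) < n := by exact_mod_cast hn
  have e1 : 1 - 1 / (1 + 1 / (n : ℝ)) = 1 / ((n : ℝ) + 1) := by
    field_simp
    ring
  rw [e1]
  have h1 : (n : ℝ) ≤ 2 ^ ((n : ℝ) + 1) := by
    have h2 : n ≤ 2 ^ (n + 1) := by
      have h3 : n < 2 ^ n := Nat.lt_two_pow_self
      have h4 : 2 ^ n ≤ 2 ^ (n + 1) := Nat.pow_le_pow_right (by norm_num) (by omega)
      omega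
    have h5 : ((2 : ℝ) ^ ((n : ℝ) + 1)) = (2 : ℝ) ^ (n + 1) := by
      rw [← Real.rpow_natCast]
      push_cast
      rfl
    rw [h5]
    exact_mod_cast h2
  calc (n : ℝ) ^ (1 / ((n : ℝ) + 1)) ≤ (2 ^ ((n : ℝ) + 1)) ^ (1 / ((n : ℝ) + 1)) :=
        Real.rpow_le_rpow hn0.le h1 (by positivity)
    _ = 2 := by
        rw [← Real.rpow_mul (by norm_num), mul_one_div, div_self (by positivity), Real.rpow_one]

/-- `(2/n)^(1/r) ≤ 4/n`. -/
theorem Beta_two_div (n : ℕ) (hn : 1 ≤ n) {r : ℝ} (hr : 1 < r)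
    (hnr : (n : ℝ) ^ (1 - 1 / r) ≤ 2) : (2 / (n : ℝ)) ^ (1 / r) ≤ 4 / n := by
  have hn0 : (0 : ℝ) < n := by exact_mod_cast hn
  have hr0 : 0 < r := by linarith
  have h1r : 1 / r ≤ 1 := by
    rw [div_le_one hr0]
    exact hr.le
  have e1 : (2 / (n : ℝ)) ^ (1 / r) = 2 ^ (1 / r) * ((n : ℝ) ^ (1 - 1 / r) / n) := by
    rw [Real.div_rpow (by norm_num) hn0.le, Real.rpow_sub hn0, Real.rpow_one]
    have : (n : ℝ) ^ (1 / r) ≠ 0 := (Real.rpow_pos_of_pos hn0 _).ne'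
    field_simp
  rw [e1]
  have h2 : (2 : ℝ) ^ (1 / r) ≤ 2 := by
    calc (2 : ℝ) ^ (1 / r) ≤ 2 ^ (1 : ℝ) := Real.rpow_le_rpow_of_exponent_le (by norm_num) h1r
      _ = 2 := by rw [Real.rpow_one]
  calc (2 : ℝ) ^ (1 / r) * ((n : ℝ) ^ (1 - 1 / r) / n) ≤ 2 * (2 / n) := by
        apply mul_le_mul h2 _ (by positivity) (by norm_num)
        exact div_le_div_of_nonneg_right hnr hn0.le
    _ = 4 / n := by ring

/-- The set of values. -/
def Beta_set (X : Type*) [NormedAddCommGroup X] [NormedSpace ℝ X] (p r : ℝ) (D : ℕ) : Set ℝ :=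
  {x | ∃ t : LTree X, t.bud r 1 ∧ t.depth ≤ D ∧ x = (t.ev p 0 (fun _ => 1)) ^ (1 / p)}

theorem Beta_set_bdd (X : Type*) [NormedAddCommGroup X] [NormedSpace ℝ X] {p r : ℝ} (hp : 1 < p)
    (hr : 1 < r) (D : ℕ) : BddAbove (Beta_set X p r D) := by
  refine ⟨D, ?_⟩
  rintro x ⟨t, ht, hD, rfl⟩
  have h1 := Beta_ev_le (X := X) (p := p) (r := r) (by linarith) (by linarith) t D 1 0 le_rfl ht hD
  rw [norm_zero, zero_add] at h1
  calc (t.ev p 0 fun _ => 1) ^ (1 / p) ≤ ((D : ℝ) ^ p) ^ (1 / p) :=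
        Real.rpow_le_rpow (ev_nonneg _ _ _) h1 (by positivity)
    _ = D := by
        rw [← Real.rpow_mul (Nat.cast_nonneg D), mul_one_div, div_self (by linarith),
          Real.rpow_one]

theorem Beta_set_nonempty (X : Type*) [NormedAddCommGroup X] [NormedSpace ℝ X] {p r : ℝ}
    (D : ℕ) : (Beta_set X p r D).Nonempty :=
  ⟨_, LTree.leaf, (zero_le_one : (0 : ℝ) ≤ 1), Nat.zero_le _, rfl⟩

theorem Beta_sup_nonneg (X : Type*) [NormedAddCommGroup X] [NormedSpace ℝ X] {p r : ℝ}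
    (D : ℕ) : 0 ≤ sSup (Beta_set X p r D) := by
  apply Real.sSup_nonneg
  rintro x ⟨t, _, _, rfl⟩
  exact Real.rpow_nonneg (ev_nonneg _ _ _) _

/-- Scaling. -/
theorem Beta_scaled {X : Type*} [NormedAddCommGroup X] [NormedSpace ℝ X] {p r s : ℝ}
    (hp : 1 < p) (hr : 1 < r) (hs : 0 < s) {D : ℕ} (u : LTree X) (hu : u.bud r s)
    (hD : u.depth ≤ D) :
    (u.ev p 0 (fun _ => 1)) ^ (1 / p) ≤ s ^ (1 / r) * sSup (Beta_set X p r D) := by
  have hr0 : 0 < r := by linarith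
  have hp0 : 0 < p := by linarith
  set c : ℝ := (s ^ (1 / r))⁻¹ with hc
  have hsr : 0 < s ^ (1 / r) := Real.rpow_pos_of_pos hs _
  have hc0 : 0 < c := inv_pos.mpr hsr
  have hcr : c ^ r * s = 1 := by
    rw [hc, Real.inv_rpow hsr.le, ← Real.rpow_mul hs.le, one_div_mul_cancel hr0.ne',
      Real.rpow_one, inv_mul_cancel₀ hs.ne']
  have h1 := Beta_scale_bud (r := r) hc0.le u s hu
  rw [hcr] at h1
  have h2 : ((Beta_scale c u).ev p 0 (fun _ => 1)) ^ (1 / p) ≤ sSup (Beta_set X p r D) :=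
    le_csSup (Beta_set_bdd X hp hr D)
      ⟨Beta_scale c u, h1, (Beta_scale_depth c u).le.trans hD, rfl⟩
  have h3 := Beta_scale_ev (p := p) hc0.le (fun _ => 1) u 0
  rw [smul_zero] at h3
  rw [h3, Real.mul_rpow (Real.rpow_nonneg hc0.le _) (ev_nonneg _ _ _), ← Real.rpow_mul hc0.le,
    mul_one_div, div_self hp0.ne', Real.rpow_one] at h2
  calc (u.ev p 0 (fun _ => 1)) ^ (1 / p) =
        s ^ (1 / r) * (c * (u.ev p 0 (fun _ => 1)) ^ (1 / p)) := by
        rw [hc, ← mul_assoc, mul_inv_cancel₀ hsr.ne', one_mul]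
    _ ≤ s ^ (1 / r) * sSup (Beta_set X p r D) := mul_le_mul_of_nonneg_left h2 hsr.le

theorem Beta_sum_e_coe (n : ℕ) :
    ((∑ i ∈ range n, e i : ℕ →₀ ℝ) : ℕ → ℝ) = fun i => if i < n then 1 else 0 := by
  classical
  funext i
  rw [Finsupp.finsetSum_apply]
  simp only [e_apply]
  rw [Finset.sum_ite_eq' (range n) i (fun _ => (1 : ℝ))]
  simp

theorem Beta_e_coe (i : ℕ) : ((e i : ℕ →₀ ℝ) : ℕ → ℝ) = fun j => if j = i then 1 else 0 := by
  funext j
  rw [e_apply]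
  by_cases h : i = j
  · rw [if_pos h, if_pos h.symm]
  · rw [if_neg h, if_neg (fun h' => h h'.symm)]

/-- The main step. -/
theorem Beta_step {X : Type*} [NormedAddCommGroup X] [NormedSpace ℝ X] {p K : ℝ} (hp : 1 < p)
    (hK : 0 ≤ K) (h : MT p K (fun x : X => ‖x‖)) (n : ℕ) (hn : 1 ≤ n)
    (hM : ∀ N : Seminorm ℝ (ℕ →₀ ℝ), MT p K N →
      (∀ (m : ℕ) (a : ℕ →₀ ℝ), N (a.filter (· < m)) ≤ N a) → (∀ i < n, N (e i) ≤ 1) →
      N (∑ i ∈ range n, e i) ≤ (1 / 16) * n)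
    {r : ℝ} (hr : 1 < r) (hnr : (n : ℝ) ^ (1 - 1 / r) ≤ 2) (D : ℕ) (t : LTree X)
    (ht : t.bud r 1) (hD : t.depth ≤ D) :
    (t.ev p 0 (fun _ => 1)) ^ (1 / p) ≤ 2 + sSup (Beta_set X p r D) / 4 := by
  have hn0 : (0 : ℝ) < n := by exact_mod_cast hn
  have hp0 : 0 < p := by linarith
  set β := sSup (Beta_set X p r D) with hβ
  have hβ0 : 0 ≤ β := Beta_sup_nonneg X D
  obtain ⟨s, hs0, hs1, hs2⟩ := tree_split n hn hr hnr t ht
  obtain ⟨N, hN⟩ := tree_seminorm (p := p) hp.le s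
  have hMT : MT p K N := tree_MT hp.le hK h s N hN
  have hmono : ∀ (m : ℕ) (a : ℕ →₀ ℝ), N (a.filter (· < m)) ≤ N a := by
    intro m a
    rw [hN, hN]
    exact Real.rpow_le_rpow (ev_nonneg _ _ _) (tree_mono hp.le s hs0 m a 0) (by positivity)
  have hNe : ∀ i, N (e i) ≤ 4 / n * β := by
    intro i
    obtain ⟨u, hu1, hu2, hu3⟩ := hs2 i
    rw [hN, Beta_e_coe, hu3 p]
    have h1 := Beta_scaled hp hr (by positivity : (0 : ℝ) < 2 / n) u hu2 (hu1.le.trans hD)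
    refine h1.trans ?_
    exact mul_le_mul_of_nonneg_right (Beta_two_div n hn hr hnr) hβ0
  have hkey : ∀ ε : ℝ, 0 < ε → N (∑ i ∈ range n, e i) ≤ β / 4 + n * ε / 16 := by
    intro ε hε
    set c : ℝ := (4 / n * β + ε)⁻¹ with hc
    have hden : 0 < 4 / n * β + ε := by positivity
    have hc0 : 0 < c := inv_pos.mpr hden
    set c' : NNReal := ⟨c, hc0.le⟩ with hc'
    set N' : Seminorm ℝ (ℕ →₀ ℝ) := c' • N with hN'
    have hN'a : ∀ a, N' a = c * N a := by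
      intro a
      rw [hN', smul_apply, NNReal.smul_def, smul_eq_mul]
      rfl
    have h1 := hM N' (Beta_MT_smul hc0.le hN'a hMT)
      (fun m a => by
        rw [hN'a, hN'a]
        exact mul_le_mul_of_nonneg_left (hmono m a) hc0.le)
      (fun i _ => by
        rw [hN'a, hc, inv_mul_le_iff₀ hden, mul_one]
        have := hNe i
        linarith)
    rw [hN'a, hc, inv_mul_le_iff₀ hden] at h1
    refine h1.trans (le_of_eq ?_)
    field_simp
    ring
  have hfin : N (∑ i ∈ range n, e i) ≤ β / 4 := by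
    apply le_of_forall_pos_le_add
    intro δ hδ
    have h1 := hkey (16 * δ / n) (by positivity)
    have e1 : (n : ℝ) * (16 * δ / n) / 16 = δ := by
      field_simp
    rw [e1] at h1
    exact h1
  have h2 := hs1 p hp.le
  rw [← Beta_sum_e_coe, ← hN] at h2
  linarith

theorem beta {X : Type*} [NormedAddCommGroup X] [NormedSpace ℝ X] {p K : ℝ} (hp : 1 < p)
    (hK : 0 ≤ K) (h : MT p K (fun x : X => ‖x‖)) :
    ∃ r : ℝ, 1 < r ∧ r ≤ 2 ∧
      ∀ t : LTree X, t.bud r 1 → t.ev p 0 (fun _ => 1) ≤ (8 / 3) ^ p := by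
  obtain ⟨n, hn, hM⟩ := thmM p K (1 / 16) hp hK (by norm_num)
  have hn0 : (0 : ℝ) < n := by exact_mod_cast hn
  have hn1 : (1 : ℝ) ≤ n := by exact_mod_cast hn
  have hp0 : 0 < p := by linarith
  have hinv : 1 / (n : ℝ) ≤ 1 := by
    rw [div_le_one hn0]
    exact hn1
  have hinv0 : 0 < 1 / (n : ℝ) := by positivity
  refine ⟨1 + 1 / n, by linarith, by linarith, ?_⟩
  intro t ht
  have hr : 1 < 1 + 1 / (n : ℝ) := by linarith
  have hnr := Beta_npow n hn
  set r := 1 + 1 / (n : ℝ) with hrdef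
  set β := sSup (Beta_set X p r t.depth) with hβ
  have h1 : β ≤ 2 + β / 4 := by
    apply csSup_le (Beta_set_nonempty X t.depth)
    rintro x ⟨t', ht', hD', rfl⟩
    exact Beta_step hp hK h n hn hM hr hnr t.depth t' ht' hD'
  have h2 : β ≤ 8 / 3 := by linarith
  have h3 : (t.ev p 0 (fun _ => 1)) ^ (1 / p) ≤ 8 / 3 :=
    (le_csSup (Beta_set_bdd X hp hr t.depth) ⟨t, ht, le_rfl, rfl⟩).trans h2
  have h4 := Real.rpow_le_rpow (Real.rpow_nonneg (ev_nonneg _ _ _) _) h3 hp0.le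
  rwa [← Real.rpow_mul (ev_nonneg _ _ _), one_div_mul_cancel hp0.ne', Real.rpow_one] at h4

end P125
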