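import Vale.Agent.Lib.P125.OneForm1

/-!
# P125, module ONEFORM: from exact functions to 1-forms

PROOF.  Coordinates `Q = Fin 3 × V`, box `{k : Q → ℤ | 0 ≤ k q < m}` (`m` large), state space
`V × box`.  Moves: colour `c` sends `(v, k)` to `(ι c v, k + δ_(c,v) - δ_(c, ι c v))` if the new `k`
is still in the box, and fixes `(v, k)` otherwise.  This is an involution for each `c`
(if `ι c v = v` the change of `k` is `0`).
`f (v, k) = (1/2) ∑_{(c,u)} k (c,u) • a c u`, so an unblocked move changes `f` by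
`(1/2) (a c v - a c (ι c v)) = a c v`, a blocked one by `0`.
`MT.words` for this space: right side `≤ K^p T m^|Q| ∑_v ∑_c N (a c v)^p / 3`.  Left side: for
`k` with all coordinates in `[T, m - T)` no move is blocked along a word of length `≤ T`, and
`f (pos (v,k) w) - f (v,k) = sumW ι a v w`; so left side
`≥ (m - 2T)^|Q| ∑_v avgW T (fun w => N (sumW ι a v w)^p)`.
Divide by `m^|Q|` and let `m → ∞`.
-/

open Finset

namespace P125

namespace OneForm

open Classical in
/-- The box of counters `[x, y)`. -/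
noncomputable def box (V : Type) [Fintype V] (x y : ℤ) : Finset (Fin 3 × V → ℤ) :=
  Fintype.piFinset (fun _ => Finset.Ico x y)

theorem mem_box {V : Type} [Fintype V] {x y : ℤ} {k : Fin 3 × V → ℤ} :
    k ∈ box V x y ↔ ∀ q, x ≤ k q ∧ k q < y := by
  classical
  unfold box
  rw [Fintype.mem_piFinset]
  simp only [Finset.mem_Ico]

theorem card_box {V : Type} [Fintype V] (x y : ℤ) :
    (box V x y).card = (y - x).toNat ^ (Fintype.card (Fin 3 × V)) := by
  classical
  unfold box
  rw [Fintype.card_piFinset]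
  simp

open Classical in
/-- Change of the counters. -/
noncomputable def chg {V : Type} (ι : Fin 3 → V → V) (c : Fin 3) (v : V) (k : Fin 3 × V → ℤ) :
    Fin 3 × V → ℤ :=
  k + Pi.single (c, v) 1 - Pi.single (c, ι c v) 1

theorem chg_chg {V : Type} (ι : Fin 3 → V → V) (hι : ∀ c v, ι c (ι c v) = v) (c : Fin 3) (v : V)
    (k : Fin 3 × V → ℤ) : chg ι c (ι c v) (chg ι c v k) = k := by
  unfold chg
  rw [hι]
  abel

theorem chg_abs {V : Type} (ι : Fin 3 → V → V) (c : Fin 3) (v : V)
    (k : Fin 3 × V → ℤ) (q : Fin 3 × V) : |chg ι c v k q - k q| ≤ 1 := by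
  classical
  have h1 : chg ι c v k q - k q = (Pi.single (c, v) (1 : ℤ) : Fin 3 × V → ℤ) q
      - (Pi.single (c, ι c v) (1 : ℤ) : Fin 3 × V → ℤ) q := by
    unfold chg
    simp only [Pi.sub_apply, Pi.add_apply]
    ring_nf
  rw [h1, Pi.single_apply, Pi.single_apply]
  split_ifs <;> simp

open Classical in
/-- One step of the lifted walk. -/
noncomputable def step {V : Type} [Fintype V] (ι : Fin 3 → V → V) (m : ℤ) (c : Fin 3)
    (s : V × box V 0 m) : V × box V 0 m :=
  if h : chg ι c s.1 s.2.1 ∈ box V 0 m then (ι c s.1, ⟨chg ι c s.1 s.2.1, h⟩) else s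

theorem step_of_mem {V : Type} [Fintype V] (ι : Fin 3 → V → V) (m : ℤ) (c : Fin 3)
    (s : V × box V 0 m) (h : chg ι c s.1 s.2.1 ∈ box V 0 m) :
    step ι m c s = (ι c s.1, ⟨chg ι c s.1 s.2.1, h⟩) := by
  unfold step
  rw [dif_pos h]

theorem step_of_not {V : Type} [Fintype V] (ι : Fin 3 → V → V) (m : ℤ) (c : Fin 3)
    (s : V × box V 0 m) (h : ¬ chg ι c s.1 s.2.1 ∈ box V 0 m) :
    step ι m c s = s := by
  unfold step
  rw [dif_neg h]

theorem step_step {V : Type} [Fintype V] (ι : Fin 3 → V → V) (hι : ∀ c v, ι c (ι c v) = v)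
    (m : ℤ) (c : Fin 3) (s : V × box V 0 m) : step ι m c (step ι m c s) = s := by
  by_cases h : chg ι c s.1 s.2.1 ∈ box V 0 m
  · rw [step_of_mem ι m c s h]
    have h2 : chg ι c (ι c s.1) (chg ι c s.1 s.2.1) = s.2.1 := chg_chg ι hι c s.1 s.2.1
    have h3 : chg ι c (ι c s.1, (⟨chg ι c s.1 s.2.1, h⟩ : box V 0 m)).1
        (ι c s.1, (⟨chg ι c s.1 s.2.1, h⟩ : box V 0 m)).2.1 ∈ box V 0 m := by
      show chg ι c (ι c s.1) (chg ι c s.1 s.2.1) ∈ box V 0 m
      rw [h2]
      exact s.2.2
    rw [step_of_mem ι m c _ h3]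
    refine Prod.ext (hι c s.1) (Subtype.ext h2)
  · rw [step_of_not ι m c s h, step_of_not ι m c s h]

/-- The exact function on the space of counters. -/
noncomputable def pot {V : Type} [Fintype V] {E : Type} [AddCommGroup E] [Module ℝ E]
    (a : Fin 3 → V → E) (k : Fin 3 × V → ℤ) : E :=
  ∑ q : Fin 3 × V, ((k q : ℝ) / 2) • a q.1 q.2

theorem pot_chg {V : Type} [Fintype V] {E : Type} [AddCommGroup E] [Module ℝ E]
    (ι : Fin 3 → V → V)
    (a : Fin 3 → V → E) (ha : ∀ c v, a c (ι c v) = - a c v) (c : Fin 3) (v : V)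
    (k : Fin 3 × V → ℤ) : pot a (chg ι c v k) - pot a k = a c v := by
  classical
  unfold pot
  rw [← Finset.sum_sub_distrib]
  have h1 : ∀ q : Fin 3 × V, ((chg ι c v k q : ℝ) / 2) • a q.1 q.2 - ((k q : ℝ) / 2) • a q.1 q.2
      = (if q = (c, v) then ((1 : ℝ) / 2) • a q.1 q.2 else 0)
        - (if q = (c, ι c v) then ((1 : ℝ) / 2) • a q.1 q.2 else 0) := by
    intro q
    have h2 : chg ι c v k q = k q + (if q = (c, v) then 1 else 0)
        - (if q = (c, ι c v) then 1 else 0) := by
      unfold chg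
      simp only [Pi.sub_apply, Pi.add_apply, Pi.single_apply]
    rw [h2]
    split_ifs
    · push_cast
      rw [← sub_smul]
      module
    · push_cast
      module
    · push_cast
      module
    · push_cast
      module
  rw [Finset.sum_congr rfl (fun q _ => h1 q), Finset.sum_sub_distrib, Finset.sum_ite_eq',
    Finset.sum_ite_eq']
  simp only [Finset.mem_univ, if_true]
  rw [ha]
  module

/-- Along a word of length `≤ T` started in the inner box no move is blocked. -/
theorem walk {V : Type} [Fintype V] {E : Type} [AddCommGroup E] [Module ℝ E]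
    (ι : Fin 3 → V → V)
    (a : Fin 3 → V → E) (ha : ∀ c v, a c (ι c v) = - a c v) (m : ℤ) (T : ℕ)
    (s : V × box V 0 m) (hs : ∀ q, (T : ℤ) ≤ s.2.1 q ∧ s.2.1 q < m - T)
    (w : List (Fin 3)) (hw : w.length ≤ T) :
    (pos (step ι m) s w).1 = pos ι s.1 w ∧
      (∀ q, |(pos (step ι m) s w).2.1 q - s.2.1 q| ≤ w.length) ∧
      pot a (pos (step ι m) s w).2.1 - pot a s.2.1 = sumW ι a s.1 w := by
  induction w with
  | nil =>
    refine ⟨rfl, fun q => ?_, ?_⟩
    · simp [pos]
    · simp [pos, sumW]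
  | cons c w ih =>
    rw [List.length_cons] at hw
    obtain ⟨i1, i2, i3⟩ := ih (by omega)
    set t := pos (step ι m) s w with ht
    have hstep : pos (step ι m) s (c :: w) = step ι m c t := rfl
    have hmem : chg ι c t.1 t.2.1 ∈ box V 0 m := by
      rw [mem_box]
      intro q
      have e1 := abs_le.mp (chg_abs ι c t.1 t.2.1 q)
      have e2 := abs_le.mp (i2 q)
      have e3 := hs q
      constructor
      · omega
      · omega
    rw [hstep, step_of_mem ι m c t hmem]
    refine ⟨?_, fun q => ?_, ?_⟩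
    · show ι c t.1 = ι c (pos ι s.1 w)
      rw [i1]
    · show |chg ι c t.1 t.2.1 q - s.2.1 q| ≤ _
      have e1 := abs_le.mp (chg_abs ι c t.1 t.2.1 q)
      have e2 := abs_le.mp (i2 q)
      rw [List.length_cons, abs_le]
      push_cast
      constructor <;> omega
    · show pot a (chg ι c t.1 t.2.1) - pot a s.2.1 = sumW ι a s.1 w + a c (pos ι s.1 w)
      rw [← i3, ← i1, ← pot_chg ι a ha c t.1 t.2.1]
      abel

theorem avgW_nonneg (T : ℕ) (F : List (Fin 3) → ℝ) (hF : ∀ w, 0 ≤ F w) : 0 ≤ avgW T F := by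
  have h := avgW_mono (T := T) (F := fun _ => (0 : ℝ)) (G := F) (fun w _ => hF w)
  rwa [avgW_const] at h

theorem main_ineq {V : Type} [Fintype V] {E : Type} [AddCommGroup E] [Module ℝ E]
    (N : Seminorm ℝ E) {p K : ℝ} (hp : 1 ≤ p) (hK : 0 ≤ K) (h : MT p K N)
    (ι : Fin 3 → V → V) (hι : ∀ c v, ι c (ι c v) = v)
    (a : Fin 3 → V → E) (ha : ∀ c v, a c (ι c v) = - a c v) (T : ℕ) (hT : 1 ≤ T) (m : ℕ)
    (hm : 2 * T ≤ m) :
    ((m : ℝ) - 2 * T) ^ (Fintype.card (Fin 3 × V)) *
      (∑ v, avgW T (fun w => N (sumW ι a v w) ^ p)) ≤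
      (m : ℝ) ^ (Fintype.card (Fin 3 × V)) * (K ^ p * T * ∑ v, ∑ c, N (a c v) ^ p / 3) := by
  classical
  have hp0 : p ≠ 0 := by linarith
  have key := MT.words (V := V × box V 0 (m : ℤ)) h (step ι (m : ℤ)) (step_step ι hι (m : ℤ))
    (fun s => pot a s.2.1) T hT
  -- right side
  have hR : ∑ s : V × box V 0 (m : ℤ), ∑ c, N (pot a (step ι (m : ℤ) c s).2.1 - pot a s.2.1) ^ p / 3
      ≤ (m : ℝ) ^ (Fintype.card (Fin 3 × V)) * ∑ v, ∑ c, N (a c v) ^ p / 3 := by
    calc ∑ s : V × box V 0 (m : ℤ), ∑ c,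
          N (pot a (step ι (m : ℤ) c s).2.1 - pot a s.2.1) ^ p / 3
        ≤ ∑ s : V × box V 0 (m : ℤ), ∑ c, N (a c s.1) ^ p / 3 := by
          apply Finset.sum_le_sum
          intro s _
          apply Finset.sum_le_sum
          intro c _
          by_cases hc : chg ι c s.1 s.2.1 ∈ box V 0 (m : ℤ)
          · rw [step_of_mem ι _ c s hc]
            show N (pot a (chg ι c s.1 s.2.1) - pot a s.2.1) ^ p / 3 ≤ _
            rw [pot_chg ι a ha]
          · rw [step_of_not ι _ c s hc, sub_self, map_zero, Real.zero_rpow hp0]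
            have : 0 ≤ N (a c s.1) ^ p := Real.rpow_nonneg (apply_nonneg N _) _
            linarith
      _ = (m : ℝ) ^ (Fintype.card (Fin 3 × V)) * ∑ v, ∑ c, N (a c v) ^ p / 3 := by
          rw [Fintype.sum_prod_type]
          simp only [Finset.sum_const, Finset.card_univ, Fintype.card_coe, card_box, sub_zero,
            Int.toNat_natCast, nsmul_eq_mul]
          rw [Finset.mul_sum]
          push_cast
          rfl
  -- left side
  have hL : ((m : ℝ) - 2 * T) ^ (Fintype.card (Fin 3 × V)) *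
      (∑ v, avgW T (fun w => N (sumW ι a v w) ^ p)) ≤
      ∑ s : V × box V 0 (m : ℤ), avgW T (fun w =>
        N (pot a (pos (step ι (m : ℤ)) s w).2.1 - pot a s.2.1) ^ p) := by
    rw [Fintype.sum_prod_type, Finset.mul_sum]
    apply Finset.sum_le_sum
    intro v _
    have hin : ∀ k : box V 0 (m : ℤ), k.1 ∈ box V (T : ℤ) ((m : ℤ) - T) →
        avgW T (fun w => N (sumW ι a v w) ^ p) ≤ avgW T (fun w =>
          N (pot a (pos (step ι (m : ℤ)) (v, k) w).2.1 - pot a k.1) ^ p) := by
      intro k hk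
      apply avgW_mono
      intro w hw
      have := (walk ι a ha (m : ℤ) T (v, k) (mem_box.mp hk) w hw.le).2.2
      rw [this]
    have hnn : ∀ k : box V 0 (m : ℤ), 0 ≤ avgW T (fun w =>
          N (pot a (pos (step ι (m : ℤ)) (v, k) w).2.1 - pot a k.1) ^ p) := by
      intro k
      apply avgW_nonneg
      intro w
      exact Real.rpow_nonneg (apply_nonneg N _) _
    have hcard : ((Finset.univ : Finset (box V 0 (m : ℤ))).filter
        (fun k => k.1 ∈ box V (T : ℤ) ((m : ℤ) - T))).card = (m - 2 * T) ^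
          (Fintype.card (Fin 3 × V)) := by
      have e1 : ((Finset.univ : Finset (box V 0 (m : ℤ))).filter
        (fun k => k.1 ∈ box V (T : ℤ) ((m : ℤ) - T))).card = (box V (T : ℤ) ((m : ℤ) - T)).card := by
        apply Finset.card_bij (fun k _ => k.1)
        · intro k hk
          exact (Finset.mem_filter.mp hk).2
        · intro k _ k' _ hkk
          exact Subtype.ext hkk
        · intro k hk
          refine ⟨⟨k, ?_⟩, ?_, rfl⟩
          · rw [mem_box] at hk ⊢
            intro q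
            have := hk q
            constructor <;> omega
          · rw [Finset.mem_filter]
            exact ⟨Finset.mem_univ _, hk⟩
      rw [e1, card_box]
      congr 1
      omega
    calc ((m : ℝ) - 2 * T) ^ (Fintype.card (Fin 3 × V)) * avgW T (fun w => N (sumW ι a v w) ^ p)
        = ∑ k ∈ (Finset.univ : Finset (box V 0 (m : ℤ))).filter
            (fun k => k.1 ∈ box V (T : ℤ) ((m : ℤ) - T)),
            avgW T (fun w => N (sumW ι a v w) ^ p) := by
          rw [Finset.sum_const, hcard, nsmul_eq_mul]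
          congr 1
          rw [Nat.cast_pow, Nat.cast_sub hm]
          push_cast
          rfl
      _ ≤ ∑ k ∈ (Finset.univ : Finset (box V 0 (m : ℤ))).filter
            (fun k => k.1 ∈ box V (T : ℤ) ((m : ℤ) - T)), avgW T (fun w =>
          N (pot a (pos (step ι (m : ℤ)) (v, k) w).2.1 - pot a k.1) ^ p) := by
          apply Finset.sum_le_sum
          intro k hk
          exact hin k (Finset.mem_filter.mp hk).2
      _ ≤ ∑ k : box V 0 (m : ℤ), avgW T (fun w =>
          N (pot a (pos (step ι (m : ℤ)) (v, k) w).2.1 - pot a k.1) ^ p) := by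
          apply Finset.sum_le_sum_of_subset_of_nonneg (Finset.filter_subset _ _)
          intro k _ _
          exact hnn k
  have hKT : 0 ≤ K ^ p * T := mul_nonneg (Real.rpow_nonneg hK _) (Nat.cast_nonneg _)
  calc _ ≤ _ := hL
    _ ≤ _ := key
    _ ≤ K ^ p * T * ((m : ℝ) ^ (Fintype.card (Fin 3 × V)) * ∑ v, ∑ c, N (a c v) ^ p / 3) :=
      mul_le_mul_of_nonneg_left hR hKT
    _ = _ := by ring

end OneForm

open OneForm in
theorem oneForm {V : Type} [Fintype V] {E : Type} [AddCommGroup E] [Module ℝ E]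
    (N : Seminorm ℝ E) {p K : ℝ} (hp : 1 ≤ p) (hK : 0 ≤ K) (h : MT p K N)
    (ι : Fin 3 → V → V) (hι : ∀ c v, ι c (ι c v) = v)
    (a : Fin 3 → V → E) (ha : ∀ c v, a c (ι c v) = - a c v) (T : ℕ) (hT : 1 ≤ T) :
    ∑ v, avgW T (fun w => N (sumW ι a v w) ^ p) ≤
      K ^ p * T * ∑ v, ∑ c, N (a c v) ^ p / 3 := by
  set n := Fintype.card (Fin 3 × V) with hn
  set L : ℝ := ∑ v, avgW T (fun w => N (sumW ι a v w) ^ p) with hL
  set R : ℝ := K ^ p * T * ∑ v, ∑ c, N (a c v) ^ p / 3 with hR
  have h1 : ∀ m : ℕ, 2 * T ≤ m → (1 - (2 * T : ℝ) / m) ^ n * L ≤ R := by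
    intro m hm
    have h2 := main_ineq N hp hK h ι hι a ha T hT m hm
    rw [← hn, ← hL, ← hR] at h2
    have hm0 : (0 : ℝ) < m := by
      have : 0 < m := by omega
      exact_mod_cast this
    have h3 : (1 - (2 * T : ℝ) / m) = ((m : ℝ) - 2 * T) / m := by
      field_simp
    rw [h3, div_pow, div_mul_eq_mul_div, div_le_iff₀ (pow_pos hm0 n)]
    linarith
  have h4 : Filter.Tendsto (fun m : ℕ => (1 - (2 * T : ℝ) / m) ^ n * L) Filter.atTop
      (nhds ((1 - 0) ^ n * L)) := by
    have h5 : Filter.Tendsto (fun m : ℕ => (2 * T : ℝ) / m) Filter.atTop (nhds 0) :=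
      tendsto_const_div_atTop_nhds_zero_nat _
    exact ((tendsto_const_nhds.sub h5).pow n).mul_const L
  have h6 : (1 - 0) ^ n * L ≤ R := by
    refine le_of_tendsto h4 ?_
    filter_upwards [Filter.eventually_ge_atTop (2 * T)] with m hm
    exact h1 m hm
  simpa using h6

end P125
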