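import Vale.Agent.Lib.P125.Basic

/-!
# P125, module PATTERN: norm of a vector whose partial sums oscillate

PROOF.  Let `φ t` = number of `r < m` with `h r < t`, plus number of `r < m` with `l r < t`
(monotone).  `w = mapDomain φ A` has the coordinates
`w 0 = Phi (h 0) A = B`, `w (2r+1) = Phi (l r) A - Phi (h r) A = -k`,
`w (2r+2) = Phi (h (r+1)) A - Phi (l r) A = k` for `r + 1 < m`, and
`w (2m) = total A - Phi (l (m-1)) A = k - B`.  So, with `alt' = mapDomain succ (alt (2m))`
(`alt (2m) = (1,-1,...,1,-1)`),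
`w = - k • alt' + B • (e 0 - e (2m))` and `w = k • alt (2m) - (k - B) • (e 0 - e (2m))`.
Hence `N w ≥ k N (alt (2m)) - min B (k - B) * N (e 0 - e 1)` (`MonoContr.eq_mapDomain`,
`MonoContr.pair_le`), `min B (k-B) ≤ k / 2` and `N (e 0 - e 1) ≤ N (alt (2m))` (monotone
relabelling `0 ↦ 0`, `i ≥ 1 ↦ 1` of `alt (2m)`, `m ≥ 1`).  And `N w ≤ N A`.
-/

open Finset

namespace P125

theorem Pattern_ext {a b : ℕ →₀ ℝ} (h : ∀ s, Phi s a = Phi s b) : a = b := by
  ext i
  cases i with
  | zero =>
    have := h 0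
    simpa [Phi] using this
  | succ i =>
    have h1 := h (i + 1)
    have h2 := h i
    unfold Phi at h1 h2
    rw [Finset.sum_range_succ _ (i + 1), Finset.sum_range_succ _ (i + 1), h2] at h1
    linarith

theorem Pattern_Phi_map (φ : ℕ → ℕ) (s s' : ℕ) (h : ∀ t, φ t ≤ s ↔ t ≤ s') (A : ℕ →₀ ℝ) :
    Phi s (A.mapDomain φ) = Phi s' A := by
  conv_lhs => rw [eq_sum_e A]
  conv_rhs => rw [eq_sum_e A]
  rw [mapDomain_sum', Phi_sum, Phi_sum]
  apply Finset.sum_congr rfl
  intro t _
  rw [mapDomain_smul_e, Phi_smul, Phi_smul, Phi_e, Phi_e]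
  by_cases ht : t ≤ s'
  · rw [if_pos ht, if_pos ((h t).2 ht)]
  · rw [if_neg ht, if_neg (fun h' => ht ((h t).1 h'))]

theorem Pattern_Phi_all (φ : ℕ → ℕ) (s : ℕ) (h : ∀ t, φ t ≤ s) (A : ℕ →₀ ℝ) :
    Phi s (A.mapDomain φ) = total A := by
  have h1 : total A = ∑ t ∈ A.support, A t := rfl
  rw [h1]
  conv_lhs => rw [eq_sum_e A]
  rw [mapDomain_sum', Phi_sum]
  apply Finset.sum_congr rfl
  intro t _
  rw [mapDomain_smul_e, Phi_smul, Phi_e, if_pos (h t), mul_one]

theorem Pattern_Phi_succ_zero (A : ℕ →₀ ℝ) : Phi 0 (A.mapDomain Nat.succ) = 0 := by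
  conv_lhs => rw [eq_sum_e A]
  rw [mapDomain_sum', Phi_sum]
  apply Finset.sum_eq_zero
  intro t _
  rw [mapDomain_smul_e, Phi_smul, Phi_e, if_neg (by omega), mul_zero]

theorem Pattern_Phi_alt (m s : ℕ) :
    Phi s (alt (2 * m)) = if s < 2 * m ∧ s % 2 = 0 then 1 else 0 := by
  induction s with
  | zero =>
    unfold Phi
    rw [Finset.sum_range_one, alt_apply]
    by_cases hm : 0 < 2 * m
    · rw [if_pos hm, if_pos ⟨hm, by omega⟩, pow_zero]
    · rw [if_neg hm, if_neg (by omega)]
  | succ s ih =>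
    unfold Phi at ih ⊢
    rw [Finset.sum_range_succ, ih, alt_apply]
    rcases Nat.even_or_odd' s with ⟨r, hr | hr⟩
    · subst hr
      have h1 : (-1 : ℝ) ^ (2 * r + 1) = -1 := by
        rw [pow_succ, pow_mul]
        simp
      rw [h1]
      split_ifs <;> first | omega | norm_num
    · subst hr
      have h1 : (-1 : ℝ) ^ (2 * r + 1 + 1) = 1 := by
        rw [show 2 * r + 1 + 1 = 2 * (r + 1) by ring, pow_mul]
        simp
      rw [h1]
      split_ifs <;> first | omega | norm_num

theorem norm_of_pattern (N : Seminorm ℝ (ℕ →₀ ℝ)) (hN : MonoContr N) (A : ℕ →₀ ℝ)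
    (k B m : ℕ) (hB : B ≤ k) (hm : 1 ≤ m) (h l : ℕ → ℕ)
    (h1 : ∀ r < m, h r < l r) (h2 : ∀ r, r + 1 < m → l r < h (r + 1))
    (h3 : ∀ r < m, Phi (h r) A = B) (h4 : ∀ r < m, Phi (l r) A = (B : ℝ) - k)
    (h0 : total A = 0) :
    (k : ℝ) / 2 * N (alt (2 * m)) ≤ N A := by
  classical
  -- the thresholds
  let c : ℕ → ℕ := fun i => if i % 2 = 0 then h (i / 2) else l (i / 2)
  have hc_even : ∀ r, c (2 * r) = h r := by
    intro r
    have e1 : 2 * r % 2 = 0 := by omega
    have e2 : 2 * r / 2 = r := by omega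
    simp only [c, e1, e2, if_true]
  have hc_odd : ∀ r, c (2 * r + 1) = l r := by
    intro r
    have e1 : ¬ ((2 * r + 1) % 2 = 0) := by omega
    have e2 : (2 * r + 1) / 2 = r := by omega
    simp only [c, e2, if_neg e1]
  have hstep : ∀ i, i + 1 < 2 * m → c i < c (i + 1) := by
    intro i hi
    rcases Nat.even_or_odd' i with ⟨r, hr | hr⟩
    · subst hr
      rw [hc_even, hc_odd]
      exact h1 r (by omega)
    · subst hr
      rw [hc_odd, show 2 * r + 1 + 1 = 2 * (r + 1) by ring, hc_even]
      exact h2 r (by omega)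
  have hmono : ∀ j i, i < j → j < 2 * m → c i < c j := by
    intro j
    induction j with
    | zero => intro i hi; omega
    | succ j ih =>
      intro i hi hj
      rcases Nat.lt_or_eq_of_le (Nat.lt_succ_iff.1 hi) with h5 | h5
      · exact lt_trans (ih i h5 (by omega)) (hstep j hj)
      · subst h5
        exact hstep i hj
  let φ : ℕ → ℕ := fun t => ((range (2 * m)).filter fun i => c i < t).card
  have hφ : Monotone φ := by
    intro s t hst
    apply Finset.card_le_card
    intro i hi
    rw [Finset.mem_filter] at hi ⊢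
    exact ⟨hi.1, lt_of_lt_of_le hi.2 hst⟩
  have hφm : ∀ t, φ t ≤ 2 * m := by
    intro t
    calc φ t ≤ (range (2 * m)).card := Finset.card_filter_le _ _
      _ = 2 * m := Finset.card_range _
  have hφc : ∀ j, j < 2 * m → ∀ t, φ t ≤ j ↔ t ≤ c j := by
    intro j hj t
    constructor
    · intro h5
      by_contra h6
      push Not at h6
      have h7 : range (j + 1) ⊆ (range (2 * m)).filter fun i => c i < t := by
        intro i hi
        rw [Finset.mem_range] at hi
        rw [Finset.mem_filter, Finset.mem_range]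
        refine ⟨by omega, ?_⟩
        rcases Nat.lt_or_eq_of_le (Nat.lt_succ_iff.1 hi) with h8 | h8
        · exact lt_trans (hmono j i h8 hj) h6
        · subst h8
          exact h6
      have h8 := Finset.card_le_card h7
      rw [Finset.card_range] at h8
      have h9 : j + 1 ≤ φ t := h8
      omega
    · intro h5
      have h7 : ((range (2 * m)).filter fun i => c i < t) ⊆ range j := by
        intro i hi
        rw [Finset.mem_filter, Finset.mem_range] at hi
        rw [Finset.mem_range]
        by_contra h8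
        push Not at h8
        rcases Nat.lt_or_eq_of_le h8 with h9 | h9
        · have := hmono i j h9 hi.1
          omega
        · subst h9
          omega
      have h8 := Finset.card_le_card h7
      rw [Finset.card_range] at h8
      exact h8
  set w : ℕ →₀ ℝ := A.mapDomain φ with hw
  have hPw : ∀ j, j < 2 * m → Phi j w = Phi (c j) A := fun j hj =>
    Pattern_Phi_map φ j (c j) (hφc j hj) A
  have hPw2 : ∀ j, 2 * m ≤ j → Phi j w = 0 := by
    intro j hj
    rw [hw, Pattern_Phi_all φ j (fun t => le_trans (hφm t) hj) A, h0]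
  have hval : ∀ j, Phi j w = if j < 2 * m then (if j % 2 = 0 then (B : ℝ) else (B : ℝ) - k) else 0 := by
    intro j
    by_cases hj : j < 2 * m
    · rw [if_pos hj, hPw j hj]
      rcases Nat.even_or_odd' j with ⟨r, hr | hr⟩
      · subst hr
        rw [hc_even, if_pos (by omega)]
        exact h3 r (by omega)
      · subst hr
        rw [hc_odd, if_neg (by omega)]
        exact h4 r (by omega)
    · rw [if_neg hj]
      exact hPw2 j (by omega)
  have hw1 : w = (B : ℝ) • (e 0 - e (2 * m)) - (k : ℝ) • (alt (2 * m)).mapDomain Nat.succ := by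
    apply Pattern_ext
    intro s
    rw [hval s, Phi_sub, Phi_smul, Phi_sub, Phi_e, Phi_e, Phi_smul]
    cases s with
    | zero =>
      rw [Pattern_Phi_succ_zero, if_pos (by omega), if_pos (by omega), if_pos (by omega),
        if_neg (by omega)]
      ring
    | succ s =>
      rw [Pattern_Phi_map Nat.succ (s + 1) s (fun t => by simp) (alt (2 * m)), Pattern_Phi_alt]
      split_ifs <;> first | omega | ring
  have hw2 : w = (k : ℝ) • alt (2 * m) - ((k : ℝ) - B) • (e 0 - e (2 * m)) := by
    apply Pattern_ext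
    intro s
    rw [hval s, Phi_sub, Phi_smul, Phi_smul, Phi_sub, Phi_e, Phi_e, Pattern_Phi_alt]
    split_ifs <;> first | omega | ring
  have hpair : N (e 0 - e (2 * m)) ≤ N (e 0 - e 1) := hN.pair_le (Nat.zero_le _)
  have hpa : N (e 0 - e 1) ≤ N (alt (2 * m)) := by
    have h5 := hN (fun n => if n = 0 then 0 else 1) (by
      intro i j hij
      simp only
      split_ifs <;> omega) (alt (2 * m))
    have h6 : (alt (2 * m)).mapDomain (fun n => if n = 0 then 0 else 1) = e 0 - e 1 := by
      apply Pattern_ext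
      intro s
      rw [Phi_sub, Phi_e, Phi_e]
      cases s with
      | zero =>
        rw [Pattern_Phi_map _ 0 0 (fun t => by split_ifs <;> omega) (alt (2 * m)), Pattern_Phi_alt,
          if_pos ⟨by omega, by omega⟩]
        simp
      | succ s =>
        rw [Pattern_Phi_all _ (s + 1) (fun t => by split_ifs <;> omega) (alt (2 * m)),
          ← Phi_eq_total (2 * m) (alt (2 * m)) (fun t ht => by rw [alt_apply, if_neg (by omega)]),
          Pattern_Phi_alt, if_neg (by omega)]
        simp
    rw [h6] at h5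
    exact h5
  have hNw : N w ≤ N A := hN φ hφ A
  have hBk : (B : ℝ) ≤ k := by exact_mod_cast hB
  have hB0 : (0 : ℝ) ≤ B := Nat.cast_nonneg _
  have hk0 : (0 : ℝ) ≤ k := Nat.cast_nonneg _
  have hsucc : N ((alt (2 * m)).mapDomain Nat.succ) = N (alt (2 * m)) :=
    hN.eq_mapDomain (fun a b hab => Nat.succ_lt_succ hab) _
  have hge1 : (k : ℝ) * N (alt (2 * m)) - B * N (e 0 - e 1) ≤ N w := by
    have h5 : (k : ℝ) • (alt (2 * m)).mapDomain Nat.succ = (B : ℝ) • (e 0 - e (2 * m)) - w := by
      rw [hw1]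
      abel
    have h6 : N ((k : ℝ) • (alt (2 * m)).mapDomain Nat.succ) ≤
        N ((B : ℝ) • (e 0 - e (2 * m))) + N w := by
      rw [h5]
      exact map_sub_le_add N _ _
    rw [map_smul_eq_mul, map_smul_eq_mul, hsucc, Real.norm_of_nonneg hk0,
      Real.norm_of_nonneg hB0] at h6
    have h7 := mul_le_mul_of_nonneg_left hpair hB0
    linarith
  have hge2 : (k : ℝ) * N (alt (2 * m)) - (k - B) * N (e 0 - e 1) ≤ N w := by
    have h5 : (k : ℝ) • alt (2 * m) = w + ((k : ℝ) - B) • (e 0 - e (2 * m)) := by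
      rw [hw2]
      abel
    have h6 : N ((k : ℝ) • alt (2 * m)) ≤ N w + N (((k : ℝ) - B) • (e 0 - e (2 * m))) := by
      rw [h5]
      exact map_add_le_add N _ _
    rw [map_smul_eq_mul, map_smul_eq_mul, Real.norm_of_nonneg hk0,
      Real.norm_of_nonneg (by linarith)] at h6
    have h7 := mul_le_mul_of_nonneg_left hpair (by linarith : (0 : ℝ) ≤ (k : ℝ) - B)
    linarith
  have hN0 : 0 ≤ N (e 0 - e 1) := apply_nonneg N _
  have hNa : 0 ≤ N (alt (2 * m)) := apply_nonneg N _
  by_cases hcase : (B : ℝ) ≤ k / 2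
  · have h5 : (B : ℝ) * N (e 0 - e 1) ≤ k / 2 * N (alt (2 * m)) :=
      mul_le_mul hcase hpa hN0 (by linarith)
    linarith
  · push Not at hcase
    have h5 : ((k : ℝ) - B) * N (e 0 - e 1) ≤ k / 2 * N (alt (2 * m)) :=
      mul_le_mul (by linarith) hpa hN0 (by linarith)
    linarith

end P125
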