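import Vale.Agent.Lib.P125.Rotor1

/-!
# P125, module ROTOR2: the bipartite cubic rotor graph

PROOF.  Take `U, ρ, S, t` from `rotor1 (2 * N + 4) (ε / 2)` (or `ε`).
`R0 j = ρ (2j-2) * ... * ρ 2 * ρ 0` (level `0` to level `2 j`):  `R0 0 = 1`,
`R0 (j+1) = ρ (2 j) * R0 j`; `R3 0 = 1`, `R3 (j+1) = ρ (2 j + 3) * R3 j` (level `3` to `2 j + 3`).
`β i = (R3 i)⁻¹ * S (2 i) * R0 i` for `i = 0, 1, 2`.
Claims, for all `j`:
(a) `S (2 j) * R0 j = R3 j * β (j mod 3)`;  (b) `S (2 j + 3) * R3 j * β (j mod 3) = R0 (j + 3)`.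
(b) follows from (a): `S (2j+3) * R3 j * β = S (2j+3) * S (2j) * R0 j = ρ(2j+4) ρ(2j+2) ρ(2j) R0 j`.
(a) at `j + 3` follows from (b) at `j`:
`S (2j+6) * R0 (j+3) = S (2j+6) * S (2j+3) * R3 j * β = ρ (2j+7) ρ (2j+5) ρ (2j+3) * R3 j * β
= R3 (j+3) * β`.
`V = Bool × U`, `par = fst`, `ι c (false, u) = (true, β c u)`, `ι c (true, u) = (false, (β c)⁻¹ u)`,
`τ (false, u) j = t (R0 j u)`, `τ (true, u) j = t (R3 j u)`.
Then `Good par ι τ (false, u) j` is the condition of `rotor1` at `x = R0 j u`, level `2 j`, and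
`Good par ι τ (true, u) j` is the condition at `x = R3 j u`, level `2 j + 3`
(by (b), `τ (ι (col j) (true, u)) (j+3) = t (R0 (j+3) (β⁻¹ u)) = t (S (2j+3) (R3 j u))`).
Count with the bijections `R0 j`, `R3 j`.
-/

open Finset

namespace P125

namespace Rotor2

variable {U : Type}

/-- from level `0` to level `2 j` -/
def R0 (ρ : ℕ → Equiv.Perm U) : ℕ → Equiv.Perm U
  | 0 => 1
  | j + 1 => ρ (2 * j) * R0 ρ j

/-- from level `3` to level `2 j + 3` -/
def R3 (ρ : ℕ → Equiv.Perm U) : ℕ → Equiv.Perm U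
  | 0 => 1
  | j + 1 => ρ (2 * j + 3) * R3 ρ j

/-- the three edge permutations -/
def β (ρ S : ℕ → Equiv.Perm U) (i : Fin 3) : Equiv.Perm U :=
  (R3 ρ i)⁻¹ * S (2 * (i : ℕ)) * R0 ρ i

theorem col_add_three (j : ℕ) : col (j + 3) = col j := by
  unfold col
  exact Fin.ext (by simp)

theorem col_small {j : ℕ} (hj : j < 3) : ((col j : Fin 3) : ℕ) = j := by
  unfold col
  exact Nat.mod_eq_of_lt hj

theorem key_b {ρ S : ℕ → Equiv.Perm U}
    (hrel : ∀ n, ρ (n + 4) * ρ (n + 2) * ρ n = S (n + 3) * S n) (j : ℕ)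
    (ha : S (2 * j) * R0 ρ j = R3 ρ j * β ρ S (col j)) :
    S (2 * j + 3) * R3 ρ j * β ρ S (col j) = R0 ρ (j + 3) := by
  rw [mul_assoc, ← ha, ← mul_assoc, ← hrel (2 * j)]
  simp only [R0, mul_assoc]
  rfl

theorem key_a {ρ S : ℕ → Equiv.Perm U}
    (hrel : ∀ n, ρ (n + 4) * ρ (n + 2) * ρ n = S (n + 3) * S n) (j : ℕ) :
    S (2 * j) * R0 ρ j = R3 ρ j * β ρ S (col j) := by
  induction j using Nat.strong_induction_on with
  | _ j ih =>
    rcases lt_or_ge j 3 with hj | hj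
    · unfold β
      rw [col_small hj, ← mul_assoc, ← mul_assoc, mul_inv_cancel, one_mul]
    · obtain ⟨k, rfl⟩ : ∃ k, j = k + 3 := ⟨j - 3, by omega⟩
      have h1 := key_b hrel k (ih k (by omega))
      rw [← h1, col_add_three, ← mul_assoc, ← mul_assoc]
      have h2 := hrel (2 * k + 3)
      have h3 : S (2 * (k + 3)) * S (2 * k + 3) = ρ (2 * k + 3 + 4) * ρ (2 * k + 3 + 2) * ρ (2 * k + 3) := by
        rw [h2]
        rfl
      rw [h3]
      simp only [R3, mul_assoc]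
      rfl

variable (ρ S : ℕ → Equiv.Perm U) (t : U → ℕ)

/-- the edge involutions -/
def io (c : Fin 3) (v : Bool × U) : Bool × U :=
  match v with
  | (false, u) => (true, β ρ S c u)
  | (true, u) => (false, (β ρ S c)⁻¹ u)

/-- the times -/
def ta (v : Bool × U) (j : ℕ) : ℕ :=
  match v with
  | (false, u) => t (R0 ρ j u)
  | (true, u) => t (R3 ρ j u)

theorem good_false (hrel : ∀ n, ρ (n + 4) * ρ (n + 2) * ρ n = S (n + 3) * S n) (u : U) (j : ℕ) :
    Good Prod.fst (io ρ S) (ta ρ t) (false, u) j ↔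
      (t (R0 ρ j u) < t (S (2 * j) (R0 ρ j u)) ∧
        t (S (2 * j) (R0 ρ j u)) < t (ρ (2 * j) (R0 ρ j u))) := by
  have h1 : tauS Prod.fst (io ρ S) (ta ρ t) (false, u) j = t (S (2 * j) (R0 ρ j u)) := by
    have h2 : tauS Prod.fst (io ρ S) (ta ρ t) (false, u) j = t ((R3 ρ j * β ρ S (col j)) u) := rfl
    rw [h2, ← key_a hrel j]
    rfl
  unfold Good
  rw [h1]
  rfl

theorem good_true (hrel : ∀ n, ρ (n + 4) * ρ (n + 2) * ρ n = S (n + 3) * S n) (u : U) (j : ℕ) :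
    Good Prod.fst (io ρ S) (ta ρ t) (true, u) j ↔
      (t (R3 ρ j u) < t (S (2 * j + 3) (R3 ρ j u)) ∧
        t (S (2 * j + 3) (R3 ρ j u)) < t (ρ (2 * j + 3) (R3 ρ j u))) := by
  have h1 : tauS Prod.fst (io ρ S) (ta ρ t) (true, u) j = t (S (2 * j + 3) (R3 ρ j u)) := by
    have h2 : tauS Prod.fst (io ρ S) (ta ρ t) (true, u) j =
        t ((R0 ρ (j + 3) * (β ρ S (col j))⁻¹) u) := rfl
    rw [h2, ← key_b hrel j (key_a hrel j), mul_assoc, mul_inv_cancel, mul_one]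
    rfl
  unfold Good
  rw [h1]
  rfl

end Rotor2

open Rotor2 in
open Classical in
theorem rotor2 (N : ℕ) (ε : ℝ) (hε : 0 < ε) :
    ∃ (V : Type) (_ : Fintype V) (_ : Nonempty V) (par : V → Bool) (ι : Fin 3 → V → V)
      (τ : V → ℕ → ℕ),
      (∀ c v, ι c (ι c v) = v) ∧ (∀ c v, par (ι c v) = !par v) ∧
      ∀ j < N, ((univ.filter fun v => ¬ Good par ι τ v j).card : ℝ) ≤ ε * Fintype.card V := by
  obtain ⟨U, iF, iN, ρ, S, t, hrel, hbad⟩ := rotor1 (2 * N + 4) ε hε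
  refine ⟨Bool × U, inferInstance, inferInstance, Prod.fst, io ρ S, ta ρ t, ?_, ?_, ?_⟩
  · rintro c ⟨b, u⟩
    cases b
    · simp [io]
    · simp [io]
  · rintro c ⟨b, u⟩
    cases b <;> rfl
  · intro j hj
    set B0 := univ.filter fun x : U => ¬ (t x < t (S (2 * j) x) ∧ t (S (2 * j) x) < t (ρ (2 * j) x))
      with hB0
    set B3 := univ.filter fun x : U => ¬ (t x < t (S (2 * j + 3) x) ∧
      t (S (2 * j + 3) x) < t (ρ (2 * j + 3) x)) with hB3
    have h0 : (B0.card : ℝ) ≤ ε * Fintype.card U := hbad (2 * j) (by omega)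
    have h3 : (B3.card : ℝ) ≤ ε * Fintype.card U := hbad (2 * j + 3) (by omega)
    have hsub : (univ.filter fun v : Bool × U => ¬ Good Prod.fst (io ρ S) (ta ρ t) v j) ⊆
        (B0.image fun x => (false, (R0 ρ j)⁻¹ x)) ∪ (B3.image fun x => (true, (R3 ρ j)⁻¹ x)) := by
      rintro ⟨b, u⟩ hv
      rw [mem_filter] at hv
      rw [mem_union, mem_image, mem_image]
      cases b
      · left
        rw [good_false ρ S t hrel] at hv
        exact ⟨R0 ρ j u, by rw [hB0, mem_filter]; exact ⟨mem_univ _, hv.2⟩, by simp⟩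
      · right
        rw [good_true ρ S t hrel] at hv
        exact ⟨R3 ρ j u, by rw [hB3, mem_filter]; exact ⟨mem_univ _, hv.2⟩, by simp⟩
    have hcard : (univ.filter fun v : Bool × U => ¬ Good Prod.fst (io ρ S) (ta ρ t) v j).card ≤
        B0.card + B3.card :=
      (card_le_card hsub).trans ((card_union_le _ _).trans
        (add_le_add card_image_le card_image_le))
    have hc' : ((univ.filter fun v : Bool × U => ¬ Good Prod.fst (io ρ S) (ta ρ t) v j).card : ℝ) ≤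
        B0.card + B3.card := by exact_mod_cast hcard
    have hV : (Fintype.card (Bool × U) : ℝ) = 2 * Fintype.card U := by
      rw [Fintype.card_prod, Fintype.card_bool]
      push_cast
      ring
    rw [hV]
    linarith

end P125
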