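import Vale.Agent.Lib.P125.Path
import Vale.Agent.Lib.P125.Pattern
import Vale.Agent.Lib.P125.Alt
import Vale.Agent.Lib.P125.OneForm
import Vale.Agent.Lib.P125.Rotor2

/-!
# P125, module CORE

PROOF.  Suppose `ν_2 = N (e 0 - e 1) ≠ 0`.  Choose `T ≥ 1` with `T^(p-1) > 2 (24 K)^p`,
`D = 2T + 6`, `M` from `growth` with this `D` (`ν = N (alt (2M))`, `ν' = N (alt (2(M-D)))`,
`ν ≤ 2 ν'`, `ν' > 0`).  `η` small: `η ≤ 1/2`, `η (2 M N(e 0))^p ≤ ν^p`.  `rotor2 (3M+6) ε` with
`ε (3M+6) * 2 * (number of words of length ≤ T) ≤ η`.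
`Bad = {v | ∃ j < 3M+6, ¬ Good v j}` has at most `(3M+6) ε |V|` elements.
`v` is very good if `pos ι v w' ∉ Bad` for all words `w'` of length `≤ T`; at least `(1-η)|V|`
vertices are very good (`pos_bijective`).
Lower bound: for very good `v` and every word `w` of length `T`:
`N (sumW v w) = N (sumW v (red w)) ≥ (length (red w)) / 2 * ν'` (`path_pattern`,
`norm_of_pattern`, trivial if `red w = []`), so
`(1/|V|) ∑_v avgW T (N (sumW v ·)) ≥ (1 - η) (T/3) ν'/2 ≥ T ν / 24`.
Upper bound: `(1/|V|) ∑_v ∑_c N (form c v)^p / 3 ≤ ν^p + η (2 M N(e 0))^p ≤ 2 ν^p`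
(`form_le_good` when `v` and `ι c v` are not bad, `form_le_all` otherwise).
`avgW_jensen` and `oneForm`: `(T ν / 24)^p ≤ K^p T * 2 ν^p`, so `T^(p-1) ≤ 2 (24 K)^p`,
a contradiction.
-/

open Finset

namespace P125

open Classical in
/-- the number of vertices that see a bad event within a finite set of words -/
theorem Core_count {V : Type} [Fintype V] (par : V → Bool) (ι : Fin 3 → V → V) (τ : V → ℕ → ℕ)
    (hι : ∀ c v, ι c (ι c v) = v) (n : ℕ) (ε : ℝ)
    (hgood : ∀ j < n, ((univ.filter fun v => ¬ Good par ι τ v j).card : ℝ) ≤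
      ε * Fintype.card V) (W : Finset (List (Fin 3))) :
    ((univ.filter fun v => ¬ ∀ w ∈ W, ∀ j < n, Good par ι τ (pos ι v w) j).card : ℝ) ≤
      W.card * (n * (ε * Fintype.card V)) := by
  have hsub : (univ.filter fun v => ¬ ∀ w ∈ W, ∀ j < n, Good par ι τ (pos ι v w) j) ⊆
      W.biUnion fun w => (range n).biUnion fun j =>
        univ.filter fun v => ¬ Good par ι τ (pos ι v w) j := by
    intro v hv
    rw [Finset.mem_filter] at hv
    obtain ⟨_, hv⟩ := hv
    push Not at hv
    obtain ⟨w, hw, j, hj, hb⟩ := hv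
    rw [Finset.mem_biUnion]
    refine ⟨w, hw, ?_⟩
    rw [Finset.mem_biUnion]
    exact ⟨j, Finset.mem_range.2 hj, Finset.mem_filter.2 ⟨Finset.mem_univ _, hb⟩⟩
  have h1 : ∀ w j, (univ.filter fun v => ¬ Good par ι τ (pos ι v w) j).card ≤
      (univ.filter fun v => ¬ Good par ι τ v j).card := by
    intro w j
    refine Finset.card_le_card_of_injOn (fun v => pos ι v w) ?_ ?_
    · intro v hv
      have hv' := (Finset.mem_filter.1 hv).2
      exact Finset.mem_coe.2 (Finset.mem_filter.2 ⟨Finset.mem_univ _, hv'⟩)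
    · exact (pos_bijective ι hι w).injective.injOn
  have h2 : ∀ w, (((range n).biUnion fun j =>
      univ.filter fun v => ¬ Good par ι τ (pos ι v w) j).card : ℝ) ≤
        n * (ε * Fintype.card V) := by
    intro w
    calc (((range n).biUnion fun j =>
        univ.filter fun v => ¬ Good par ι τ (pos ι v w) j).card : ℝ)
        ≤ ((∑ j ∈ range n, (univ.filter fun v => ¬ Good par ι τ (pos ι v w) j).card : ℕ) : ℝ) := by
          exact_mod_cast Finset.card_biUnion_le
      _ = ∑ j ∈ range n, ((univ.filter fun v => ¬ Good par ι τ (pos ι v w) j).card : ℝ) := by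
          push_cast; rfl
      _ ≤ ∑ j ∈ range n, ε * Fintype.card V := by
          refine Finset.sum_le_sum fun j hj => ?_
          refine le_trans ?_ (hgood j (Finset.mem_range.1 hj))
          exact_mod_cast h1 w j
      _ = n * (ε * Fintype.card V) := by
          rw [Finset.sum_const, Finset.card_range, nsmul_eq_mul]
  calc ((univ.filter fun v => ¬ ∀ w ∈ W, ∀ j < n, Good par ι τ (pos ι v w) j).card : ℝ)
      ≤ ((W.biUnion fun w => (range n).biUnion fun j =>
        univ.filter fun v => ¬ Good par ι τ (pos ι v w) j).card : ℝ) := by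
        exact_mod_cast Finset.card_le_card hsub
    _ ≤ ((∑ w ∈ W, ((range n).biUnion fun j =>
        univ.filter fun v => ¬ Good par ι τ (pos ι v w) j).card : ℕ) : ℝ) := by
        exact_mod_cast Finset.card_biUnion_le
    _ = ∑ w ∈ W, (((range n).biUnion fun j =>
        univ.filter fun v => ¬ Good par ι τ (pos ι v w) j).card : ℝ) := by
        push_cast; rfl
    _ ≤ ∑ w ∈ W, n * (ε * Fintype.card V) := Finset.sum_le_sum fun w _ => h2 w
    _ = W.card * (n * (ε * Fintype.card V)) := by
        rw [Finset.sum_const, nsmul_eq_mul]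

/-- Lower bound at a very good vertex. -/
theorem Core_lower {V : Type} (par : V → Bool) (ι : Fin 3 → V → V) (τ : V → ℕ → ℕ)
    (hι : ∀ c v, ι c (ι c v) = v) (hpar : ∀ c v, par (ι c v) = !par v)
    (N : Seminorm ℝ (ℕ →₀ ℝ)) (hN : MonoContr N) (M T : ℕ) (hM : 2 * T + 6 < M) (v : V)
    (hgood : ∀ w : List (Fin 3), w.length ≤ T → ∀ j < 3 * M + 6, Good par ι τ (pos ι v w) j) :
    (T : ℝ) / 6 * N (alt (2 * (M - (2 * T + 6)))) ≤
      avgW T (fun w => N (sumW ι (form ι τ M) v w)) := by
  have h1 : ∀ w : List (Fin 3), w.length = T →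
      N (alt (2 * (M - (2 * T + 6)))) / 2 * ((red w).length : ℝ) ≤
        N (sumW ι (form ι τ M) v w) := by
    intro w hw
    rw [← sumW_red ι hι (form ι τ M) (form_anti ι τ hι M) v w]
    rcases eq_or_ne (red w) [] with h0 | h0
    · rw [h0, List.length_nil, Nat.cast_zero, mul_zero]
      exact apply_nonneg N _
    · have hlen : (red w).length ≤ T := (length_red_le w).trans hw.le
      obtain ⟨B, h, l, hB, h2, h3, h4, h5⟩ := path_pattern par ι τ hι hpar M T hM v (red w) h0
        (reduced_red w) hlen (fun w' hw' j hj =>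
          hgood w' ((List.IsSuffix.length_le hw').trans hlen) j hj)
      have := norm_of_pattern N hN (sumW ι (form ι τ M) v (red w)) (red w).length B
        (M - (2 * T + 6)) hB (by omega) h l h2 h3 h4 h5 (total_sumW ι τ M v (red w))
      calc N (alt (2 * (M - (2 * T + 6)))) / 2 * ((red w).length : ℝ)
          = ((red w).length : ℝ) / 2 * N (alt (2 * (M - (2 * T + 6)))) := by ring
        _ ≤ _ := this
  have h2 := avgW_mono h1
  refine le_trans ?_ h2
  rw [avgW_const_mul]
  have h3 := avgW_red_length T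
  have h4 : 0 ≤ N (alt (2 * (M - (2 * T + 6)))) / 2 := div_nonneg (apply_nonneg N _) (by norm_num)
  calc (T : ℝ) / 6 * N (alt (2 * (M - (2 * T + 6))))
      = N (alt (2 * (M - (2 * T + 6)))) / 2 * ((T : ℝ) / 3) := by ring
    _ ≤ _ := mul_le_mul_of_nonneg_left h3 h4

theorem Core_avgW_nonneg (T : ℕ) (F : List (Fin 3) → ℝ) (hF : ∀ w, 0 ≤ F w) : 0 ≤ avgW T F := by
  have h := avgW_mono (T := T) (F := fun _ => (0 : ℝ)) (G := F) (fun w _ => hF w)
  rwa [avgW_const] at h

/-- choice of `T` -/
theorem Core_exists_T {p : ℝ} (hp : 1 < p) (x : ℝ) : ∃ T : ℕ, 1 ≤ T ∧ x < (T : ℝ) ^ (p - 1) := by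
  have h : Filter.Tendsto (fun n : ℕ => (n : ℝ) ^ (p - 1)) Filter.atTop Filter.atTop :=
    (tendsto_rpow_atTop (by linarith)).comp tendsto_natCast_atTop_atTop
  obtain ⟨T, hT, hT1⟩ := ((h.eventually_gt_atTop x).and (Filter.eventually_ge_atTop 1)).exists
  exact ⟨T, hT1, hT⟩

theorem core (p K : ℝ) (hp : 1 < p) (hK : 0 ≤ K) (N : Seminorm ℝ (ℕ →₀ ℝ)) (h : MT p K N)
    (hN : MonoContr N) : N (e 0 - e 1) = 0 := by
  by_contra hne
  classical
  obtain ⟨T, hT1, hTK⟩ := Core_exists_T hp (2 * (24 * K) ^ p)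
  obtain ⟨M, hM, hν, hν'⟩ := growth N hN hne (2 * T + 6)
  set ν := N (alt (2 * M)) with hνdef
  set ν' := N (alt (2 * (M - (2 * T + 6)))) with hν'def
  have hνpos : 0 < ν := lt_of_lt_of_le hν' (alt_mono N hN (Nat.sub_le _ _))
  set L : ℝ := 2 * M * N (e 0) with hL
  have hL0 : 0 ≤ L := by
    rw [hL]
    have := apply_nonneg N (e 0)
    positivity
  have hLp : 0 ≤ L ^ p := Real.rpow_nonneg hL0 _
  have hνp : 0 < ν ^ p := Real.rpow_pos_of_pos hνpos _
  set η : ℝ := min (1 / 2) (ν ^ p / (L ^ p + 1)) with hη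
  have hη0 : 0 < η := lt_min (by norm_num) (by positivity)
  have hη1 : η ≤ 1 / 2 := min_le_left _ _
  have hη2 : η * L ^ p ≤ ν ^ p := by
    calc η * L ^ p ≤ ν ^ p / (L ^ p + 1) * L ^ p :=
          mul_le_mul_of_nonneg_right (min_le_right _ _) hLp
      _ ≤ ν ^ p / (L ^ p + 1) * (L ^ p + 1) :=
          mul_le_mul_of_nonneg_left (by linarith) (by positivity)
      _ = ν ^ p := div_mul_cancel₀ _ (by positivity)
  set W : Finset (List (Fin 3)) := (List.finite_length_le (Fin 3) T).toFinset with hW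
  have hWmem : ∀ w : List (Fin 3), w.length ≤ T → w ∈ W := by
    intro w hw
    rw [hW, Set.Finite.mem_toFinset]
    exact hw
  set ε : ℝ := η / ((W.card + 1) * ((3 * M + 6 : ℕ) : ℝ)) with hε
  have hε0 : 0 < ε := by positivity
  obtain ⟨V, hVf, hVn, par, ι, τ, hι, hpar, hgood⟩ := rotor2 (3 * M + 6) ε hε0
  have hcount := Core_count par ι τ hι (3 * M + 6) ε hgood W
  set c : ℝ := (Fintype.card V : ℝ) with hc
  have hc0 : 0 < c := by
    rw [hc]
    exact_mod_cast Fintype.card_pos
  set VG : V → Prop := fun v => ∀ w ∈ W, ∀ j < 3 * M + 6, Good par ι τ (pos ι v w) j with hVG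
  have hbad : ((univ.filter fun v => ¬ VG v).card : ℝ) ≤ η * c := by
    refine hcount.trans ?_
    have h1 : (W.card : ℝ) * (((3 * M + 6 : ℕ) : ℝ) * (ε * c)) =
        η * c * (W.card / (W.card + 1)) := by
      rw [hε]
      field_simp
    rw [h1]
    have h2 : (W.card : ℝ) / (W.card + 1) ≤ 1 := by
      rw [div_le_one (by positivity)]
      linarith
    calc η * c * (W.card / (W.card + 1)) ≤ η * c * 1 :=
          mul_le_mul_of_nonneg_left h2 (by positivity)
      _ = η * c := mul_one _
  have hcardsum : ((univ.filter fun v => VG v).card : ℝ) +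
      ((univ.filter fun v => ¬ VG v).card : ℝ) = c := by
    rw [hc, ← Finset.card_univ]
    exact_mod_cast Finset.card_filter_add_card_filter_not (s := (univ : Finset V)) VG
  have hVGcard : c / 2 ≤ ((univ.filter fun v => VG v).card : ℝ) := by
    have : η * c ≤ 1 / 2 * c := mul_le_mul_of_nonneg_right hη1 hc0.le
    linarith
  set F : V → List (Fin 3) → ℝ := fun v w => N (sumW ι (form ι τ M) v w) with hF
  have hF0 : ∀ v w, 0 ≤ F v w := fun v w => apply_nonneg N _
  -- lower bound
  have hlow : c * (T * ν / 24) ≤ ∑ v, avgW T (F v) := by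
    have h1 : ∀ v ∈ univ.filter (fun v => VG v), (T : ℝ) / 6 * ν' ≤ avgW T (F v) := by
      intro v hv
      have hv' := (Finset.mem_filter.1 hv).2
      exact Core_lower par ι τ hι hpar N hN M T hM v (fun w hw j hj => hv' w (hWmem w hw) j hj)
    have h2 := Finset.card_nsmul_le_sum _ _ _ h1
    have h3 : ∑ v ∈ univ.filter (fun v => VG v), avgW T (F v) ≤ ∑ v, avgW T (F v) :=
      Finset.sum_le_sum_of_subset_of_nonneg (Finset.filter_subset _ _)
        (fun v _ _ => Core_avgW_nonneg T _ (hF0 v))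
    rw [nsmul_eq_mul] at h2
    refine le_trans ?_ (h2.trans h3)
    have h4 : (0 : ℝ) ≤ (T : ℝ) / 6 * ν' := by positivity
    calc c * (T * ν / 24) ≤ c * (T * (2 * ν') / 24) := by gcongr
      _ = c / 2 * ((T : ℝ) / 6 * ν') := by ring
      _ ≤ _ := mul_le_mul_of_nonneg_right hVGcard h4
  -- upper bound
  have hup : ∑ v, ∑ c, N (form ι τ M c v) ^ p / 3 ≤ c * (2 * ν ^ p) := by
    have h1 : ∀ v, ∑ c, N (form ι τ M c v) ^ p / 3 ≤ ν ^ p + if VG v then 0 else L ^ p := by
      intro v
      have hterm : ∀ c, N (form ι τ M c v) ^ p ≤ ν ^ p + if VG v then 0 else L ^ p := by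
        intro c
        split_ifs with hv
        · rw [add_zero]
          refine Real.rpow_le_rpow (apply_nonneg N _) ?_ (by linarith)
          refine form_le_good par ι τ hι hpar N hN M c v ?_ ?_
          · intro j hj
            exact hv [] (hWmem [] (by simp)) j hj
          · intro j hj
            exact hv [c] (hWmem [c] (by simpa using hT1)) j hj
        · have h2 : N (form ι τ M c v) ^ p ≤ L ^ p :=
            Real.rpow_le_rpow (apply_nonneg N _) (form_le_all ι τ N hN M c v) (by linarith)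
          linarith
      calc ∑ c, N (form ι τ M c v) ^ p / 3
          ≤ ∑ _c : Fin 3, (ν ^ p + if VG v then 0 else L ^ p) / 3 :=
            Finset.sum_le_sum fun c _ => div_le_div_of_nonneg_right (hterm c) (by norm_num)
        _ = ν ^ p + if VG v then 0 else L ^ p := by
            rw [Finset.sum_const, Finset.card_univ, Fintype.card_fin, nsmul_eq_mul]
            push_cast
            ring
    calc ∑ v, ∑ c, N (form ι τ M c v) ^ p / 3
        ≤ ∑ v, (ν ^ p + if VG v then 0 else L ^ p) := Finset.sum_le_sum fun v _ => h1 v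
      _ = c * ν ^ p + ((univ.filter fun v => ¬ VG v).card : ℝ) * L ^ p := by
          rw [Finset.sum_add_distrib, Finset.sum_const, Finset.card_univ, nsmul_eq_mul]
          congr 1
          have h3 : ∀ v, (if VG v then (0 : ℝ) else L ^ p) = if ¬ VG v then L ^ p else 0 := by
            intro v
            by_cases hv : VG v
            · rw [if_pos hv, if_neg (not_not.2 hv)]
            · rw [if_neg hv, if_pos hv]
          rw [Finset.sum_congr rfl (fun v _ => h3 v), ← Finset.sum_filter, Finset.sum_const,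
            nsmul_eq_mul]
      _ ≤ c * ν ^ p + η * c * L ^ p := by
          have := mul_le_mul_of_nonneg_right hbad hLp
          linarith
      _ ≤ c * (2 * ν ^ p) := by
          have := mul_le_mul_of_nonneg_left hη2 hc0.le
          linarith [mul_comm η c, mul_assoc c η (L ^ p), mul_comm (η * c) (L ^ p)]
  -- conclusion
  have hone := oneForm N hp.le hK h ι hι (form ι τ M) (form_anti ι τ hι M) T hT1
  have hjen := avgW_jensen hp.le T F hF0
  have h24 : (T * ν / 24 : ℝ) ^ p ≤ K ^ p * T * (2 * ν ^ p) := by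
    calc (T * ν / 24 : ℝ) ^ p ≤ ((∑ v, avgW T (F v)) / c) ^ p := by
          refine Real.rpow_le_rpow (by positivity) ?_ (by linarith)
          rw [le_div_iff₀ hc0]
          linarith [mul_comm c (T * ν / 24)]
      _ ≤ (∑ v, avgW T (fun w => F v w ^ p)) / c := hjen
      _ ≤ (K ^ p * T * (c * (2 * ν ^ p))) / c := by
          refine div_le_div_of_nonneg_right (hone.trans ?_) hc0.le
          refine mul_le_mul_of_nonneg_left hup ?_
          have := Real.rpow_nonneg hK p
          positivity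
      _ = K ^ p * T * (2 * ν ^ p) := by
          field_simp
  have hTpos : (0 : ℝ) < T := by exact_mod_cast hT1
  have h5 : (T * ν / 24 : ℝ) ^ p = (T : ℝ) ^ (p - 1) * T * ν ^ p / 24 ^ p := by
    rw [Real.div_rpow (by positivity) (by norm_num), Real.mul_rpow hTpos.le hνpos.le]
    congr 2
    rw [← Real.rpow_add_one hTpos.ne']
    congr 1
    ring
  rw [h5] at h24
  have h6 : (T : ℝ) ^ (p - 1) ≤ 2 * (24 * K) ^ p := by
    rw [Real.mul_rpow (by norm_num) hK]
    have h24p : (0 : ℝ) < 24 ^ p := Real.rpow_pos_of_pos (by norm_num) _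
    rw [div_le_iff₀ h24p] at h24
    have h7 : (T : ℝ) ^ (p - 1) * (T * ν ^ p) ≤ (2 * (24 ^ p * K ^ p)) * (T * ν ^ p) := by
      calc (T : ℝ) ^ (p - 1) * (T * ν ^ p) = (T : ℝ) ^ (p - 1) * T * ν ^ p := by ring
        _ ≤ K ^ p * T * (2 * ν ^ p) * 24 ^ p := h24
        _ = _ := by ring
    exact le_of_mul_le_mul_right h7 (by positivity)
  linarith

end P125
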