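import Mathlib

/-!
# P125 : common definitions

Everything is done with seminorms on `ℕ →₀ ℝ`.
-/

open Finset

namespace P125

/-- A stationary reversible finite Markov chain: transition matrix `P`, initial law `μ`. -/
structure IsRevChain {S : Type} [Fintype S] (P : Matrix S S ℝ) (μ : S → ℝ) : Prop where
  mu_nonneg : ∀ i, 0 ≤ μ i
  mu_sum : ∑ i, μ i = 1
  P_nonneg : ∀ i j, 0 ≤ P i j
  P_sum : ∀ i, ∑ j, P i j = 1
  rev : ∀ i j, μ i * P i j = μ j * P j i

/-- `N` (a length function on the group `E`) satisfies the Markov type `p` inequality with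
constant `K`: for each stationary reversible finite chain `Z` and each `f : S → E`,
`E N(f(Z_t) - f(Z_0))^p ≤ K^p t E N(f(Z_1) - f(Z_0))^p`. -/
def MT {E : Type*} [AddCommGroup E] (p K : ℝ) (N : E → ℝ) : Prop :=
  ∀ (S : Type) [Fintype S] [DecidableEq S] (P : Matrix S S ℝ) (μ : S → ℝ), IsRevChain P μ →
    ∀ (f : S → E) (t : ℕ), 1 ≤ t →
      ∑ i, ∑ j, μ i * (P ^ t) i j * N (f j - f i) ^ p ≤
        K ^ p * t * ∑ i, ∑ j, μ i * P i j * N (f j - f i) ^ p

/-- The unit vector `e i` of `ℕ →₀ ℝ`. -/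
noncomputable def e (i : ℕ) : ℕ →₀ ℝ := Finsupp.single i 1

/-- The alternating vector `e 0 - e 1 + e 2 - ... ± e (n-1)`. -/
noncomputable def alt (n : ℕ) : ℕ →₀ ℝ := ∑ i ∈ range n, (-1 : ℝ) ^ i • e i

/-- `N` decreases under every nondecreasing relabelling of the coordinates (coordinates that
are sent to the same place are added). -/
def MonoContr (N : Seminorm ℝ (ℕ →₀ ℝ)) : Prop :=
  ∀ φ : ℕ → ℕ, Monotone φ → ∀ a : ℕ →₀ ℝ, N (a.mapDomain φ) ≤ N a

/-- Partial sum of the coordinates up to and including `s`. -/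
def Phi (s : ℕ) (A : ℕ →₀ ℝ) : ℝ := ∑ t ∈ range (s + 1), A t

/-- Sum of all coordinates. -/
def total (A : ℕ →₀ ℝ) : ℝ := A.sum fun _ x => x

/-! ### Words in three letters (head of the list = last letter) -/

/-- Average of `F` over the `3 ^ T` words of length `T`. -/
noncomputable def avgW : ℕ → (List (Fin 3) → ℝ) → ℝ
  | 0, F => F []
  | T + 1, F => (∑ c : Fin 3, avgW T (fun w => F (c :: w))) / 3

/-- End point of the path from `v` that reads the word. -/
def pos {V : Type*} (ι : Fin 3 → V → V) (v : V) : List (Fin 3) → V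
  | [] => v
  | c :: w => ι c (pos ι v w)

/-- Sum of the 1-form `a` along the path from `v` that reads the word. -/
def sumW {V E : Type*} [AddCommGroup E] (ι : Fin 3 → V → V) (a : Fin 3 → V → E) (v : V) :
    List (Fin 3) → E
  | [] => 0
  | c :: w => sumW ι a v w + a c (pos ι v w)

/-- Multiply a reduced word by the letter `c` (letters are involutions). -/
def push (c : Fin 3) : List (Fin 3) → List (Fin 3)
  | [] => [c]
  | d :: w => if c = d then w else c :: d :: w

/-- Reduced form of a word. -/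
def red : List (Fin 3) → List (Fin 3)
  | [] => []
  | c :: w => push c (red w)

/-- No two adjacent letters are equal. -/
def Reduced : List (Fin 3) → Prop
  | [] => True
  | [_] => True
  | c :: d :: w => c ≠ d ∧ Reduced (d :: w)

/-! ### Rotor systems -/

/-- The colour `j mod 3`. -/
def col (j : ℕ) : Fin 3 := ⟨j % 3, Nat.mod_lt _ (by norm_num)⟩

/-- Index shift across an edge: `j` from an even vertex (`b = false`), `j + 3` from an odd one. -/
def sIdx (b : Bool) (j : ℕ) : ℕ := if b then j + 3 else j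

/-- Time of the image of the event `(v, j)` at the other end point of its edge. -/
def tauS {V : Type*} (par : V → Bool) (ι : Fin 3 → V → V) (τ : V → ℕ → ℕ) (v : V) (j : ℕ) : ℕ :=
  τ (ι (col j) v) (sIdx (par v) j)

/-- Local goodness of the event `(v, j)`. -/
def Good {V : Type*} (par : V → Bool) (ι : Fin 3 → V → V) (τ : V → ℕ → ℕ) (v : V) (j : ℕ) :
    Prop :=
  τ v j < tauS par ι τ v j ∧ tauS par ι τ v j < τ v (j + 1)

/-- The 1-form of a rotor system with `M` rotations. -/
noncomputable def form {V : Type*} (ι : Fin 3 → V → V) (τ : V → ℕ → ℕ) (M : ℕ) (c : Fin 3)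
    (v : V) : ℕ →₀ ℝ :=
  ∑ l ∈ range M, (e (τ v ((c : ℕ) + 3 * l)) - e (τ (ι c v) ((c : ℕ) + 3 * l)))

/-! ### Labelled binary trees (dyadic martingales) -/

/-- A labelled binary tree: `node d i l r` is the step `± d`, with label `i`. -/
inductive LTree (X : Type*) where
  | leaf : LTree X
  | node (d : X) (i : ℕ) (l r : LTree X) : LTree X

namespace LTree

variable {X : Type*}

/-- Depth. -/
def depth : LTree X → ℕ
  | leaf => 0
  | node _ _ l r => max l.depth r.depth + 1

/-- Labels are at least `m` and nondecreasing along the branches. -/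
def lab : LTree X → ℕ → Prop
  | leaf, _ => True
  | node _ i l r, m => m ≤ i ∧ l.lab i ∧ r.lab i

variable [NormedAddCommGroup X]

/-- Every step has norm at most `1`. -/
def small : LTree X → Prop
  | leaf => True
  | node d _ l r => ‖d‖ ≤ 1 ∧ l.small ∧ r.small

/-- Along each branch the sum of `‖d‖ ^ r` is at most `s`. -/
def bud (r : ℝ) : LTree X → ℝ → Prop
  | leaf, s => 0 ≤ s
  | node d _ l r', s => l.bud r (s - ‖d‖ ^ r) ∧ r'.bud r (s - ‖d‖ ^ r)

variable [NormedSpace ℝ X]

/-- `E ‖y + ∑ a(label) ± d‖ ^ p` over the branches. -/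
noncomputable def ev (p : ℝ) : LTree X → X → (ℕ → ℝ) → ℝ
  | leaf, y, _ => ‖y‖ ^ p
  | node d i l r, y, a => (l.ev p (y + a i • d) a + r.ev p (y - a i • d) a) / 2

/-- `E exp(- ∑ ‖d‖ ^ r) ‖y + ∑ ± d‖` over the branches. -/
noncomputable def ew (r : ℝ) : LTree X → X → ℝ
  | leaf, y => ‖y‖
  | node d _ l r', y => Real.exp (-‖d‖ ^ r) * ((l.ew r (y + d) + r'.ew r (y - d)) / 2)

end LTree

/-! ### Renorming -/

/-- The norm `N` is equivalent to the given norm. -/
def EquivNorm {X : Type*} [NormedAddCommGroup X] [NormedSpace ℝ X] (N : Seminorm ℝ X) : Prop :=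
  ∃ a b : ℝ, 0 < a ∧ 0 < b ∧ ∀ x : X, a * ‖x‖ ≤ N x ∧ N x ≤ b * ‖x‖

/-- The modulus of smoothness
`ρ(τ) = sup {(N(x + τ y) + N(x - τ y)) / 2 - 1 : N x = N y = 1}`. -/
noncomputable def smoothMod {X : Type*} [AddCommGroup X] [Module ℝ X] (N : Seminorm ℝ X)
    (τ : ℝ) : ℝ :=
  sSup {s : ℝ | ∃ x y : X, N x = 1 ∧ N y = 1 ∧ s = (N (x + τ • y) + N (x - τ • y)) / 2 - 1}

/-- `ρ(τ) / τ → 0` as `τ → 0+`. -/
def UniformlySmooth {X : Type*} [AddCommGroup X] [Module ℝ X] (N : Seminorm ℝ X) : Prop :=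
  Filter.Tendsto (fun τ : ℝ => smoothMod N τ / τ) (nhdsWithin 0 (Set.Ioi 0)) (nhds 0)

end P125
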