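import Vale.Agent.Lib.P125.Basic

/-!
# P125, module FORM: the 1-form of a rotor system

`w = ι c v`.  If the events at `v` and `w` are good for all `j < 3 M + 6`, then on the edge of
colour `c` the times alternate.  For `par v = false` (even):
`τ v c < τ w c < τ v (c+3) < τ w (c+3) < ...`; for `par v = true` (odd):
`τ w c < τ v c < τ w (c+3) < τ v (c+3) < ...`.
(`Good v (c+3l)` says for even `v`: `τ v (c+3l) < τ w (c+3l)`; for odd `v`:
`τ v (c+3l) < τ w (c+3l+3)`; and `Good w (c+3l)` gives the other half. Note `col (c + 3 l) = c`,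
`ι c (ι c v) = v`, `par w = !par v`.)

`Phi_form` (dart lemma): if `τ v (c+3l) ≤ s < tauS v (c+3l)`, `l < M`, then
`Phi s (form ι τ M c v) = if par v then 0 else 1`.
Proof: `Phi s (form ..) = ∑_{l' < M} ([τ v (c+3l') ≤ s] - [τ w (c+3l') ≤ s])`.
Even: the terms `l' < l` are `1 - 1`, the term `l` is `1 - 0`, the terms `l' > l` are `0 - 0`.
Odd: the terms `l' ≤ l` are `1 - 1`, the terms `l' > l` are `0 - 0`.

`form_le_good`: for even `v`, `form ι τ M c v = ∑_l (e (t_{2l}) - e (t_{2l+1}))` with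
`t_0 < t_1 < ... < t_{2M-1}`, so it is `mapDomain φ (alt (2M))` with `φ` monotone,
`φ i = t_{min i (2M-1)}` (`alt_two_mul`). For odd `v` use `form_anti` and `map_neg_eq_map`.
-/

open Finset

namespace P125

theorem form_anti {V : Type} (ι : Fin 3 → V → V) (τ : V → ℕ → ℕ)
    (hι : ∀ c v, ι c (ι c v) = v) (M : ℕ) (c : Fin 3) (v : V) :
    form ι τ M c (ι c v) = - form ι τ M c v := by
  unfold form
  rw [← Finset.sum_neg_distrib]
  refine Finset.sum_congr rfl fun l _ => ?_
  rw [hι, neg_sub]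

theorem Form_total_form {V : Type} (ι : Fin 3 → V → V) (τ : V → ℕ → ℕ) (M : ℕ) (c : Fin 3)
    (v : V) : total (form ι τ M c v) = 0 := by
  unfold form
  rw [total_sum]
  refine Finset.sum_eq_zero fun l _ => ?_
  rw [total_sub, total_e, total_e, sub_self]

theorem total_sumW {V : Type} (ι : Fin 3 → V → V) (τ : V → ℕ → ℕ) (M : ℕ) (v : V)
    (w : List (Fin 3)) : total (sumW ι (form ι τ M) v w) = 0 := by
  induction w with
  | nil => exact total_zero
  | cons c w ih =>
    rw [sumW, total_add, ih, Form_total_form, add_zero]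

theorem form_le_all {V : Type} (ι : Fin 3 → V → V) (τ : V → ℕ → ℕ)
    (N : Seminorm ℝ (ℕ →₀ ℝ)) (hN : MonoContr N) (M : ℕ) (c : Fin 3) (v : V) :
    N (form ι τ M c v) ≤ 2 * M * N (e 0) := by
  induction M with
  | zero =>
    simp [form]
  | succ M ih =>
    have h : form ι τ (M + 1) c v = form ι τ M c v +
        (e (τ v ((c : ℕ) + 3 * M)) - e (τ (ι c v) ((c : ℕ) + 3 * M))) := by
      unfold form
      rw [Finset.sum_range_succ]
    rw [h]
    have h1 := map_add_le_add N (form ι τ M c v)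
      (e (τ v ((c : ℕ) + 3 * M)) - e (τ (ι c v) ((c : ℕ) + 3 * M)))
    have h2 := map_sub_le_add N (e (τ v ((c : ℕ) + 3 * M))) (e (τ (ι c v) ((c : ℕ) + 3 * M)))
    rw [hN.e_eq, hN.e_eq (τ (ι c v) ((c : ℕ) + 3 * M))] at h2
    push_cast
    linarith

theorem col_add (c : Fin 3) (l : ℕ) : col ((c : ℕ) + 3 * l) = c := by
  apply Fin.ext
  have := c.isLt
  show ((c : ℕ) + 3 * l) % 3 = (c : ℕ)
  omega

theorem Form_mono (M : ℕ) (a b : ℕ → ℕ) (h1 : ∀ l < M + 1, a l < b l)
    (h2 : ∀ l < M + 1, b l < a (l + 1)) (i j : ℕ) (hij : i ≤ j) (hj : j ≤ M + 1) :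
    a i ≤ a j := by
  induction j, hij using Nat.le_induction with
  | base => exact le_rfl
  | succ j hij ih =>
    have := ih (by omega)
    have h3 := h1 j (by omega)
    have h4 := h2 j (by omega)
    omega

theorem Form_sum_one (M : ℕ) (a b : ℕ → ℕ) (h1 : ∀ l < M + 1, a l < b l)
    (h2 : ∀ l < M + 1, b l < a (l + 1)) (l : ℕ) (hl : l < M) (s : ℕ) (hs : a l ≤ s)
    (hs' : s < b l) :
    ∑ j ∈ range M, ((if a j ≤ s then (1 : ℝ) else 0) - (if b j ≤ s then (1 : ℝ) else 0)) = 1 := by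
  rw [Finset.sum_eq_single l]
  · rw [if_pos hs, if_neg (by omega), sub_zero]
  · intro j hj hjl
    rw [Finset.mem_range] at hj
    rcases lt_or_gt_of_ne hjl with h | h
    · have h3 := Form_mono M a b h1 h2 (j + 1) l (by omega) (by omega)
      have h4 := h2 j (by omega)
      have h5 := h1 j (by omega)
      rw [if_pos (by omega), if_pos (by omega), sub_self]
    · have h3 := Form_mono M a b h1 h2 (l + 1) j (by omega) (by omega)
      have h4 := h2 l (by omega)
      have h5 := h1 j (by omega)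
      rw [if_neg (by omega), if_neg (by omega), sub_self]
  · intro h
    rw [Finset.mem_range] at h
    exact absurd hl h

theorem Form_sum_zero (M : ℕ) (a b : ℕ → ℕ) (h1 : ∀ l < M + 1, a l < b l)
    (h2 : ∀ l < M + 1, b l < a (l + 1)) (l : ℕ) (hl : l < M) (s : ℕ) (hs : b l ≤ s)
    (hs' : s < a (l + 1)) :
    ∑ j ∈ range M, ((if b j ≤ s then (1 : ℝ) else 0) - (if a j ≤ s then (1 : ℝ) else 0)) = 0 := by
  refine Finset.sum_eq_zero fun j hj => ?_
  rw [Finset.mem_range] at hj
  rcases le_or_gt j l with h | h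
  · have h3 := Form_mono M a b h1 h2 j l h (by omega)
    have h5 := h1 j (by omega)
    have h6 : b j ≤ b l := by
      rcases Nat.lt_or_ge j l with h7 | h7
      · have h8 := Form_mono M a b h1 h2 (j + 1) l (by omega) (by omega)
        have h9 := h2 j (by omega)
        have h10 := h1 l (by omega)
        omega
      · have : j = l := by omega
        rw [this]
    rw [if_pos (by omega), if_pos (by omega), sub_self]
  · have h3 := Form_mono M a b h1 h2 (l + 1) j (by omega) (by omega)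
    have h5 := h1 j (by omega)
    rw [if_neg (by omega), if_neg (by omega), sub_self]

/-- Interlacing at an even vertex. -/
theorem Form_even {V : Type} (par : V → Bool) (ι : Fin 3 → V → V) (τ : V → ℕ → ℕ)
    (hι : ∀ c v, ι c (ι c v) = v) (hpar : ∀ c v, par (ι c v) = !par v)
    (M : ℕ) (c : Fin 3) (v : V) (hp : par v = false)
    (hv : ∀ j < 3 * M + 6, Good par ι τ v j) (hv' : ∀ j < 3 * M + 6, Good par ι τ (ι c v) j)
    (l : ℕ) (hl : l < M + 1) :
    τ v ((c : ℕ) + 3 * l) < τ (ι c v) ((c : ℕ) + 3 * l) ∧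
      τ (ι c v) ((c : ℕ) + 3 * l) < τ v ((c : ℕ) + 3 * (l + 1)) := by
  have hc := c.isLt
  have g1 := (hv ((c : ℕ) + 3 * l) (by omega)).1
  have g2 := (hv' ((c : ℕ) + 3 * l) (by omega)).1
  unfold tauS sIdx at g1 g2
  rw [col_add] at g1 g2
  rw [hι, hpar, hp] at g2
  rw [hp] at g1
  refine ⟨by simpa using g1, ?_⟩
  have h3 : (c : ℕ) + 3 * (l + 1) = (c : ℕ) + 3 * l + 3 := by ring
  rw [h3]
  simpa using g2

theorem Form_Phi {V : Type} (ι : Fin 3 → V → V) (τ : V → ℕ → ℕ) (M : ℕ) (c : Fin 3) (v : V)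
    (s : ℕ) : Phi s (form ι τ M c v) =
      ∑ j ∈ range M, ((if τ v ((c : ℕ) + 3 * j) ≤ s then (1 : ℝ) else 0) -
        (if τ (ι c v) ((c : ℕ) + 3 * j) ≤ s then (1 : ℝ) else 0)) := by
  unfold form
  rw [Phi_sum]
  refine Finset.sum_congr rfl fun l _ => ?_
  rw [Phi_sub, Phi_e, Phi_e]

theorem Phi_form {V : Type} (par : V → Bool) (ι : Fin 3 → V → V) (τ : V → ℕ → ℕ)
    (hι : ∀ c v, ι c (ι c v) = v) (hpar : ∀ c v, par (ι c v) = !par v)
    (M : ℕ) (c : Fin 3) (v : V)
    (hv : ∀ j < 3 * M + 6, Good par ι τ v j) (hv' : ∀ j < 3 * M + 6, Good par ι τ (ι c v) j)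
    (l : ℕ) (hl : l < M) (s : ℕ) (hs : τ v ((c : ℕ) + 3 * l) ≤ s)
    (hs' : s < tauS par ι τ v ((c : ℕ) + 3 * l)) :
    Phi s (form ι τ M c v) = if par v then 0 else 1 := by
  rw [Form_Phi]
  unfold tauS sIdx at hs'
  rw [col_add] at hs'
  cases hp : par v with
  | false =>
    rw [hp] at hs'
    have key := Form_even par ι τ hι hpar M c v hp hv hv'
    have := Form_sum_one M (fun j => τ v ((c : ℕ) + 3 * j))
      (fun j => τ (ι c v) ((c : ℕ) + 3 * j)) (fun j hj => (key j hj).1)
      (fun j hj => (key j hj).2) l hl s hs (by simpa using hs')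
    rw [this]
    simp
  | true =>
    rw [hp] at hs'
    have hp' : par (ι c v) = false := by rw [hpar, hp]; rfl
    have key := Form_even par ι τ hι hpar M c (ι c v) hp' hv' (by rw [hι]; exact hv)
    rw [hι] at key
    have h3 : (c : ℕ) + 3 * (l + 1) = (c : ℕ) + 3 * l + 3 := by ring
    have := Form_sum_zero M (fun j => τ (ι c v) ((c : ℕ) + 3 * j))
      (fun j => τ v ((c : ℕ) + 3 * j)) (fun j hj => (key j hj).1)
      (fun j hj => (key j hj).2) l hl s hs (by
        show s < τ (ι c v) ((c : ℕ) + 3 * (l + 1))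
        rw [h3]
        simpa using hs')
    rw [this]
    simp

theorem Form_le_even {V : Type} (par : V → Bool) (ι : Fin 3 → V → V) (τ : V → ℕ → ℕ)
    (hι : ∀ c v, ι c (ι c v) = v) (hpar : ∀ c v, par (ι c v) = !par v)
    (N : Seminorm ℝ (ℕ →₀ ℝ)) (hN : MonoContr N) (M : ℕ) (c : Fin 3) (v : V)
    (hp : par v = false)
    (hv : ∀ j < 3 * M + 6, Good par ι τ v j) (hv' : ∀ j < 3 * M + 6, Good par ι τ (ι c v) j) :
    N (form ι τ M c v) ≤ N (alt (2 * M)) := by
  have key := Form_even par ι τ hι hpar M c v hp hv hv'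
  let T : ℕ → ℕ := fun j =>
    if j % 2 = 0 then τ v ((c : ℕ) + 3 * (j / 2)) else τ (ι c v) ((c : ℕ) + 3 * (j / 2))
  let φ : ℕ → ℕ := fun i => T (min i (2 * M - 1))
  have hT : ∀ j, j + 1 ≤ 2 * M → T j ≤ T (j + 1) := by
    intro j hj
    rcases Nat.mod_two_eq_zero_or_one j with h | h
    · have h1 : (j + 1) % 2 = 1 := by omega
      have h2 : (j + 1) / 2 = j / 2 := by omega
      show (if j % 2 = 0 then _ else _) ≤ (if (j + 1) % 2 = 0 then _ else _)
      rw [if_pos h, if_neg (by omega), h2]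
      exact (key (j / 2) (by omega)).1.le
    · have h1 : (j + 1) % 2 = 0 := by omega
      have h2 : (j + 1) / 2 = j / 2 + 1 := by omega
      show (if j % 2 = 0 then _ else _) ≤ (if (j + 1) % 2 = 0 then _ else _)
      rw [if_neg (by omega), if_pos h1, h2]
      exact (key (j / 2) (by omega)).2.le
  have hφ : Monotone φ := by
    apply monotone_nat_of_le_succ
    intro i
    show T (min i (2 * M - 1)) ≤ T (min (i + 1) (2 * M - 1))
    rcases Nat.lt_or_ge i (2 * M - 1) with h | h
    · rw [min_eq_left (by omega), min_eq_left (by omega)]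
      exact hT i (by omega)
    · rw [min_eq_right (by omega), min_eq_right (by omega)]
  have hform : form ι τ M c v = (alt (2 * M)).mapDomain φ := by
    rw [alt_two_mul, mapDomain_sum']
    unfold form
    refine Finset.sum_congr rfl fun l hl => ?_
    rw [Finset.mem_range] at hl
    rw [mapDomain_sub', mapDomain_e, mapDomain_e]
    have h1 : φ (2 * l) = τ v ((c : ℕ) + 3 * l) := by
      show T (min (2 * l) (2 * M - 1)) = _
      rw [min_eq_left (by omega)]
      show (if (2 * l) % 2 = 0 then _ else _) = _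
      rw [if_pos (by omega), show 2 * l / 2 = l by omega]
    have h2 : φ (2 * l + 1) = τ (ι c v) ((c : ℕ) + 3 * l) := by
      show T (min (2 * l + 1) (2 * M - 1)) = _
      rw [min_eq_left (by omega)]
      show (if (2 * l + 1) % 2 = 0 then _ else _) = _
      rw [if_neg (by omega), show (2 * l + 1) / 2 = l by omega]
    rw [h1, h2]
  rw [hform]
  exact hN φ hφ _

theorem form_le_good {V : Type} (par : V → Bool) (ι : Fin 3 → V → V) (τ : V → ℕ → ℕ)
    (hι : ∀ c v, ι c (ι c v) = v) (hpar : ∀ c v, par (ι c v) = !par v)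
    (N : Seminorm ℝ (ℕ →₀ ℝ)) (hN : MonoContr N) (M : ℕ) (c : Fin 3) (v : V)
    (hv : ∀ j < 3 * M + 6, Good par ι τ v j) (hv' : ∀ j < 3 * M + 6, Good par ι τ (ι c v) j) :
    N (form ι τ M c v) ≤ N (alt (2 * M)) := by
  cases hp : par v with
  | false => exact Form_le_even par ι τ hι hpar N hN M c v hp hv hv'
  | true =>
    have hp' : par (ι c v) = false := by rw [hpar, hp]; rfl
    have h := Form_le_even par ι τ hι hpar N hN M c (ι c v) hp' hv' (by rw [hι]; exact hv)
    rw [form_anti ι τ hι, map_neg_eq_map] at h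
    exact h

end P125
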