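import Vale.Agent.Lib.P125.Basic

/-!
# P125, module GAUGE: the equivalent uniformly smooth norm

PROOF.  `R = C + 1`, `B = {x | W x ≤ R}`: convex, symmetric, closed, contains the unit ball
(`W x ≤ ‖x‖ + C`) and is contained in the ball of radius `R`.  `N` = gauge seminorm of `B`
(`gaugeSeminorm`, or build the seminorm by hand from `inf {λ > 0 | W (x/λ) ≤ R}`).
`(1/R) ‖x‖ ≤ N x ≤ ‖x‖`; `N x ≤ 1 ↔ W x ≤ R`; `N x = 1 → W x = R`
(if `W x < R` then `W ((1+ε) x) ≤ R` for a small `ε`, so `N x ≤ 1/(1+ε)`).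
Smoothness.  `N x = N y = 1`, `0 < τ ≤ τ0 = 1/(10 R)` (so `τ ≤ 1/10`).  `λ± = N (x ± τ y)`,
in `[1 - τ, 1 + τ]`, `Λ = (λ+ + λ-)/2 ≥ 1`, `z = x / Λ`, `u± = (x ± τ y)/λ±`, `v = u+ - z`.  Then
`u- - z = -(λ+/λ-) v`, `‖v‖ ≤ 10 R τ ≤ 1`
(`u+ - z = ((λ- - λ+) x + (λ+ + λ-) τ y) / (λ+ (λ+ + λ-))`, `|λ+ - λ-| ≤ 2 τ`).
`W (z + v) = R`, `W (z - v) ≥ W (u-) - |λ+/λ- - 1| ‖v‖ ≥ R - 40 R τ²`,
`W z ≤ (1/Λ) W x + (1 - 1/Λ) W 0 ≤ R - (1 - 1/Λ)`  (`W 0 ≤ C = R - 1`).  So
`2 R - 40 R τ² ≤ 2 exp (‖v‖^r) (R - (1 - 1/Λ))`, hence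
`1 - 1/Λ ≤ R (1 - exp (-‖v‖^r)) + 20 R τ² ≤ R ‖v‖^r + 20 R τ² ≤ R (10 R τ)^r + 20 R τ²`, and
`Λ - 1 ≤ 2 (1 - 1/Λ)`.  So `smoothMod N τ ≤ c τ^r` for `τ ≤ τ0` (`τ² ≤ τ^r`), and for
`τ > τ0`: `smoothMod N τ ≤ τ ≤ τ^r / τ0^(r-1)`.  (If there is no `x` with `N x = 1` the set is
empty and `sSup ∅ = 0`.)  `UniformlySmooth`: `0 ≤ smoothMod N τ / τ ≤ c τ^(r-1) → 0`
(`smoothMod N τ ≥ 0` because each element of the set is `≥ 0`).
-/

open Finset

namespace P125

/-- The gauge of the sublevel set `{W ≤ R}`. -/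
theorem Gauge_exists {X : Type*} [NormedAddCommGroup X] [NormedSpace ℝ X] (W : X → ℝ) (C : ℝ)
    (hC : 0 ≤ C) (hconv : ConvexOn ℝ Set.univ W) (heven : ∀ x, W (-x) = W x)
    (hlip : ∀ x y, |W x - W y| ≤ ‖x - y‖) (hlow : ∀ x, ‖x‖ ≤ W x) (hup : ∀ x, W x ≤ ‖x‖ + C) :
    ∃ N : Seminorm ℝ X, (∀ x, N x ≤ ‖x‖) ∧ (∀ x, ‖x‖ ≤ (C + 1) * N x) ∧
      ∀ x, N x = 1 → W x = C + 1 := by
  set R : ℝ := C + 1 with hR
  have hRpos : 0 < R := by linarith
  set B : Set X := {x | W x ≤ R} with hB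
  have hWc : Continuous W := by
    rw [continuous_iff_continuousAt]
    intro x
    rw [Metric.continuousAt_iff]
    intro ε hε
    refine ⟨ε, hε, fun {y} hy => ?_⟩
    rw [Real.dist_eq]
    rw [dist_eq_norm] at hy
    exact (hlip y x).trans_lt hy
  have hBc : Convex ℝ B := by
    have := hconv.convex_le R
    simpa using this
  have hBclosed : IsClosed B := isClosed_le hWc continuous_const
  have hunit : Metric.closedBall (0 : X) 1 ⊆ B := by
    intro x hx
    rw [mem_closedBall_zero_iff] at hx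
    show W x ≤ R
    have := hup x
    linarith
  have hB0 : B ∈ nhds (0 : X) :=
    Filter.mem_of_superset (Metric.closedBall_mem_nhds 0 one_pos) hunit
  have hBabs : Absorbent ℝ B := absorbent_nhds_zero hB0
  have hBbal : Balanced ℝ B := by
    intro a ha x hx
    obtain ⟨y, hy, rfl⟩ := hx
    rw [Real.norm_eq_abs, abs_le] at ha
    show W (a • y) ≤ R
    have hy' : W y ≤ R := hy
    have h1 := hconv.2 (Set.mem_univ y) (Set.mem_univ (-y))
      (show 0 ≤ (1 + a) / 2 by linarith) (show 0 ≤ (1 - a) / 2 by linarith) (by ring)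
    have h2 : ((1 + a) / 2) • y + ((1 - a) / 2) • (-y) = a • y := by
      rw [smul_neg, ← sub_eq_add_neg, ← sub_smul]
      congr 1
      ring
    rw [h2, heven, smul_eq_mul, smul_eq_mul] at h1
    have h3 : (1 + a) / 2 * W y + (1 - a) / 2 * W y = W y := by ring
    linarith
  have hsub : B ⊆ Metric.closedBall (0 : X) R := by
    intro x hx
    rw [mem_closedBall_zero_iff]
    exact (hlow x).trans hx
  refine ⟨gaugeSeminorm hBbal hBc hBabs, ?_, ?_, ?_⟩
  · intro x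
    show gauge B x ≤ ‖x‖
    have h1 := gauge_mono (absorbent_nhds_zero (𝕜 := ℝ)
      (Metric.closedBall_mem_nhds (0 : X) one_pos)) hunit x
    rw [gauge_closedBall zero_le_one, div_one] at h1
    exact h1
  · intro x
    show ‖x‖ ≤ R * gauge B x
    have h1 := le_gauge_of_subset_closedBall (x := x) hBabs hRpos.le hsub
    rw [div_le_iff₀ hRpos] at h1
    linarith
  · intro x hx
    have hx' : gauge B x = 1 := hx
    apply le_antisymm
    · have h1 := (gauge_le_one_iff_mem_closure hBc hB0).1 hx'.le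
      rw [hBclosed.closure_eq] at h1
      exact h1
    · by_contra hlt
      push Not at hlt
      have h1 : x ∈ interior B := by
        rw [mem_interior]
        refine ⟨{y | W y < R}, fun y hy => show W y ≤ R from le_of_lt (show W y < R from hy),
          isOpen_lt hWc continuous_const, hlt⟩
      have h2 := (gauge_lt_one_iff_mem_interior hBc hB0).2 h1
      linarith

/-- The estimate of the modulus of smoothness at one pair of points, for small `τ`. -/
theorem Gauge_point {X : Type*} [NormedAddCommGroup X] [NormedSpace ℝ X] {r : ℝ}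
    (hr : 1 < r) (hr2 : r ≤ 2) (W : X → ℝ) (C : ℝ) (hC : 0 ≤ C)
    (hconv : ConvexOn ℝ Set.univ W)
    (hlip : ∀ x y, |W x - W y| ≤ ‖x - y‖) (hup : ∀ x, W x ≤ ‖x‖ + C)
    (hsm : ∀ x d, ‖d‖ ≤ 1 → W (x + d) + W (x - d) ≤ 2 * Real.exp (‖d‖ ^ r) * W x)
    (N : Seminorm ℝ X) (hN2 : ∀ x, ‖x‖ ≤ (C + 1) * N x)
    (hN3 : ∀ x, N x = 1 → W x = C + 1) (τ : ℝ) (hτ : 0 < τ) (hτ0 : 10 * (C + 1) * τ ≤ 1)
    (x y : X) (hx : N x = 1) (hy : N y = 1) :
    (N (x + τ • y) + N (x - τ • y)) / 2 - 1 ≤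
      (2 * ((C + 1) * (10 * (C + 1)) ^ r + 20 * (C + 1))) * τ ^ r := by
  set R : ℝ := C + 1 with hR
  have hR1 : 1 ≤ R := by linarith
  have hRpos : 0 < R := by linarith
  have hτ1 : τ ≤ 1 / 10 := by nlinarith
  set lp := N (x + τ • y) with hlp
  set lm := N (x - τ • y) with hlm
  have hNτ : N (τ • y) = τ := by
    rw [map_smul_eq_mul, hy, mul_one, Real.norm_eq_abs, abs_of_pos hτ]
  have hp1 : lp ≤ 1 + τ := by
    have := map_add_le_add N x (τ • y)
    rw [hx, hNτ] at this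
    exact this
  have hm1 : lm ≤ 1 + τ := by
    have := map_sub_le_add N x (τ • y)
    rw [hx, hNτ] at this
    exact this
  have hsum2 : 2 ≤ lp + lm := by
    have h1 := map_add_le_add N (x + τ • y) (x - τ • y)
    have h2 : (x + τ • y) + (x - τ • y) = (2 : ℝ) • x := by
      rw [two_smul]; abel
    rw [h2, map_smul_eq_mul, hx, mul_one, Real.norm_eq_abs, abs_of_pos two_pos] at h1
    exact h1
  have hp2 : 1 - τ ≤ lp := by linarith
  have hm2 : 1 - τ ≤ lm := by linarith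
  have hlp0 : 0 < lp := by linarith
  have hlm0 : 0 < lm := by linarith
  have hdiff : |lp - lm| ≤ 2 * τ := by
    rw [abs_le]; constructor <;> linarith
  set La := (lp + lm) / 2 with hLa
  have hLa1 : 1 ≤ La := by rw [hLa]; linarith
  have hLa0 : 0 < La := by linarith
  have hLa2 : La ≤ 2 := by rw [hLa]; linarith
  set z := La⁻¹ • x with hz
  set up := lp⁻¹ • (x + τ • y) with hup'
  set um := lm⁻¹ • (x - τ • y) with hum'
  have hWup : W up = R := by
    apply hN3
    rw [hup', map_smul_eq_mul, ← hlp, Real.norm_eq_abs, abs_of_pos (inv_pos.2 hlp0)]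
    exact inv_mul_cancel₀ hlp0.ne'
  have hWum : W um = R := by
    apply hN3
    rw [hum', map_smul_eq_mul, ← hlm, Real.norm_eq_abs, abs_of_pos (inv_pos.2 hlm0)]
    exact inv_mul_cancel₀ hlm0.ne'
  set v := up - z with hv
  have hxR : ‖x‖ ≤ R := by have := hN2 x; rw [hx, mul_one] at this; exact this
  have hyR : ‖y‖ ≤ R := by have := hN2 y; rw [hy, mul_one] at this; exact this
  -- the size of `v`
  have hv1 : v = (lp⁻¹ * (2 * La)⁻¹) • ((lm - lp) • x + ((lp + lm) * τ) • y) := by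
    rw [hv, hup', hz]
    have h2La : 2 * La = lp + lm := by rw [hLa]; ring
    have hs0 : lp + lm ≠ 0 := by linarith
    rw [smul_add, smul_add, smul_smul, smul_smul, smul_smul]
    have e1 : lp⁻¹ * τ = lp⁻¹ * (2 * La)⁻¹ * ((lp + lm) * τ) := by
      rw [h2La]
      field_simp
    have e2 : lp⁻¹ - La⁻¹ = lp⁻¹ * (2 * La)⁻¹ * (lm - lp) := by
      rw [h2La, hLa]
      field_simp
      ring
    rw [← e1, ← e2, sub_smul]
    abel
  have hvn : ‖v‖ ≤ 10 * R * τ := by
    rw [hv1, norm_smul, Real.norm_eq_abs]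
    have h1 : ‖(lm - lp) • x + ((lp + lm) * τ) • y‖ ≤ 5 * τ * R := by
      refine (norm_add_le _ _).trans ?_
      rw [norm_smul, norm_smul, Real.norm_eq_abs, Real.norm_eq_abs, abs_sub_comm]
      have h2 : |(lp + lm) * τ| ≤ 3 * τ := by
        rw [abs_of_pos (by positivity)]
        nlinarith
      have h3 : |lp - lm| * ‖x‖ ≤ 2 * τ * R :=
        mul_le_mul hdiff hxR (norm_nonneg _) (by positivity)
      have h4 : |(lp + lm) * τ| * ‖y‖ ≤ 3 * τ * R :=
        mul_le_mul h2 hyR (norm_nonneg _) (by positivity)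
      linarith
    have h5 : |lp⁻¹ * (2 * La)⁻¹| ≤ 2 := by
      rw [abs_of_pos (by positivity), ← mul_inv]
      rw [inv_le_comm₀ (by positivity) two_pos]
      nlinarith
    calc |lp⁻¹ * (2 * La)⁻¹| * ‖(lm - lp) • x + ((lp + lm) * τ) • y‖
        ≤ 2 * (5 * τ * R) := mul_le_mul h5 h1 (norm_nonneg _) two_pos.le
      _ = 10 * R * τ := by ring
  have hv1' : ‖v‖ ≤ 1 := hvn.trans hτ0
  -- the other side
  have hzm : z - v = um + ((lp * lm⁻¹ - 1) • v) := by
    have h1 : lp • (up - z) + lm • (um - z) = 0 := by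
      rw [hup', hum', hz]
      rw [smul_sub, smul_sub, smul_smul, smul_smul, smul_smul, smul_smul,
        mul_inv_cancel₀ hlp0.ne', mul_inv_cancel₀ hlm0.ne', one_smul, one_smul]
      have h2 : lp * La⁻¹ + lm * La⁻¹ = 2 := by
        rw [← add_mul, hLa]
        field_simp
      have h3 : (x + τ • y - (lp * La⁻¹) • x) + (x - τ • y - (lm * La⁻¹) • x) =
          (2 : ℝ) • x - (lp * La⁻¹ + lm * La⁻¹) • x := by
        rw [two_smul, add_smul]; abel
      rw [h3, h2, sub_self]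
    have h4 : um - z = -((lp * lm⁻¹) • v) := by
      have h5 : lm • (um - z) = -(lp • v) := by
        rw [hv]
        exact eq_neg_of_add_eq_zero_right h1
      have h6 : um - z = lm⁻¹ • (lm • (um - z)) := by
        rw [smul_smul, inv_mul_cancel₀ hlm0.ne', one_smul]
      rw [h6, h5, smul_neg, smul_smul, mul_comm lm⁻¹ lp]
    have h7 : um = z - (lp * lm⁻¹) • v := by
      rw [sub_eq_add_neg, ← h4]; abel
    rw [h7, sub_smul, one_smul]
    abel
  have hWzm : R - 40 * R * τ ^ 2 ≤ W (z - v) := by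
    have h1 := hlip um (z - v)
    have h2 : um - (z - v) = -((lp * lm⁻¹ - 1) • v) := by
      rw [hzm]; abel
    rw [h2, norm_neg, norm_smul, Real.norm_eq_abs, hWum] at h1
    have h3 : |lp * lm⁻¹ - 1| ≤ 4 * τ := by
      have h4 : lp * lm⁻¹ - 1 = (lp - lm) * lm⁻¹ := by
        field_simp
      rw [h4, abs_mul, abs_of_pos (inv_pos.2 hlm0)]
      have h5 : lm⁻¹ ≤ 2 := by
        rw [inv_le_comm₀ hlm0 two_pos]
        linarith
      calc |lp - lm| * lm⁻¹ ≤ (2 * τ) * 2 :=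
            mul_le_mul hdiff h5 (inv_pos.2 hlm0).le (by positivity)
        _ = 4 * τ := by ring
    have h6 : |lp * lm⁻¹ - 1| * ‖v‖ ≤ 40 * R * τ ^ 2 := by
      calc |lp * lm⁻¹ - 1| * ‖v‖ ≤ (4 * τ) * (10 * R * τ) :=
            mul_le_mul h3 hvn (norm_nonneg _) (by positivity)
        _ = 40 * R * τ ^ 2 := by ring
    have h7 := (abs_le.1 h1).2
    linarith
  set δ := 1 - La⁻¹ with hδ
  have hLai : La⁻¹ ≤ 1 := inv_le_one_of_one_le₀ hLa1
  have hδ0 : 0 ≤ δ := by rw [hδ]; linarith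
  have hWz : W z ≤ R - δ := by
    have h1 := hconv.2 (Set.mem_univ x) (Set.mem_univ (0 : X))
      (show 0 ≤ La⁻¹ from (inv_pos.2 hLa0).le) (show 0 ≤ 1 - La⁻¹ by linarith) (by ring)
    rw [smul_zero, add_zero, smul_eq_mul, smul_eq_mul, hN3 x hx, ← hz] at h1
    have h2 : W 0 ≤ R - 1 := by
      have := hup 0
      rw [norm_zero, zero_add] at this
      linarith
    have h3 : (1 - La⁻¹) * W 0 ≤ (1 - La⁻¹) * (R - 1) :=
      mul_le_mul_of_nonneg_left h2 (by linarith)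
    rw [hδ]
    have h4 : La⁻¹ * R + (1 - La⁻¹) * (R - 1) = R - (1 - La⁻¹) := by ring
    linarith
  have hmain := hsm z v hv1'
  have hzv : z + v = up := by rw [hv]; abel
  rw [hzv, hWup] at hmain
  set q := ‖v‖ ^ r with hq
  have hq0 : 0 ≤ q := Real.rpow_nonneg (norm_nonneg _) _
  have hexp : Real.exp q * Real.exp (-q) = 1 := by rw [← Real.exp_add, add_neg_cancel, Real.exp_zero]
  have he1 : 0 < Real.exp q := Real.exp_pos _
  have he2 : 0 < Real.exp (-q) := Real.exp_pos _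
  have he3 : Real.exp (-q) ≤ 1 := Real.exp_le_one_iff.2 (by linarith)
  have he4 : 1 - q ≤ Real.exp (-q) := by
    have := Real.add_one_le_exp (-q)
    linarith
  have h10 : R - 20 * R * τ ^ 2 ≤ Real.exp q * (R - δ) := by
    have h11 : 2 * Real.exp q * W z ≤ 2 * Real.exp q * (R - δ) :=
      mul_le_mul_of_nonneg_left hWz (by positivity)
    linarith
  have h12 : Real.exp (-q) * (R - 20 * R * τ ^ 2) ≤ R - δ := by
    have h13 := mul_le_mul_of_nonneg_left h10 he2.le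
    have h14 : Real.exp (-q) * (Real.exp q * (R - δ)) = R - δ := by
      rw [← mul_assoc, mul_comm (Real.exp (-q)), hexp, one_mul]
    linarith
  have h15 : δ ≤ R * q + 20 * R * τ ^ 2 := by
    have h16 : Real.exp (-q) * (20 * R * τ ^ 2) ≤ 20 * R * τ ^ 2 :=
      mul_le_of_le_one_left (by positivity) he3
    have h17 : R * (1 - q) ≤ R * Real.exp (-q) := mul_le_mul_of_nonneg_left he4 hRpos.le
    nlinarith
  have h18 : q ≤ (10 * R) ^ r * τ ^ r := by
    rw [hq, ← Real.mul_rpow (by positivity) hτ.le]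
    exact Real.rpow_le_rpow (norm_nonneg _) hvn (by linarith)
  have h19 : τ ^ 2 ≤ τ ^ r := by
    have := Real.rpow_le_rpow_of_exponent_ge hτ (by linarith : τ ≤ 1) hr2
    rwa [Real.rpow_two] at this
  have h20 : La - 1 = La * δ := by
    rw [hδ, mul_sub, mul_one, mul_inv_cancel₀ hLa0.ne']
  have hτr : 0 < τ ^ r := Real.rpow_pos_of_pos hτ r
  calc La - 1 = La * δ := h20
    _ ≤ 2 * δ := mul_le_mul_of_nonneg_right hLa2 hδ0
    _ ≤ 2 * (R * ((10 * R) ^ r * τ ^ r) + 20 * R * τ ^ r) := by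
        have h21 : R * q ≤ R * ((10 * R) ^ r * τ ^ r) := mul_le_mul_of_nonneg_left h18 hRpos.le
        have h22 : 20 * R * τ ^ 2 ≤ 20 * R * τ ^ r :=
          mul_le_mul_of_nonneg_left h19 (by positivity)
        linarith
    _ = (2 * (R * (10 * R) ^ r + 20 * R)) * τ ^ r := by ring

theorem smooth_of_W {X : Type*} [NormedAddCommGroup X] [NormedSpace ℝ X] {r : ℝ}
    (hr : 1 < r) (hr2 : r ≤ 2) (W : X → ℝ) (C : ℝ) (hC : 0 ≤ C)
    (hconv : ConvexOn ℝ Set.univ W) (heven : ∀ x, W (-x) = W x)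
    (hlip : ∀ x y, |W x - W y| ≤ ‖x - y‖) (hlow : ∀ x, ‖x‖ ≤ W x) (hup : ∀ x, W x ≤ ‖x‖ + C)
    (hsm : ∀ x d, ‖d‖ ≤ 1 → W (x + d) + W (x - d) ≤ 2 * Real.exp (‖d‖ ^ r) * W x) :
    ∃ N : Seminorm ℝ X, EquivNorm N ∧ UniformlySmooth N ∧
      ∃ c : ℝ, ∀ τ : ℝ, 0 < τ → smoothMod N τ ≤ c * τ ^ r := by
  obtain ⟨N, hN1, hN2, hN3⟩ := Gauge_exists W C hC hconv heven hlip hlow hup
  have hRpos : 0 < C + 1 := by linarith
  -- elements of the set are nonnegative
  have hnn : ∀ τ : ℝ, 0 ≤ smoothMod N τ := by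
    intro τ
    apply Real.sSup_nonneg
    rintro s ⟨x, y, hx, -, rfl⟩
    have h1 := map_add_le_add N (x + τ • y) (x - τ • y)
    have h2 : (x + τ • y) + (x - τ • y) = (2 : ℝ) • x := by
      rw [two_smul]; abel
    rw [h2, map_smul_eq_mul, hx, mul_one, Real.norm_eq_abs, abs_of_pos two_pos] at h1
    linarith
  set c1 : ℝ := 2 * ((C + 1) * (10 * (C + 1)) ^ r + 20 * (C + 1)) with hc1
  have hc10 : 0 ≤ c1 := by
    have : 0 ≤ (10 * (C + 1)) ^ r := Real.rpow_nonneg (by positivity) _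
    positivity
  set τ0 : ℝ := 1 / (10 * (C + 1)) with hτ0
  have hτ0pos : 0 < τ0 := by positivity
  set c : ℝ := c1 + τ0 ^ (1 - r) with hc
  have hτ0r : 0 < τ0 ^ (1 - r) := Real.rpow_pos_of_pos hτ0pos _
  have hc0 : 0 ≤ c := by positivity
  have hbd : ∀ τ : ℝ, 0 < τ → smoothMod N τ ≤ c * τ ^ r := by
    intro τ hτ
    have hτr : 0 < τ ^ r := Real.rpow_pos_of_pos hτ r
    have hel : ∀ s ∈ {s : ℝ | ∃ x y : X, N x = 1 ∧ N y = 1 ∧
        s = (N (x + τ • y) + N (x - τ • y)) / 2 - 1}, s ≤ c * τ ^ r := by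
      rintro s ⟨x, y, hx, hy, rfl⟩
      by_cases hle : τ ≤ τ0
      · have h1 := Gauge_point hr hr2 W C hC hconv hlip hup hsm N hN2 hN3 τ hτ (by
          rw [hτ0, le_div_iff₀ (by positivity)] at hle
          linarith) x y hx hy
        refine h1.trans ?_
        rw [hc]
        nlinarith
      · push Not at hle
        have hNτ : N (τ • y) = τ := by
          rw [map_smul_eq_mul, hy, mul_one, Real.norm_eq_abs, abs_of_pos hτ]
        have hp1 := map_add_le_add N x (τ • y)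
        have hm1 := map_sub_le_add N x (τ • y)
        rw [hx, hNτ] at hp1 hm1
        have h1 : (N (x + τ • y) + N (x - τ • y)) / 2 - 1 ≤ τ := by linarith
        have h2 : τ = τ ^ (1 - r) * τ ^ r := by
          rw [← Real.rpow_add hτ]
          simp
        have h3 : τ ^ (1 - r) ≤ τ0 ^ (1 - r) :=
          Real.rpow_le_rpow_of_nonpos hτ0pos hle.le (by linarith)
        calc (N (x + τ • y) + N (x - τ • y)) / 2 - 1 ≤ τ := h1
          _ = τ ^ (1 - r) * τ ^ r := h2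
          _ ≤ τ0 ^ (1 - r) * τ ^ r := mul_le_mul_of_nonneg_right h3 hτr.le
          _ ≤ c * τ ^ r := by
              apply mul_le_mul_of_nonneg_right _ hτr.le
              rw [hc]
              linarith
    unfold smoothMod
    rcases Set.eq_empty_or_nonempty {s : ℝ | ∃ x y : X, N x = 1 ∧ N y = 1 ∧
        s = (N (x + τ • y) + N (x - τ • y)) / 2 - 1} with he | hne
    · rw [he, Real.sSup_empty]
      positivity
    · exact csSup_le hne hel
  refine ⟨N, ⟨1 / (C + 1), 1, by positivity, one_pos, fun x => ⟨?_, ?_⟩⟩, ?_, c, hbd⟩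
  · have := hN2 x
    rw [div_mul_eq_mul_div, one_mul, div_le_iff₀ hRpos]
    linarith
  · rw [one_mul]; exact hN1 x
  · unfold UniformlySmooth
    have h1 : Filter.Tendsto (fun τ : ℝ => c * τ ^ (r - 1)) (nhdsWithin 0 (Set.Ioi 0))
        (nhds 0) := by
      have h2 : Filter.Tendsto (fun τ : ℝ => τ ^ (r - 1)) (nhds 0) (nhds ((0 : ℝ) ^ (r - 1))) :=
        (Real.continuousAt_rpow_const 0 (r - 1) (Or.inr (by linarith))).tendsto
      rw [Real.zero_rpow (by linarith)] at h2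
      have h3 := (h2.const_mul c).mono_left (nhdsWithin_le_nhds (s := Set.Ioi (0 : ℝ)))
      rwa [mul_zero] at h3
    refine squeeze_zero' ?_ ?_ h1
    · filter_upwards [self_mem_nhdsWithin] with τ hτ
      have hτ' : (0 : ℝ) < τ := hτ
      exact div_nonneg (hnn τ) hτ'.le
    · filter_upwards [self_mem_nhdsWithin] with τ hτ
      have hτ' : (0 : ℝ) < τ := hτ
      rw [div_le_iff₀ hτ', mul_assoc]
      have h4 : τ ^ (r - 1) * τ = τ ^ r := by
        conv_lhs => rw [← Real.rpow_one τ, ← Real.rpow_mul hτ'.le, one_mul]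
        rw [← Real.rpow_add hτ']
        congr 1
        ring
      rw [h4]
      exact hbd τ hτ'

end P125
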