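import Vale.Agent.Lib.P125.Basic

/-!
# P125, module LAMP: the lamplighter lemma

Notation: `T : ℕ → Perm Z` with `T (n+1) = T n * T (n+2)` (product = composition of functions,
`(f * g) z = f (g z)`).  A window `[a, b)` is `ε`-increasing for `lam : Z → ℕ` if for each
`n ∈ [a, b)` at most `ε |Z|` points `z` have `lam (T n z) ≤ lam z`; `ε`-decreasing if at most
`ε |Z|` points have `lam z ≤ lam (T n z)`.

PROOF.  Induction: window `[0, N)` gives window `[0, N + 3)`; start with `Z = Unit`, `N = 0`.
(1) Reverse: replace `lam` by `C - lam`, `C = max lam`: increasing becomes decreasing.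
(2) Shift: put `T' 0 = T 0 * (T 1)⁻¹`, `T' (n+1) = T n`.  The relation still holds and the window
    moves by one.  Do this three times: window `[3, N + 3)` is `ε`-decreasing.
(3) Lamplighter: let `Z' = (Option Z → ZMod m) × Z` with `m ≥ 2` large.  Define
    `F : ℕ → Z → (Option Z → ZMod m)` by `F 0 z = δ_none`, `F 1 z = δ_{some z}`,
    `F (n+2) z = F (n+1) z - F n (T (n+2) z)`, and `T' n (f, z) = (f + F n z, T n z)`.
    Then `T' (n+1) = T' n * T' (n+2)` (direct check).
    Level of a coordinate: `ℓ none = 0`, `ℓ (some u) = lam u + 1`.  Top coordinate: `c 0 z = none`,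
    `c n z = some z` for `n ≥ 1`.  Say `(n, z)` is clean if `F n z (c n z) = 1` and every other
    coordinate `u` with `F n z u ≠ 0` has `ℓ u < ℓ (c n z)`.
    `(0, z)`, `(1, z)`, `(2, z)` are always clean (`m ≥ 2`; for `(2, z)`:
    `F 2 z = δ_{some z} - δ_none`), and for `n ≥ 1`:
    `(n+1, z)` clean, `(n, T (n+2) z)` clean and `lam (T (n+2) z) < lam z` imply `(n+2, z)` clean
    (needed for `n + 2 ≥ 3`, `n + 2 < N + 3`).
    So the number of unclean `z` for `n < N + 3` is at most `2 ^ n * ε * |Z|` (translate by the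
    permutation `T (n+2)`).
    Order on `Z'`: `lam' (f, z) = ∑ over coordinates u of val (f u) * B ^ (ℓ u)` with
    `B = m * (|Z| + 1) + 1`.  If `(n, z)` is clean and `val (f (c n z)) ≠ m - 1` then
    `lam' (f + F n z, T n z) > lam' (f, z)`: the top coordinate gains `B ^ (ℓ top)`, every other
    changed coordinate has lower level and loses at most `(m - 1) B ^ (ℓ top - 1)`, and there are
    at most `|Z| + 1` coordinates.
    For fixed `z` the number of `f` with `val (f (c n z)) = m - 1` is a fraction `1 / m`.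
    Total bad fraction `≤ 2 ^ (N+3) * ε + 1 / m`.
-/

open Finset

namespace P125

/-! ### The shift -/

/-- one more term on the left -/
def Lamp_shift {Z : Type} (T : ℕ → Equiv.Perm Z) : ℕ → Equiv.Perm Z
  | 0 => T 0 * (T 1)⁻¹
  | n + 1 => T n

theorem Lamp_shift_rel {Z : Type} {T : ℕ → Equiv.Perm Z} (h : ∀ n, T (n + 1) = T n * T (n + 2)) :
    ∀ n, Lamp_shift T (n + 1) = Lamp_shift T n * Lamp_shift T (n + 2)
  | 0 => by
    show T 0 = T 0 * (T 1)⁻¹ * T 1
    rw [inv_mul_cancel_right]
  | n + 1 => h n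

/-! ### The lamplighter -/

section Lamp

variable {Z : Type} [DecidableEq Z] (m : ℕ) (T : ℕ → Equiv.Perm Z) (lam : Z → ℕ)

/-- the lamp configurations -/
def Lamp_F : ℕ → Z → Option Z → ZMod m
  | 0, _ => Pi.single none 1
  | 1, z => Pi.single (some z) 1
  | n + 2, z => Lamp_F (n + 1) z - Lamp_F n (T (n + 2) z)

theorem Lamp_F_succ (n : ℕ) (z : Z) :
    Lamp_F m T (n + 2) z + Lamp_F m T n (T (n + 2) z) = Lamp_F m T (n + 1) z := by
  show Lamp_F m T (n + 1) z - Lamp_F m T n (T (n + 2) z) + Lamp_F m T n (T (n + 2) z) = _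
  rw [sub_add_cancel]

/-- the lamplighter permutations -/
def Lamp_T (n : ℕ) : Equiv.Perm ((Option Z → ZMod m) × Z) where
  toFun x := (x.1 + Lamp_F m T n x.2, T n x.2)
  invFun x := (x.1 - Lamp_F m T n ((T n).symm x.2), (T n).symm x.2)
  left_inv x := by
    show (x.1 + Lamp_F m T n x.2 - Lamp_F m T n ((T n).symm (T n x.2)), (T n).symm (T n x.2)) = x
    rw [Equiv.symm_apply_apply, add_sub_cancel_right]
  right_inv x := by
    show (x.1 - Lamp_F m T n ((T n).symm x.2) + Lamp_F m T n ((T n).symm x.2),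
      T n ((T n).symm x.2)) = x
    rw [Equiv.apply_symm_apply, sub_add_cancel]

theorem Lamp_T_apply (n : ℕ) (x : (Option Z → ZMod m) × Z) :
    Lamp_T m T n x = (x.1 + Lamp_F m T n x.2, T n x.2) := rfl

theorem Lamp_T_rel (h : ∀ n, T (n + 1) = T n * T (n + 2)) (n : ℕ) :
    Lamp_T m T (n + 1) = Lamp_T m T n * Lamp_T m T (n + 2) := by
  apply Equiv.ext
  intro x
  rw [Equiv.Perm.mul_apply, Lamp_T_apply, Lamp_T_apply, Lamp_T_apply]
  refine Prod.ext ?_ ?_
  · show x.1 + Lamp_F m T (n + 1) x.2 =
      x.1 + Lamp_F m T (n + 2) x.2 + Lamp_F m T n (T (n + 2) x.2)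
    rw [add_assoc, Lamp_F_succ]
  · show T (n + 1) x.2 = T n (T (n + 2) x.2)
    rw [h n]
    rfl

/-- level of a coordinate -/
def Lamp_l : Option Z → ℕ
  | none => 0
  | some u => lam u + 1

/-- top coordinate -/
def Lamp_c : ℕ → Z → Option Z
  | 0, _ => none
  | _ + 1, z => some z

/-- clean pairs -/
def Lamp_clean (n : ℕ) (z : Z) : Prop :=
  Lamp_F m T n z (Lamp_c n z) = 1 ∧
    ∀ u, u ≠ Lamp_c n z → Lamp_F m T n z u ≠ 0 → Lamp_l lam u < Lamp_l lam (Lamp_c n z)

theorem Lamp_clean_zero (z : Z) : Lamp_clean m T lam 0 z := by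
  refine ⟨Pi.single_eq_same _ _, fun u hu h => ?_⟩
  exact absurd (Pi.single_eq_of_ne hu _) h

theorem Lamp_clean_one (z : Z) : Lamp_clean m T lam 1 z := by
  refine ⟨Pi.single_eq_same _ _, fun u hu h => ?_⟩
  exact absurd (Pi.single_eq_of_ne hu _) h

theorem Lamp_clean_two (z : Z) : Lamp_clean m T lam 2 z := by
  have e : ∀ u, Lamp_F m T 2 z u = (Pi.single (some z) 1 : Option Z → ZMod m) u -
      (Pi.single none 1 : Option Z → ZMod m) u := fun _ => rfl
  constructor
  · show Lamp_F m T 2 z (some z) = 1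
    rw [e, Pi.single_eq_same, Pi.single_eq_of_ne (by simp), sub_zero]
  · intro u hu h
    have hu' : u ≠ some z := hu
    rcases u with _ | u
    · exact Nat.succ_pos _
    · rw [e, Pi.single_eq_of_ne hu', Pi.single_eq_of_ne (by simp), sub_zero] at h
      exact absurd rfl h

theorem Lamp_clean_step (n : ℕ) (z : Z) (h1 : Lamp_clean m T lam (n + 2) z)
    (h2 : Lamp_clean m T lam (n + 1) (T (n + 3) z)) (h3 : lam (T (n + 3) z) < lam z) :
    Lamp_clean m T lam (n + 3) z := by
  obtain ⟨a1, b1⟩ := h1
  obtain ⟨a2, b2⟩ := h2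
  have e : ∀ u, Lamp_F m T (n + 3) z u = Lamp_F m T (n + 2) z u -
      Lamp_F m T (n + 1) (T (n + 3) z) u := fun _ => rfl
  have hne : some z ≠ some (T (n + 3) z) := by
    intro h
    rw [← Option.some_injective _ h] at h3
    exact lt_irrefl _ h3
  constructor
  · show Lamp_F m T (n + 3) z (some z) = 1
    have h0 : Lamp_F m T (n + 1) (T (n + 3) z) (some z) = 0 := by
      by_contra hc
      have := b2 (some z) hne hc
      have h4 : lam z + 1 < lam (T (n + 3) z) + 1 := this
      omega
    rw [e, h0, sub_zero]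
    exact a1
  · intro u hu h
    show Lamp_l lam u < lam z + 1
    by_cases hu1 : Lamp_F m T (n + 2) z u = 0
    · have hu2 : Lamp_F m T (n + 1) (T (n + 3) z) u ≠ 0 := by
        intro h0
        rw [e, hu1, h0, sub_zero] at h
        exact h rfl
      by_cases hu3 : u = some (T (n + 3) z)
      · rw [hu3]
        show lam (T (n + 3) z) + 1 < lam z + 1
        omega
      · have : Lamp_l lam u < lam (T (n + 3) z) + 1 := b2 u hu3 hu2
        omega
    · exact b1 u hu hu1

/-! ### Counting unclean pairs -/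

open Classical in
theorem Lamp_unclean [Fintype Z] {δ : ℝ} (hδ : 0 ≤ δ) {N : ℕ}
    (hd : ∀ n, 3 ≤ n → n < N + 3 →
      ((univ.filter fun z => lam z ≤ lam (T n z)).card : ℝ) ≤ δ * Fintype.card Z) :
    ∀ n, n < N + 3 → ((univ.filter fun z => ¬ Lamp_clean m T lam n z).card : ℝ) ≤
      2 ^ n * (δ * Fintype.card Z) := by
  have hnn : 0 ≤ δ * (Fintype.card Z : ℝ) := by positivity
  have hzero : ∀ n, (∀ z, Lamp_clean m T lam n z) →
      ((univ.filter fun z => ¬ Lamp_clean m T lam n z).card : ℝ) ≤
        2 ^ n * (δ * Fintype.card Z) := by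
    intro n h
    have : (univ.filter fun z => ¬ Lamp_clean m T lam n z) = ∅ :=
      Finset.filter_eq_empty_iff.2 fun z _ hz => hz (h z)
    rw [this, Finset.card_empty, Nat.cast_zero]
    positivity
  intro n
  induction n using Nat.strong_induction_on with
  | _ n ih =>
    intro hn
    rcases n with _ | _ | _ | n
    · exact hzero 0 (Lamp_clean_zero m T lam)
    · exact hzero 1 (Lamp_clean_one m T lam)
    · exact hzero 2 (Lamp_clean_two m T lam)
    · have i1 := ih (n + 2) (by omega) (by omega)
      have i2 := ih (n + 1) (by omega) (by omega)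
      have i3 := hd (n + 3) (by omega) hn
      have hsub : (univ.filter fun z => ¬ Lamp_clean m T lam (n + 3) z) ⊆
          (univ.filter fun z => ¬ Lamp_clean m T lam (n + 2) z) ∪
          ((univ.filter fun z => ¬ Lamp_clean m T lam (n + 1) (T (n + 3) z)) ∪
          (univ.filter fun z => lam z ≤ lam (T (n + 3) z))) := by
        intro z hz
        rw [Finset.mem_filter] at hz
        rw [Finset.mem_union, Finset.mem_union, Finset.mem_filter, Finset.mem_filter,
          Finset.mem_filter]
        by_contra hc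
        push Not at hc
        obtain ⟨c1, c2, c3⟩ := hc
        exact hz.2 (Lamp_clean_step m T lam n z (c1 (Finset.mem_univ _)) (c2 (Finset.mem_univ _))
          (c3 (Finset.mem_univ _)))
      have htr : (univ.filter fun z => ¬ Lamp_clean m T lam (n + 1) (T (n + 3) z)).card =
          (univ.filter fun z => ¬ Lamp_clean m T lam (n + 1) z).card := by
        refine Finset.card_nbij' (fun z => T (n + 3) z) (fun z => (T (n + 3)).symm z) ?_ ?_ ?_ ?_
        · intro z hz
          rw [Finset.mem_coe, Finset.mem_filter] at hz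
          rw [Finset.mem_coe, Finset.mem_filter]
          exact ⟨Finset.mem_univ _, hz.2⟩
        · intro z hz
          rw [Finset.mem_coe, Finset.mem_filter] at hz
          rw [Finset.mem_coe, Finset.mem_filter, Equiv.apply_symm_apply]
          exact ⟨Finset.mem_univ _, hz.2⟩
        · intro z _
          exact Equiv.symm_apply_apply _ _
        · intro z _
          exact Equiv.apply_symm_apply _ _
      have hcard := (Finset.card_le_card hsub).trans ((Finset.card_union_le _ _).trans
        (Nat.add_le_add_left (Finset.card_union_le _ _) _))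
      rw [htr] at hcard
      have hcard' : ((univ.filter fun z => ¬ Lamp_clean m T lam (n + 3) z).card : ℝ) ≤
          ((univ.filter fun z => ¬ Lamp_clean m T lam (n + 2) z).card : ℝ) +
          (((univ.filter fun z => ¬ Lamp_clean m T lam (n + 1) z).card : ℝ) +
          ((univ.filter fun z => lam z ≤ lam (T (n + 3) z)).card : ℝ)) := by
        exact_mod_cast hcard
      have h2 : (1 : ℝ) ≤ 2 ^ (n + 1) := one_le_pow₀ (by norm_num)
      calc ((univ.filter fun z => ¬ Lamp_clean m T lam (n + 3) z).card : ℝ) ≤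
            2 ^ (n + 2) * (δ * Fintype.card Z) + (2 ^ (n + 1) * (δ * Fintype.card Z) +
              1 * (δ * Fintype.card Z)) := by
            rw [one_mul]
            linarith
        _ ≤ 2 ^ (n + 2) * (δ * Fintype.card Z) + (2 ^ (n + 1) * (δ * Fintype.card Z) +
              2 ^ (n + 1) * (δ * Fintype.card Z)) := by
            have := mul_le_mul_of_nonneg_right h2 hnn
            linarith
        _ = 2 ^ (n + 3) * (δ * Fintype.card Z) := by ring

/-! ### The new order -/

/-- the base -/
def Lamp_B [Fintype Z] : ℕ := m * (Fintype.card Z + 1) + 1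

/-- the new order -/
def Lamp_lam [Fintype Z] (x : (Option Z → ZMod m) × Z) : ℕ :=
  ∑ u, (x.1 u).val * (Lamp_B (Z := Z) m) ^ (Lamp_l lam u)

theorem Lamp_lam_lt [Fintype Z] (hm : 2 ≤ m) (n : ℕ) (z : Z) (hc : Lamp_clean m T lam n z)
    (f : Option Z → ZMod m) (hf : (f (Lamp_c n z)).val ≠ m - 1) :
    Lamp_lam m lam (f, z) < Lamp_lam m lam (Lamp_T m T n (f, z)) := by
  have : NeZero m := ⟨by omega⟩
  have : Fact (1 < m) := ⟨by omega⟩
  obtain ⟨c, hcd⟩ : ∃ c, c = Lamp_c n z := ⟨_, rfl⟩
  obtain ⟨hc1, hc2⟩ := hc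
  rw [← hcd] at hf hc1 hc2
  obtain ⟨g, hg⟩ : ∃ g, g = f + Lamp_F m T n z := ⟨_, rfl⟩
  obtain ⟨B, hB⟩ : ∃ B, B = Lamp_B (Z := Z) m := ⟨_, rfl⟩
  have hB1 : 1 ≤ B := by rw [hB]; unfold Lamp_B; omega
  rw [Lamp_T_apply]
  unfold Lamp_lam
  show ∑ u, (f u).val * (Lamp_B (Z := Z) m) ^ (Lamp_l lam u) <
    ∑ u, ((f + Lamp_F m T n z) u).val * (Lamp_B (Z := Z) m) ^ (Lamp_l lam u)
  rw [← hg, ← hB]
  -- the top coordinate
  have htop : (g c).val = (f c).val + 1 := by
    have hlt : (f c).val < m := ZMod.val_lt _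
    rw [hg]
    show (f c + Lamp_F m T n z c).val = _
    rw [hc1, ZMod.val_add_of_lt, ZMod.val_one]
    rw [ZMod.val_one]
    omega
  obtain ⟨q, hq⟩ : ∃ q, q = Fintype.card (Option Z) := ⟨_, rfl⟩
  have hqB : q * (m - 1) < B := by
    rw [hB, hq, Fintype.card_option]
    unfold Lamp_B
    have : (Fintype.card Z + 1) * (m - 1) ≤ m * (Fintype.card Z + 1) := by
      rw [mul_comm m]
      exact Nat.mul_le_mul_left _ (Nat.sub_le _ _)
    omega
  have hpow : ∀ k, 1 ≤ B ^ k := fun k => Nat.one_le_pow _ _ hB1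
  -- other coordinates
  have hoth : ∀ u, u ≠ c → q * ((f u).val * B ^ Lamp_l lam u) + 1 ≤
      q * ((g u).val * B ^ Lamp_l lam u) + B ^ Lamp_l lam c := by
    intro u hu
    by_cases h0 : Lamp_F m T n z u = 0
    · have : g u = f u := by
        rw [hg]
        show f u + Lamp_F m T n z u = f u
        rw [h0, add_zero]
      rw [this]
      exact Nat.add_le_add_left (hpow _) _
    · have hl := hc2 u hu h0
      have hval : (f u).val ≤ m - 1 := Nat.le_sub_one_of_lt (ZMod.val_lt _)
      have h1 : q * ((f u).val * B ^ Lamp_l lam u) ≤ q * (m - 1) * B ^ Lamp_l lam u := by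
        rw [← mul_assoc]
        exact Nat.mul_le_mul_right _ (Nat.mul_le_mul_left _ hval)
      have h2 : q * (m - 1) * B ^ Lamp_l lam u < B * B ^ Lamp_l lam u :=
        Nat.mul_lt_mul_of_pos_right hqB (hpow _)
      have h3 : B * B ^ Lamp_l lam u ≤ B ^ Lamp_l lam c := by
        rw [← pow_succ']
        exact Nat.pow_le_pow_right hB1 hl
      omega
  have hsum : ∑ u, (q * ((f u).val * B ^ Lamp_l lam u) +
        (if u = c then q * B ^ Lamp_l lam c else 1)) ≤
      ∑ u, (q * ((g u).val * B ^ Lamp_l lam u) +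
        (if u = c then 0 else B ^ Lamp_l lam c)) := by
    refine Finset.sum_le_sum fun u _ => ?_
    by_cases hu : u = c
    · rw [if_pos hu, if_pos hu, hu, htop]
      refine le_of_eq ?_
      ring
    · rw [if_neg hu, if_neg hu]
      exact hoth u hu
  rw [Finset.sum_add_distrib, Finset.sum_add_distrib, ← Finset.mul_sum, ← Finset.mul_sum] at hsum
  have e1 : ∑ u : Option Z, (if u = c then q * B ^ Lamp_l lam c else 1) =
      q * B ^ Lamp_l lam c + (q - 1) := by
    rw [← Finset.add_sum_erase _ _ (Finset.mem_univ c), if_pos rfl]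
    congr 1
    rw [Finset.sum_congr rfl (g := fun _ => 1) fun u hu => if_neg (Finset.ne_of_mem_erase hu),
      Finset.sum_const, Finset.card_erase_of_mem (Finset.mem_univ c), Finset.card_univ, ← hq,
      smul_eq_mul, mul_one]
  have e2 : ∑ u : Option Z, (if u = c then 0 else B ^ Lamp_l lam c) =
      (q - 1) * B ^ Lamp_l lam c := by
    rw [← Finset.add_sum_erase _ _ (Finset.mem_univ c), if_pos rfl, zero_add,
      Finset.sum_congr rfl (g := fun _ => B ^ Lamp_l lam c)
        fun u hu => if_neg (Finset.ne_of_mem_erase hu),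
      Finset.sum_const, Finset.card_erase_of_mem (Finset.mem_univ c), Finset.card_univ, ← hq,
      smul_eq_mul]
  rw [e1, e2] at hsum
  have hq1 : 1 ≤ q := by rw [hq]; exact Fintype.card_pos
  obtain ⟨q', hq'⟩ : ∃ q', q = q' + 1 := ⟨q - 1, by omega⟩
  have e3 : (q - 1) * B ^ Lamp_l lam c + B ^ Lamp_l lam c = q * B ^ Lamp_l lam c := by
    rw [hq', Nat.add_sub_cancel]
    ring
  have h5 := hpow (Lamp_l lam c)
  have hfin : q * ∑ u, (f u).val * B ^ Lamp_l lam u < q * ∑ u, (g u).val * B ^ Lamp_l lam u := by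
    omega
  exact Nat.lt_of_mul_lt_mul_left hfin

open Classical in
theorem Lamp_fiber [Fintype Z] [NeZero m] (c : Option Z) (v : ZMod m) :
    ((univ.filter fun f : Option Z → ZMod m => f c = v).card : ℝ) * m =
      Fintype.card (Option Z → ZMod m) := by
  have h : (univ.filter fun f : Option Z → ZMod m => f c = v) =
      Fintype.piFinset (fun u => if u = c then {v} else univ) := by
    ext f
    rw [Finset.mem_filter, Fintype.mem_piFinset]
    constructor
    · rintro ⟨_, hf⟩ u
      by_cases hu : u = c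
      · rw [if_pos hu, Finset.mem_singleton, hu, hf]
      · rw [if_neg hu]; exact Finset.mem_univ _
    · intro hf
      have := hf c
      rw [if_pos rfl, Finset.mem_singleton] at this
      exact ⟨Finset.mem_univ _, this⟩
  rw [h, Fintype.card_piFinset, Fintype.card_fun, ZMod.card, ← Finset.card_univ (α := Option Z),
    ← Finset.prod_const, ← Finset.mul_prod_erase _ _ (Finset.mem_univ c),
    ← Finset.mul_prod_erase (univ : Finset (Option Z)) (fun _ => m) (Finset.mem_univ c), if_pos rfl,
    Finset.card_singleton, one_mul]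
  have e : ∏ u ∈ univ.erase c, (if u = c then ({v} : Finset (ZMod m)) else univ).card =
      ∏ u ∈ univ.erase c, m := by
    refine Finset.prod_congr rfl fun u hu => ?_
    rw [if_neg (Finset.ne_of_mem_erase hu), Finset.card_univ, ZMod.card]
  rw [e]
  push_cast
  ring

end Lamp

open Classical in
theorem lamp (N : ℕ) (ε : ℝ) (hε : 0 < ε) :
    ∃ (Z : Type) (_ : Fintype Z) (_ : Nonempty Z) (T : ℕ → Equiv.Perm Z) (lam : Z → ℕ),
      (∀ n, T (n + 1) = T n * T (n + 2)) ∧
      ∀ n < N, ((univ.filter fun z => lam (T n z) ≤ lam z).card : ℝ) ≤ ε * Fintype.card Z := by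
  have key : ∀ k : ℕ, ∀ ε : ℝ, 0 < ε →
      ∃ (Z : Type) (_ : Fintype Z) (_ : Nonempty Z) (T : ℕ → Equiv.Perm Z) (lam : Z → ℕ),
        (∀ n, T (n + 1) = T n * T (n + 2)) ∧
        ∀ n < 3 * k,
          ((univ.filter fun z => lam (T n z) ≤ lam z).card : ℝ) ≤ ε * Fintype.card Z := by
    intro k
    induction k with
    | zero =>
      intro ε _
      exact ⟨Unit, inferInstance, inferInstance, fun _ => 1, fun _ => 0, fun _ => by simp,
        fun n hn => by omega⟩
    | succ k ih =>
      intro ε hε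
      obtain ⟨δ, hδ⟩ : ∃ δ : ℝ, δ = ε / 2 / 2 ^ (3 * k + 3) := ⟨_, rfl⟩
      have hδ0 : 0 < δ := by rw [hδ]; positivity
      obtain ⟨Z, iF, iN, T, lam, hrel, hinc⟩ := ih δ hδ0
      -- reverse and shift
      obtain ⟨C, hC⟩ : ∃ C, ∀ z, lam z ≤ C := ⟨univ.sup lam, fun z => Finset.le_sup (Finset.mem_univ z)⟩
      obtain ⟨lam1, hlam1⟩ : ∃ lam1 : Z → ℕ, lam1 = fun z => C - lam z := ⟨_, rfl⟩
      obtain ⟨T3, hT3⟩ : ∃ T3, T3 = Lamp_shift (Lamp_shift (Lamp_shift T)) := ⟨_, rfl⟩
      have hrel3 : ∀ n, T3 (n + 1) = T3 n * T3 (n + 2) := by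
        rw [hT3]
        exact Lamp_shift_rel (Lamp_shift_rel (Lamp_shift_rel hrel))
      have hd : ∀ n, 3 ≤ n → n < 3 * k + 3 →
          ((univ.filter fun z => lam1 z ≤ lam1 (T3 n z)).card : ℝ) ≤ δ * Fintype.card Z := by
        intro n h3 hn
        obtain ⟨n', rfl⟩ : ∃ n', n = n' + 3 := ⟨n - 3, by omega⟩
        have e1 : T3 (n' + 3) = T n' := by rw [hT3]; rfl
        refine le_trans (le_of_eq ?_) (hinc n' (by omega))
        congr 2
        ext z
        rw [Finset.mem_filter, Finset.mem_filter, e1, hlam1]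
        have := hC z
        have := hC (T n' z)
        constructor
        · rintro ⟨h, h'⟩
          refine ⟨h, ?_⟩
          have h'' : C - lam z ≤ C - lam (T n' z) := h'
          omega
        · rintro ⟨h, h'⟩
          refine ⟨h, ?_⟩
          show C - lam z ≤ C - lam (T n' z)
          omega
      obtain ⟨m, hm⟩ : ∃ m : ℕ, m = ⌈2 / ε⌉₊ + 2 := ⟨_, rfl⟩
      have hm2 : 2 ≤ m := by omega
      have hm0 : (0 : ℝ) < m := by
        have : 0 < m := by omega
        exact_mod_cast this
      have hmε : 1 / (m : ℝ) ≤ ε / 2 := by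
        have h1 : 2 / ε ≤ (m : ℝ) := by
          refine (Nat.le_ceil _).trans ?_
          rw [hm]
          push_cast
          linarith
        rw [div_le_iff₀ hm0]
        have h2 := mul_le_mul_of_nonneg_left h1 hε.le
        rw [mul_div_cancel₀ _ hε.ne'] at h2
        linarith
      have : NeZero m := ⟨by omega⟩
      refine ⟨(Option Z → ZMod m) × Z, inferInstance, ⟨(0, Classical.arbitrary Z)⟩,
        Lamp_T m T3, Lamp_lam m lam1, Lamp_T_rel m T3 hrel3, fun n hn => ?_⟩
      have hn3 : n < 3 * k + 3 := by omega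
      have hU := Lamp_unclean m T3 lam1 hδ0.le hd n hn3
      have hsub : (univ.filter fun x : (Option Z → ZMod m) × Z =>
            Lamp_lam m lam1 (Lamp_T m T3 n x) ≤ Lamp_lam m lam1 x) ⊆
          ((univ : Finset (Option Z → ZMod m)) ×ˢ
            (univ.filter fun z => ¬ Lamp_clean m T3 lam1 n z)) ∪
          ((univ : Finset Z).biUnion fun z =>
            (univ.filter fun f : Option Z → ZMod m => f (Lamp_c n z) = ((m - 1 : ℕ) : ZMod m)) ×ˢ
              {z}) := by
        rintro ⟨f, z⟩ hx
        rw [Finset.mem_filter] at hx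
        rw [Finset.mem_union, Finset.mem_product, Finset.mem_filter]
        by_cases hcl : Lamp_clean m T3 lam1 n z
        · right
          rw [Finset.mem_biUnion]
          refine ⟨z, Finset.mem_univ _, ?_⟩
          rw [Finset.mem_product, Finset.mem_filter]
          refine ⟨⟨Finset.mem_univ _, ?_⟩, Finset.mem_singleton_self z⟩
          by_contra hne
          refine absurd hx.2 (not_le.2 (Lamp_lam_lt m T3 lam1 hm2 n z hcl f ?_))
          intro hval
          apply hne
          rw [← hval]
          exact (ZMod.natCast_zmod_val _).symm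
        · left
          exact ⟨Finset.mem_univ _, Finset.mem_univ _, hcl⟩
      have hcard := (Finset.card_le_card hsub).trans ((Finset.card_union_le _ _).trans
        (Nat.add_le_add_left Finset.card_biUnion_le _))
      rw [Finset.card_product, Finset.card_univ] at hcard
      have e2 : ∀ z : Z, (((univ.filter fun f : Option Z → ZMod m =>
          f (Lamp_c n z) = ((m - 1 : ℕ) : ZMod m)) ×ˢ ({z} : Finset Z)).card : ℝ) =
          Fintype.card (Option Z → ZMod m) / m := by
        intro z
        rw [Finset.card_product, Finset.card_singleton, mul_one, eq_div_iff hm0.ne']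
        exact Lamp_fiber m _ _
      have hcard' : ((univ.filter fun x : (Option Z → ZMod m) × Z =>
            Lamp_lam m lam1 (Lamp_T m T3 n x) ≤ Lamp_lam m lam1 x).card : ℝ) ≤
          (Fintype.card (Option Z → ZMod m) : ℝ) *
            ((univ.filter fun z => ¬ Lamp_clean m T3 lam1 n z).card : ℝ) +
          ∑ z : Z, (((univ.filter fun f : Option Z → ZMod m =>
            f (Lamp_c n z) = ((m - 1 : ℕ) : ZMod m)) ×ˢ ({z} : Finset Z)).card : ℝ) := by
        exact_mod_cast hcard
      simp only [e2] at hcard'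
      rw [Finset.sum_const, Finset.card_univ, nsmul_eq_mul] at hcard'
      refine hcard'.trans ?_
      rw [Fintype.card_prod]
      push_cast
      obtain ⟨Y, hY⟩ : ∃ Y : ℝ, Y = (Fintype.card (Option Z → ZMod m) : ℝ) := ⟨_, rfl⟩
      rw [← hY]
      have hY0 : 0 ≤ Y := by rw [hY]; positivity
      have hZ0 : (0 : ℝ) ≤ Fintype.card Z := Nat.cast_nonneg _
      have hU' : ((univ.filter fun z => ¬ Lamp_clean m T3 lam1 n z).card : ℝ) ≤
          ε / 2 * Fintype.card Z := by
        refine hU.trans ?_
        have h1 : (2 : ℝ) ^ n ≤ 2 ^ (3 * k + 3) :=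
          pow_le_pow_right₀ (by norm_num) hn3.le
        calc (2 : ℝ) ^ n * (δ * Fintype.card Z) ≤ 2 ^ (3 * k + 3) * (δ * Fintype.card Z) :=
              mul_le_mul_of_nonneg_right h1 (by positivity)
          _ = ε / 2 * Fintype.card Z := by
              rw [hδ]
              field_simp
      calc Y * ((univ.filter fun z => ¬ Lamp_clean m T3 lam1 n z).card : ℝ) +
            (Fintype.card Z : ℝ) * (Y / m) ≤
            Y * (ε / 2 * Fintype.card Z) + (Fintype.card Z : ℝ) * (Y * (ε / 2)) := by
            refine add_le_add (mul_le_mul_of_nonneg_left hU' hY0)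
              (mul_le_mul_of_nonneg_left ?_ hZ0)
            rw [div_eq_mul_one_div]
            exact mul_le_mul_of_nonneg_left hmε hY0
        _ = ε * (Y * Fintype.card Z) := by ring
  obtain ⟨Z, iF, iN, T, lam, hrel, hinc⟩ := key N ε hε
  exact ⟨Z, iF, iN, T, lam, hrel, fun n hn => hinc n (by omega)⟩

end P125
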