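import Vale.Agent.Lib.P125.ULim

/-!
# P125, module LIM1: first limit (compactness)

PROOF.  Choose `N_n` for each `n`, put `N' a = ulim (fun n => N_n a)`.  Bounded by the `ℓ¹` norm
(`seminorm_le_l1`), so `tendsto_ulim` applies; build the seminorm with `Seminorm.of` or
`Seminorm.ofSMulLE` (limits of `N_n (a+b) ≤ N_n a + N_n b`, `N_n (x • a) = |x| N_n a`).
`MT`: finite sums of `rpow`s (continuous, `p ≥ 0`) pass to the limit (`le_of_tendsto_of_tendsto`).
The last property holds for `N_n` as soon as `n ≥ m` (`eventually_ge_hyper`).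
Please also state and prove the reusable lemma `MT_of_tendsto` below.
-/

open Finset Filter Topology

namespace P125

/-- `MT` passes to pointwise limits along a nontrivial filter. -/
theorem MT_of_tendsto {E : Type*} [AddCommGroup E] {p K : ℝ} (hp : 0 ≤ p) {α : Type*}
    {l : Filter α} [l.NeBot] {N : α → E → ℝ} {N' : E → ℝ} (h : ∀ n, MT p K (N n))
    (hlim : ∀ a, Tendsto (fun n => N n a) l (𝓝 (N' a))) : MT p K N' := by
  intro S _ _ P μ hP f t ht
  have hl : ∀ (Q : Matrix S S ℝ), Tendsto (fun n => ∑ i, ∑ j, μ i * Q i j * N n (f j - f i) ^ p) l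
      (𝓝 (∑ i, ∑ j, μ i * Q i j * N' (f j - f i) ^ p)) := by
    intro Q
    apply tendsto_finsetSum
    intro i _
    apply tendsto_finsetSum
    intro j _
    exact ((hlim (f j - f i)).rpow_const (Or.inr hp)).const_mul _
  exact le_of_tendsto_of_tendsto (hl (P ^ t)) ((hl P).const_mul _)
    (Filter.Eventually.of_forall fun n => h n S P μ hP f t ht)

/-- Pointwise limits of seminorms along a nontrivial filter. -/
noncomputable def seminormLim {E : Type*} [AddCommGroup E] [Module ℝ E] {α : Type*}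
    {l : Filter α} [l.NeBot] (N : α → Seminorm ℝ E) (N' : E → ℝ)
    (hlim : ∀ a, Tendsto (fun n => N n a) l (𝓝 (N' a))) : Seminorm ℝ E :=
  Seminorm.of N'
    (by
      intro a b
      exact le_of_tendsto_of_tendsto (hlim (a + b)) ((hlim a).add (hlim b))
        (Filter.Eventually.of_forall fun n => map_add_le_add (N n) a b))
    (by
      intro x a
      have h1 : Tendsto (fun n => N n (x • a)) l (𝓝 (‖x‖ * N' a)) := by
        have : (fun n => N n (x • a)) = fun n => ‖x‖ * N n a := by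
          funext n
          exact map_smul_eq_mul (N n) x a
        rw [this]
        exact (hlim a).const_mul _
      exact tendsto_nhds_unique (hlim (x • a)) h1)

theorem seminormLim_apply {E : Type*} [AddCommGroup E] [Module ℝ E] {α : Type*}
    {l : Filter α} [l.NeBot] (N : α → Seminorm ℝ E) (N' : E → ℝ)
    (hlim : ∀ a, Tendsto (fun n => N n a) l (𝓝 (N' a))) (a : E) :
    seminormLim N N' hlim a = N' a := rfl

theorem limit1 (p K δ : ℝ) (hp : 1 ≤ p) (hK : 0 ≤ K) (hδ : 0 < δ)
    (H : ∀ n : ℕ, ∃ N : Seminorm ℝ (ℕ →₀ ℝ), MT p K N ∧ (∀ i, N (e i) ≤ 1) ∧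
      ∀ m ≤ n, ∀ a : ℕ →₀ ℝ, (∀ i < m, 0 ≤ a i) → δ * ∑ i ∈ range m, a i ≤ N a) :
    ∃ N : Seminorm ℝ (ℕ →₀ ℝ), MT p K N ∧ (∀ i, N (e i) ≤ 1) ∧
      ∀ m, ∀ a : ℕ →₀ ℝ, (∀ i < m, 0 ≤ a i) → δ * ∑ i ∈ range m, a i ≤ N a := by
  choose N h1 h2 h3 using H
  have hb : ∀ (a : ℕ →₀ ℝ) (n : ℕ), |N n a| ≤ a.sum fun _ x => |x| := by
    intro a n
    rw [abs_of_nonneg (apply_nonneg (N n) a)]
    exact seminorm_le_l1 (N n) (h2 n) a
  have hlim : ∀ a, Tendsto (fun n => N n a) (hyperfilter ℕ : Filter ℕ)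
      (𝓝 (ulim fun n => N n a)) := fun a => tendsto_ulim (hb a)
  refine ⟨seminormLim N (fun a => ulim fun n => N n a) hlim, ?_, ?_, ?_⟩
  · exact MT_of_tendsto (by linarith) h1 hlim
  · intro i
    rw [seminormLim_apply]
    exact ulim_le (hb (e i)) (Filter.Eventually.of_forall fun n => h2 n i)
  · intro m a ha
    rw [seminormLim_apply]
    exact le_ulim (hb a) ((eventually_ge_hyper m).mono fun n hn => h3 n m hn a ha)

end P125
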