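import Vale.Agent.Lib.P125.Tree

/-!
# P125, module WFUN: the convex function `W`

`W x = sup {t.ew r x | t.small}`.
Bound.  For `t.bud r 1`: `E ‖m‖ ≤ (E ‖m‖^p)^(1/p) ≤ 8/3` (`ev` with exponent `1` and the constant
coefficients `1`; Jensen by induction or `ev 1 t y a ≤ (ev p t y a)^(1/p)`).
Cut: for a budget `s ≥ 0` let `cut s t` be `leaf` for a leaf and for `node d i l r'` with
`‖d‖^r > s`, and `node d i (cut (s - ‖d‖^r) l) (cut (s - ‖d‖^r) r')` otherwise; `(cut s t).bud r s`.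
Claim: if `t` is small and `w ≥ 0` bounds `ew r t' 0` for all small trees `t'` with
`t'.depth < D`, and `t.depth ≤ D`, then for `0 ≤ s`:
`ew r t y ≤ ev 1 (cut s t) y 1 + 1 + exp (-s) * w`.  (Induction on `t`.)
With `s = 1`, `y = 0`: `8/3 + 1 + exp(-1) * 6 ≤ 6`, so `ew r t 0 ≤ 6` by induction on the depth.
Then `‖x‖ ≤ W x ≤ ‖x‖ + 6` (`ew r t x ≤ ‖x‖ + ew r t 0`), each `ew r t` is convex, `1`-Lipschitz,
and so is the sup; `W (-x) = W x` (tree with all `d` negated);
`W (x + d) + W (x - d) ≤ 2 exp (‖d‖^r) W x` from the trees `node d 0 l r'`.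
-/

open Finset

namespace P125

section WFun

variable {X : Type*} [NormedAddCommGroup X] [NormedSpace ℝ X]

theorem WFun_exp_le_one (d : X) (r : ℝ) : Real.exp (-‖d‖ ^ r) ≤ 1 := by
  apply Real.exp_le_one_iff.mpr
  have : 0 ≤ ‖d‖ ^ r := Real.rpow_nonneg (norm_nonneg d) r
  linarith

theorem WFun_ew_nonneg (r : ℝ) (t : LTree X) (y : X) : 0 ≤ t.ew r y := by
  induction t generalizing y with
  | leaf => exact norm_nonneg y
  | node d i l r' ihl ihr =>
    have h1 := ihl (y + d)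
    have h2 := ihr (y - d)
    show 0 ≤ Real.exp (-‖d‖ ^ r) * ((l.ew r (y + d) + r'.ew r (y - d)) / 2)
    positivity

theorem WFun_ew_le_add (r : ℝ) (t : LTree X) (x y : X) :
    t.ew r x ≤ t.ew r y + ‖x - y‖ := by
  induction t generalizing x y with
  | leaf =>
    show ‖x‖ ≤ ‖y‖ + ‖x - y‖
    have := norm_add_le y (x - y)
    rwa [add_sub_cancel] at this
  | node d i l r' ihl ihr =>
    have h1 := ihl (x + d) (y + d)
    have h2 := ihr (x - d) (y - d)
    rw [show x + d - (y + d) = x - y by abel] at h1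
    rw [show x - d - (y - d) = x - y by abel] at h2
    have he := WFun_exp_le_one d r
    have he0 := Real.exp_pos (-‖d‖ ^ r)
    show Real.exp (-‖d‖ ^ r) * ((l.ew r (x + d) + r'.ew r (x - d)) / 2) ≤
      Real.exp (-‖d‖ ^ r) * ((l.ew r (y + d) + r'.ew r (y - d)) / 2) + ‖x - y‖
    have h3 : (l.ew r (x + d) + r'.ew r (x - d)) / 2 ≤
        (l.ew r (y + d) + r'.ew r (y - d)) / 2 + ‖x - y‖ := by linarith
    have h4 := mul_le_mul_of_nonneg_left h3 he0.le
    have h5 : Real.exp (-‖d‖ ^ r) * ‖x - y‖ ≤ 1 * ‖x - y‖ :=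
      mul_le_mul_of_nonneg_right he (norm_nonneg _)
    rw [mul_add] at h4
    linarith

theorem WFun_ew_convex (r : ℝ) (t : LTree X) (x y : X) {a b : ℝ} (ha : 0 ≤ a) (hb : 0 ≤ b)
    (hab : a + b = 1) : t.ew r (a • x + b • y) ≤ a * t.ew r x + b * t.ew r y := by
  induction t generalizing x y with
  | leaf =>
    show ‖a • x + b • y‖ ≤ a * ‖x‖ + b * ‖y‖
    have := norm_add_le (a • x) (b • y)
    rwa [norm_smul, norm_smul, Real.norm_of_nonneg ha, Real.norm_of_nonneg hb] at this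
  | node d i l r' ihl ihr =>
    have h1 := ihl (x + d) (y + d)
    have h2 := ihr (x - d) (y - d)
    have e1 : a • (x + d) + b • (y + d) = a • x + b • y + d := by
      rw [smul_add, smul_add, add_add_add_comm, ← add_smul a b d, hab, one_smul]
    have e2 : a • (x - d) + b • (y - d) = a • x + b • y - d := by
      rw [smul_sub, smul_sub, sub_add_sub_comm, ← add_smul a b d, hab, one_smul]
    rw [e1] at h1
    rw [e2] at h2
    have he0 := Real.exp_pos (-‖d‖ ^ r)
    show Real.exp (-‖d‖ ^ r) * ((l.ew r (a • x + b • y + d) + r'.ew r (a • x + b • y - d)) / 2) ≤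
      a * (Real.exp (-‖d‖ ^ r) * ((l.ew r (x + d) + r'.ew r (x - d)) / 2)) +
      b * (Real.exp (-‖d‖ ^ r) * ((l.ew r (y + d) + r'.ew r (y - d)) / 2))
    have h3 : (l.ew r (a • x + b • y + d) + r'.ew r (a • x + b • y - d)) / 2 ≤
        a * ((l.ew r (x + d) + r'.ew r (x - d)) / 2) +
        b * ((l.ew r (y + d) + r'.ew r (y - d)) / 2) := by linarith
    have h4 := mul_le_mul_of_nonneg_left h3 he0.le
    linarith

/-- The tree with all steps negated. -/
def WFun_neg : LTree X → LTree X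
  | LTree.leaf => LTree.leaf
  | LTree.node d i l r' => LTree.node (-d) i (WFun_neg l) (WFun_neg r')

theorem WFun_neg_small (t : LTree X) (ht : t.small) : (WFun_neg t).small := by
  induction t with
  | leaf => exact trivial
  | node d i l r' ihl ihr =>
    obtain ⟨h1, h2, h3⟩ := ht
    refine ⟨?_, ihl h2, ihr h3⟩
    rwa [norm_neg]

theorem WFun_neg_ew (r : ℝ) (t : LTree X) (y : X) : (WFun_neg t).ew r (-y) = t.ew r y := by
  induction t generalizing y with
  | leaf => exact norm_neg y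
  | node d i l r' ihl ihr =>
    show Real.exp (-‖-d‖ ^ r) * (((WFun_neg l).ew r (-y + -d) + (WFun_neg r').ew r (-y - -d)) / 2) =
      Real.exp (-‖d‖ ^ r) * ((l.ew r (y + d) + r'.ew r (y - d)) / 2)
    rw [norm_neg, ← ihl (y + d), ← ihr (y - d), show -(y + d) = -y + -d by abel,
      show -(y - d) = -y - -d by abel]

/-- Jensen. -/
theorem WFun_jensen {p : ℝ} (hp : 1 ≤ p) (t : LTree X) (y : X) (a : ℕ → ℝ) :
    (t.ev 1 y a) ^ p ≤ t.ev p y a := by
  induction t generalizing y with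
  | leaf =>
    show (‖y‖ ^ (1 : ℝ)) ^ p ≤ ‖y‖ ^ p
    rw [Real.rpow_one]
  | node d i l r' ihl ihr =>
    have h1 := ihl (y + a i • d)
    have h2 := ihr (y - a i • d)
    have n1 := ev_nonneg (p := 1) l (y + a i • d) a
    have n2 := ev_nonneg (p := 1) r' (y - a i • d) a
    show ((l.ev 1 (y + a i • d) a + r'.ev 1 (y - a i • d) a) / 2) ^ p ≤
      (l.ev p (y + a i • d) a + r'.ev p (y - a i • d) a) / 2
    have hc := (convexOn_rpow hp).2 (Set.mem_Ici.mpr n1) (Set.mem_Ici.mpr n2)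
      (show (0 : ℝ) ≤ 1 / 2 by norm_num) (show (0 : ℝ) ≤ 1 / 2 by norm_num) (by norm_num)
    simp only [smul_eq_mul] at hc
    have e1 : (l.ev 1 (y + a i • d) a + r'.ev 1 (y - a i • d) a) / 2 =
      1 / 2 * l.ev 1 (y + a i • d) a + 1 / 2 * r'.ev 1 (y - a i • d) a := by ring
    rw [e1]
    linarith

/-- Cut the tree when the budget is exceeded. -/
noncomputable def WFun_cut (r : ℝ) : LTree X → ℝ → LTree X
  | LTree.leaf, _ => LTree.leaf
  | LTree.node d i l r', s =>
    if s < ‖d‖ ^ r then LTree.leaf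
    else LTree.node d i (WFun_cut r l (s - ‖d‖ ^ r)) (WFun_cut r r' (s - ‖d‖ ^ r))

theorem WFun_cut_bud (r : ℝ) (t : LTree X) (s : ℝ) (hs : 0 ≤ s) :
    (WFun_cut r t s).bud r s := by
  induction t generalizing s with
  | leaf => exact hs
  | node d i l r' ihl ihr =>
    unfold WFun_cut
    split_ifs with h
    · exact hs
    · push Not at h
      exact ⟨ihl _ (by linarith), ihr _ (by linarith)⟩

theorem WFun_claim (r : ℝ) (hr : 1 < r) (D : ℕ) (w : ℝ) (hw : 0 ≤ w)
    (hD : ∀ t' : LTree X, t'.small → t'.depth < D → t'.ew r 0 ≤ w)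
    (t : LTree X) (ht : t.small) (htD : t.depth ≤ D) (s : ℝ) (hs : 0 ≤ s) (y : X) :
    t.ew r y ≤ (WFun_cut r t s).ev 1 y (fun _ => 1) + 1 + Real.exp (-s) * w := by
  induction t generalizing s y with
  | leaf =>
    show ‖y‖ ≤ ‖y‖ ^ (1 : ℝ) + 1 + Real.exp (-s) * w
    rw [Real.rpow_one]
    have := mul_nonneg (Real.exp_pos (-s)).le hw
    linarith
  | node d i l r' ihl ihr =>
    obtain ⟨hd, hl, hr'⟩ := ht
    have hdep : max l.depth r'.depth + 1 ≤ D := htD
    have hld : l.depth < D := by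
      have := le_max_left l.depth r'.depth
      omega
    have hrd : r'.depth < D := by
      have := le_max_right l.depth r'.depth
      omega
    have he := WFun_exp_le_one d r
    have he0 := Real.exp_pos (-‖d‖ ^ r)
    show Real.exp (-‖d‖ ^ r) * ((l.ew r (y + d) + r'.ew r (y - d)) / 2) ≤ _
    unfold WFun_cut
    split_ifs with h
    · show Real.exp (-‖d‖ ^ r) * ((l.ew r (y + d) + r'.ew r (y - d)) / 2) ≤
        ‖y‖ ^ (1 : ℝ) + 1 + Real.exp (-s) * w
      rw [Real.rpow_one]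
      have h1 := WFun_ew_le_add r l (y + d) 0
      have h2 := WFun_ew_le_add r r' (y - d) 0
      rw [sub_zero] at h1 h2
      have h3 := hD l hl hld
      have h4 := hD r' hr' hrd
      have h5 := norm_add_le y d
      have h6 := norm_sub_le y d
      have h7 : (l.ew r (y + d) + r'.ew r (y - d)) / 2 ≤ (‖y‖ + 1) + w := by linarith
      have h8 := mul_le_mul_of_nonneg_left h7 he0.le
      have h9 : Real.exp (-‖d‖ ^ r) * (‖y‖ + 1) ≤ 1 * (‖y‖ + 1) :=
        mul_le_mul_of_nonneg_right he (by positivity)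
      have h10 : Real.exp (-‖d‖ ^ r) * w ≤ Real.exp (-s) * w :=
        mul_le_mul_of_nonneg_right (Real.exp_le_exp.mpr (by linarith)) hw
      rw [mul_add] at h8
      linarith
    · push Not at h
      have h1 := ihl hl hld.le (s - ‖d‖ ^ r) (by linarith) (y + d)
      have h2 := ihr hr' hrd.le (s - ‖d‖ ^ r) (by linarith) (y - d)
      show Real.exp (-‖d‖ ^ r) * ((l.ew r (y + d) + r'.ew r (y - d)) / 2) ≤
        ((WFun_cut r l (s - ‖d‖ ^ r)).ev 1 (y + (1 : ℝ) • d) (fun _ => 1) +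
          (WFun_cut r r' (s - ‖d‖ ^ r)).ev 1 (y - (1 : ℝ) • d) (fun _ => 1)) / 2 + 1 +
          Real.exp (-s) * w
      rw [one_smul]
      have n1 := ev_nonneg (p := 1) (WFun_cut r l (s - ‖d‖ ^ r)) (y + d) (fun _ => 1)
      have n2 := ev_nonneg (p := 1) (WFun_cut r r' (s - ‖d‖ ^ r)) (y - d) (fun _ => 1)
      set A := (WFun_cut r l (s - ‖d‖ ^ r)).ev 1 (y + d) (fun _ => 1)
      set B := (WFun_cut r r' (s - ‖d‖ ^ r)).ev 1 (y - d) (fun _ => 1)
      have h7 : (l.ew r (y + d) + r'.ew r (y - d)) / 2 ≤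
          ((A + B) / 2 + 1) + Real.exp (-(s - ‖d‖ ^ r)) * w := by linarith
      have h8 := mul_le_mul_of_nonneg_left h7 he0.le
      have h9 : Real.exp (-‖d‖ ^ r) * ((A + B) / 2 + 1) ≤ 1 * ((A + B) / 2 + 1) :=
        mul_le_mul_of_nonneg_right he (by positivity)
      have h10 : Real.exp (-‖d‖ ^ r) * (Real.exp (-(s - ‖d‖ ^ r)) * w) = Real.exp (-s) * w := by
        rw [← mul_assoc, ← Real.exp_add]
        congr 2
        ring
      rw [mul_add, h10] at h8
      linarith

theorem WFun_bound {p r : ℝ} (hp : 1 ≤ p) (hr : 1 < r)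
    (h : ∀ t : LTree X, t.bud r 1 → t.ev p 0 (fun _ => 1) ≤ (8 / 3) ^ p) (D : ℕ) :
    ∀ t : LTree X, t.small → t.depth < D → t.ew r 0 ≤ 6 := by
  induction D with
  | zero => intro t _ ht; omega
  | succ D ih =>
    intro t hts htd
    have h1 := WFun_claim r hr D 6 (by norm_num) ih t hts (by omega) 1 (by norm_num) 0
    have h2 := h _ (WFun_cut_bud r t 1 (by norm_num))
    have h3 := WFun_jensen hp (WFun_cut r t 1) 0 (fun _ => 1)
    have h4 := h3.trans h2
    have n1 := ev_nonneg (p := 1) (WFun_cut r t 1) (0 : X) (fun _ => 1)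
    have h5 : (WFun_cut r t 1).ev 1 0 (fun _ => 1) ≤ 8 / 3 := by
      by_contra hc
      push Not at hc
      have := Real.rpow_lt_rpow (by norm_num : (0 : ℝ) ≤ 8 / 3) hc (by linarith : 0 < p)
      linarith
    have h6 : Real.exp (-1 : ℝ) ≤ 7 / 18 := by
      rw [Real.exp_neg, inv_le_comm₀ (Real.exp_pos 1) (by norm_num)]
      have := Real.exp_one_gt_d9
      norm_num
      linarith
    linarith

theorem WFun_sup_props {r : ℝ}
    (hb : ∀ t : LTree X, t.small → t.ew r 0 ≤ 6) :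
    ∃ (W : X → ℝ), (∀ (t : LTree X) (x : X), t.small → t.ew r x ≤ W x) ∧
      ∀ (x : X) (c : ℝ), (∀ t : LTree X, t.small → t.ew r x ≤ c) → W x ≤ c := by
  have hne : Nonempty {t : LTree X // t.small} := ⟨⟨LTree.leaf, trivial⟩⟩
  refine ⟨fun x => ⨆ t : {t : LTree X // t.small}, t.1.ew r x, ?_, ?_⟩
  · intro t x ht
    have hbdd : BddAbove (Set.range fun t : {t : LTree X // t.small} => t.1.ew r x) := by
      refine ⟨6 + ‖x - 0‖, ?_⟩
      rintro _ ⟨t, rfl⟩
      have h1 := WFun_ew_le_add r t.1 x 0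
      have h2 := hb t.1 t.2
      show t.1.ew r x ≤ _
      linarith
    exact le_ciSup hbdd ⟨t, ht⟩
  · intro x c hc
    exact ciSup_le fun t => hc t.1 t.2

end WFun

theorem exists_W {X : Type*} [NormedAddCommGroup X] [NormedSpace ℝ X] {p r : ℝ} (hp : 1 ≤ p)
    (hr : 1 < r) (hr2 : r ≤ 2)
    (h : ∀ t : LTree X, t.bud r 1 → t.ev p 0 (fun _ => 1) ≤ (8 / 3) ^ p) :
    ∃ (W : X → ℝ) (C : ℝ), 0 ≤ C ∧ ConvexOn ℝ Set.univ W ∧ (∀ x, W (-x) = W x) ∧
      (∀ x y, |W x - W y| ≤ ‖x - y‖) ∧ (∀ x, ‖x‖ ≤ W x) ∧ (∀ x, W x ≤ ‖x‖ + C) ∧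
      ∀ x d, ‖d‖ ≤ 1 → W (x + d) + W (x - d) ≤ 2 * Real.exp (‖d‖ ^ r) * W x := by
  have hb : ∀ t : LTree X, t.small → t.ew r 0 ≤ 6 := fun t ht =>
    WFun_bound hp hr h (t.depth + 1) t ht (Nat.lt_succ_self _)
  obtain ⟨W, hW1, hW2⟩ := WFun_sup_props hb
  have hneg : ∀ x, W (-x) ≤ W x := by
    intro x
    apply hW2
    intro t ht
    have h1 := WFun_neg_ew r (WFun_neg t) x
    have h2 : (WFun_neg (WFun_neg t)).ew r (-x) = t.ew r (-x) := by
      have := WFun_neg_ew r (WFun_neg t) x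
      have h3 := WFun_neg_ew r t (-x)
      rw [neg_neg] at h3
      rw [this, h3]
    rw [← h2, h1]
    exact hW1 _ _ (WFun_neg_small t ht)
  have hlip : ∀ x y, W x ≤ W y + ‖x - y‖ := by
    intro x y
    apply hW2
    intro t ht
    have h1 := WFun_ew_le_add r t x y
    have h2 := hW1 t y ht
    linarith
  refine ⟨W, 6, by norm_num, ⟨convex_univ, ?_⟩, ?_, ?_, ?_, ?_, ?_⟩
  · intro x _ y _ a b ha hb' hab
    apply hW2
    intro t ht
    have h1 := WFun_ew_convex r t x y ha hb' hab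
    have h2 := mul_le_mul_of_nonneg_left (hW1 t x ht) ha
    have h3 := mul_le_mul_of_nonneg_left (hW1 t y ht) hb'
    show t.ew r (a • x + b • y) ≤ a * W x + b * W y
    linarith
  · intro x
    apply le_antisymm (hneg x)
    have := hneg (-x)
    rwa [neg_neg] at this
  · intro x y
    rw [abs_le]
    constructor
    · have := hlip y x
      rw [norm_sub_rev] at this
      linarith
    · have := hlip x y
      linarith
  · intro x
    exact hW1 LTree.leaf x trivial
  · intro x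
    apply hW2
    intro t ht
    have h1 := WFun_ew_le_add r t x 0
    rw [sub_zero] at h1
    have h2 := hb t ht
    linarith
  · intro x d hd
    have key : ∀ t1 t2 : LTree X, t1.small → t2.small →
        t1.ew r (x + d) + t2.ew r (x - d) ≤ 2 * Real.exp (‖d‖ ^ r) * W x := by
      intro t1 t2 h1 h2
      have h3 := hW1 (LTree.node d 0 t1 t2) x ⟨hd, h1, h2⟩
      have h4 : Real.exp (-‖d‖ ^ r) * ((t1.ew r (x + d) + t2.ew r (x - d)) / 2) ≤ W x := h3
      have h5 := mul_le_mul_of_nonneg_left h4 (Real.exp_pos (‖d‖ ^ r)).le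
      rw [← mul_assoc, ← Real.exp_add, add_neg_cancel, Real.exp_zero, one_mul] at h5
      linarith
    have k2 : ∀ t2 : LTree X, t2.small →
        W (x + d) ≤ 2 * Real.exp (‖d‖ ^ r) * W x - t2.ew r (x - d) := by
      intro t2 h2
      apply hW2
      intro t1 h1
      have := key t1 t2 h1 h2
      linarith
    have k3 : W (x - d) ≤ 2 * Real.exp (‖d‖ ^ r) * W x - W (x + d) := by
      apply hW2
      intro t2 h2
      have := k2 t2 h2
      linarith
    linarith

end P125
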