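import Vale.Agent.Lib.P125.Beta
import Vale.Agent.Lib.P125.WFun
import Vale.Agent.Lib.P125.Gauge

/-!
# P125 : assembly
-/

namespace P125

theorem renorming {X : Type*} [NormedAddCommGroup X] [NormedSpace ℝ X] {p K : ℝ} (hp : 1 < p)
    (hK : 0 ≤ K) (h : MT p K (fun x : X => ‖x‖)) :
    ∃ N : Seminorm ℝ X, EquivNorm N ∧ UniformlySmooth N ∧
      ∃ r : ℝ, 1 < r ∧ ∃ c : ℝ, ∀ τ : ℝ, 0 < τ → smoothMod N τ ≤ c * τ ^ r := by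
  obtain ⟨r, hr, hr2, hβ⟩ := beta hp hK h
  obtain ⟨W, C, h1, h2, h3, h4, h5, h6, h7⟩ := exists_W hp.le hr hr2 hβ
  obtain ⟨N, a, b, hc⟩ := smooth_of_W hr hr2 W C h1 h2 h3 h4 h5 h6 h7
  exact ⟨N, a, b, r, hr, hc⟩

end P125
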