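import Vale.Agent.Lib.P125.Basic

/-!
# P125, module NEST: nesting of the intervals `J(v, j) = [τ v j, tauS v j)`

`nest_out`: vertex `w`, event index `j` at `w`, a colour `c ≠ col j`, `u = ι c w`.  Let `jS` be the
one of `j + 1`, `j + 2` with `col jS = c`, and `j' = jS` if `u` is even (`par u = false`),
`j' = jS - 3` if `u` is odd.  Then `col j' = c`, `sIdx (par u) j' = jS`,
`tauS u j' = τ w jS` (as `ι c u = w`), and `J(w, j) ⊆ J(u, j')`.
Proof: right end: `tauS w j < τ w (j+1) ≤ τ w jS` (`Good w j`, `Good w (j+1)`).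
Left end: `τ u j' = tauS w (jS - 3)` (`par w = !par u`: if `u` is even, `w` is odd and
`sIdx (par w) (jS - 3) = jS = j'`; if `u` is odd, `w` is even and
`sIdx (par w) (jS - 3) = jS - 3 = j'`), and `tauS w (jS-3) < τ w (jS - 2) ≤ τ w j`
(`Good w (jS-3)`, and `Good w (jS-2)` if `jS = j + 1`).
`nest_in` is the same fact read from the outer interval: given `v`, `j` with `col j = c`, `w = ι c v`
and a colour `c' ≠ c`, there is an index `j'` at `w` with `col j' = c'` and `J(w, j') ⊆ J(v, j)`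
(`jS = sIdx (par v) j`, `j' ∈ {jS - 1, jS - 2}`).
-/

open Finset

namespace P125

namespace Nest

theorem col_add_three (j : ℕ) : col (j + 3) = col j := by
  simp [col]

theorem exists_next (c : Fin 3) (j : ℕ) (hc : c ≠ col j) :
    col (j + 1) = c ∨ col (j + 2) = c := by
  rcases c with ⟨c, hc3⟩
  simp only [col, ne_eq, Fin.mk.injEq] at hc ⊢
  omega

/-- the image time of the event `(w, i)` where `col i = c`. -/
theorem tauS_eq {V : Type} (par : V → Bool) (ι : Fin 3 → V → V) (τ : V → ℕ → ℕ) (w : V)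
    (c : Fin 3) (i : ℕ) (hi : col i = c) :
    tauS par ι τ w i = τ (ι c w) (sIdx (par w) i) := by
  unfold tauS
  rw [hi]

theorem Good.mono {V : Type} {par : V → Bool} {ι : Fin 3 → V → V} {τ : V → ℕ → ℕ} {w : V} {i : ℕ}
    (h : Good par ι τ w i) : τ w i < τ w (i + 1) := h.1.trans h.2

end Nest

theorem nest_out {V : Type} (par : V → Bool) (ι : Fin 3 → V → V) (τ : V → ℕ → ℕ)
    (hι : ∀ c v, ι c (ι c v) = v) (hpar : ∀ c v, par (ι c v) = !par v)
    (L : ℕ) (w : V) (hw : ∀ j < L, Good par ι τ w j) (c : Fin 3) (j : ℕ) (hj : 3 ≤ j)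
    (hjL : j + 3 < L) (hc : c ≠ col j) :
    ∃ j' : ℕ, col j' = c ∧ j' ≤ j + 2 ∧ j ≤ j' + 2 ∧
      τ (ι c w) j' ≤ τ w j ∧ tauS par ι τ w j ≤ tauS par ι τ (ι c w) j' := by
  -- `k = jS - 3`
  obtain ⟨k, hk, hkc⟩ : ∃ k : ℕ, (k + 2 = j ∨ k + 1 = j) ∧ col k = c := by
    rcases Nest.exists_next c j hc with h | h
    · refine ⟨j - 2, Or.inl (by omega), ?_⟩
      rw [← h, ← Nest.col_add_three (j - 2)]
      congr 1
      omega
    · refine ⟨j - 1, Or.inr (by omega), ?_⟩
      rw [← h, ← Nest.col_add_three (j - 1)]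
      congr 1
      omega
  have hkc' : col (k + 3) = c := by rw [Nest.col_add_three, hkc]
  have hleft : tauS par ι τ w k ≤ τ w j := by
    have h1 := (hw k (by omega)).2
    rcases hk with hk | hk
    · have h2 := Nest.Good.mono (hw (k + 1) (by omega))
      subst hk
      exact (h1.trans h2).le
    · subst hk
      exact h1.le
  have hright : tauS par ι τ w j ≤ τ w (k + 3) := by
    have h1 := (hw j (by omega)).2
    rcases hk with hk | hk
    · subst hk
      exact h1.le
    · have h2 := Nest.Good.mono (hw (j + 1) (by omega))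
      subst hk
      exact (h1.trans h2).le
  have hs := Nest.tauS_eq par ι τ w c k hkc
  cases hp : par w
  · -- `u` is odd
    have hpu : par (ι c w) = true := by rw [hpar, hp]; rfl
    refine ⟨k, hkc, by omega, by omega, ?_, ?_⟩
    · rw [hs, hp] at hleft
      exact hleft
    · rw [Nest.tauS_eq par ι τ (ι c w) c k hkc, hpu, hι]
      exact hright
  · have hpu : par (ι c w) = false := by rw [hpar, hp]; rfl
    refine ⟨k + 3, hkc', by omega, by omega, ?_, ?_⟩
    · rw [hs, hp] at hleft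
      exact hleft
    · rw [Nest.tauS_eq par ι τ (ι c w) c (k + 3) hkc', hpu, hι]
      exact hright

theorem nest_in {V : Type} (par : V → Bool) (ι : Fin 3 → V → V) (τ : V → ℕ → ℕ)
    (hι : ∀ c v, ι c (ι c v) = v) (hpar : ∀ c v, par (ι c v) = !par v)
    (L : ℕ) (v : V) (c : Fin 3) (hw : ∀ j < L, Good par ι τ (ι c v) j) (j : ℕ) (hj : 3 ≤ j)
    (hjL : j + 4 < L) (hcj : col j = c) (c' : Fin 3) (hc : c' ≠ c) :
    ∃ j' : ℕ, col j' = c' ∧ j' ≤ j + 2 ∧ j ≤ j' + 2 ∧
      τ v j ≤ τ (ι c v) j' ∧ tauS par ι τ (ι c v) j' ≤ tauS par ι τ v j := by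
  -- `k = jS - 3`
  obtain ⟨k, hkj, hkL, hkc, hvj, hSv⟩ : ∃ k : ℕ, (k ≤ j ∧ j ≤ k + 3) ∧ k + 3 < L ∧ col k = c ∧
      τ v j = tauS par ι τ (ι c v) k ∧ tauS par ι τ v j = τ (ι c v) (k + 3) := by
    cases hp : par v
    · have hpu : par (ι c v) = true := by rw [hpar, hp]; rfl
      have hkc : col (j - 3) = c := by
        rw [← hcj, ← Nest.col_add_three (j - 3)]
        congr 1
        omega
      have e1 : j - 3 + 3 = j := by omega
      refine ⟨j - 3, ⟨by omega, by omega⟩, by omega, hkc, ?_, ?_⟩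
      · rw [Nest.tauS_eq par ι τ (ι c v) c (j - 3) hkc, hpu, hι]
        simp only [sIdx, if_true, e1]
      · rw [Nest.tauS_eq par ι τ v c j hcj, hp, e1]
        rfl
    · have hpu : par (ι c v) = false := by rw [hpar, hp]; rfl
      refine ⟨j, ⟨le_refl _, by omega⟩, by omega, hcj, ?_, ?_⟩
      · rw [Nest.tauS_eq par ι τ (ι c v) c j hcj, hpu, hι]
        rfl
      · rw [Nest.tauS_eq par ι τ v c j hcj, hp]
        rfl
  have hg0 := (hw k (by omega)).2
  have hg1 := hw (k + 1) (by omega)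
  have hg2 := hw (k + 2) (by omega)
  have hg1' := hg1.2
  have hg2' := hg2.2
  have hm1 := Nest.Good.mono hg1
  have hm2 := Nest.Good.mono hg2
  rcases Nest.exists_next c' k (by rw [hkc]; exact hc) with h | h
  · refine ⟨k + 1, h, by omega, by omega, ?_, ?_⟩
    · rw [hvj]; exact hg0.le
    · rw [hSv]
      exact (hg1'.trans hm2).le
  · refine ⟨k + 2, h, by omega, by omega, ?_, ?_⟩
    · rw [hvj]; exact (hg0.trans hm1).le
    · rw [hSv]
      exact hg2'.le

end P125
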