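import Vale.Agent.Lib.P125.Words

/-!
# P125, module ONEFORM1: the Markov type inequality for walks along three involutions

PROOF.  Apply `MT` to `P i j = #{c | ι c i = j} / 3` and `μ = 1 / |V|` (symmetric since the `ι c`
are involutions).  By induction on `T` (`pow_succ : P ^ (T+1) = P ^ T * P`):
`∑ j, (P ^ T) i j * g j = avgW T (fun w => g (pos ι i w))`.
-/

open Finset

namespace P125

/-- the transition matrix of the walk along three involutions -/
noncomputable def OneForm1_P {V : Type} [DecidableEq V] (ι : Fin 3 → V → V) : Matrix V V ℝ :=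
  fun i j => (∑ c : Fin 3, if ι c i = j then (1 : ℝ) else 0) / 3

theorem OneForm1_P_sum {V : Type} [Fintype V] [DecidableEq V] (ι : Fin 3 → V → V) (i : V)
    (g : V → ℝ) : ∑ j, OneForm1_P ι i j * g j = (∑ c : Fin 3, g (ι c i)) / 3 := by
  unfold OneForm1_P
  have h : ∀ j, (∑ c : Fin 3, if ι c i = j then (1 : ℝ) else 0) / 3 * g j =
      (∑ c : Fin 3, if ι c i = j then g j else 0) / 3 := by
    intro j
    rw [div_mul_eq_mul_div, Finset.sum_mul]
    congr 1
    apply Finset.sum_congr rfl
    intro c _
    split_ifs <;> simp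
  rw [Finset.sum_congr rfl fun j _ => h j, ← Finset.sum_div, Finset.sum_comm]
  congr 1
  apply Finset.sum_congr rfl
  intro c _
  simp

theorem OneForm1_pow {V : Type} [Fintype V] [DecidableEq V] (ι : Fin 3 → V → V) (T : ℕ) :
    ∀ (i : V) (g : V → ℝ), ∑ j, (OneForm1_P ι ^ T) i j * g j =
      avgW T (fun w => g (pos ι i w)) := by
  induction T with
  | zero =>
    intro i g
    simp [avgW, pos, Matrix.one_apply]
  | succ T ih =>
    intro i g
    have h1 : ∀ j, (OneForm1_P ι ^ (T + 1)) i j * g j =
        ∑ k, (OneForm1_P ι ^ T) i k * (OneForm1_P ι k j * g j) := by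
      intro j
      rw [pow_succ, Matrix.mul_apply, Finset.sum_mul]
      apply Finset.sum_congr rfl
      intro k _
      ring
    rw [Finset.sum_congr rfl fun j _ => h1 j, Finset.sum_comm]
    have h2 : ∀ k, ∑ j, (OneForm1_P ι ^ T) i k * (OneForm1_P ι k j * g j) =
        (OneForm1_P ι ^ T) i k * ((∑ c : Fin 3, g (ι c k)) / 3) := by
      intro k
      rw [← Finset.mul_sum, OneForm1_P_sum]
    rw [Finset.sum_congr rfl fun k _ => h2 k, ih i (fun k => (∑ c : Fin 3, g (ι c k)) / 3)]
    have h3 : avgW (T + 1) (fun w => g (pos ι i w)) =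
        (∑ c : Fin 3, avgW T (fun w => g (ι c (pos ι i w)))) / 3 := rfl
    rw [h3, ← avgW_sum T Finset.univ (fun c w => g (ι c (pos ι i w)))]
    have h4 := avgW_const_mul T (1 / 3) (fun w => ∑ c : Fin 3, g (ι c (pos ι i w)))
    have h5 : (fun w => (∑ c : Fin 3, g (ι c (pos ι i w))) / 3) =
        fun w => 1 / 3 * ∑ c : Fin 3, g (ι c (pos ι i w)) := by
      funext w
      ring
    rw [h5, h4]
    ring

theorem MT.words {V : Type} [Fintype V] {E : Type*} [AddCommGroup E] {p K : ℝ} {N : E → ℝ}
    (h : MT p K N) (ι : Fin 3 → V → V) (hι : ∀ c v, ι c (ι c v) = v) (f : V → E) (T : ℕ)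
    (hT : 1 ≤ T) :
    ∑ v, avgW T (fun w => N (f (pos ι v w) - f v) ^ p) ≤
      K ^ p * T * ∑ v, ∑ c, N (f (ι c v) - f v) ^ p / 3 := by
  classical
  rcases isEmpty_or_nonempty V with hV | hV
  · simp
  have hc : (0 : ℝ) < Fintype.card V := by exact_mod_cast Fintype.card_pos
  have hchain : IsRevChain (OneForm1_P ι) (fun _ : V => (1 : ℝ) / Fintype.card V) := by
    refine ⟨fun i => by positivity, ?_, ?_, ?_, ?_⟩
    · rw [Finset.sum_const, Finset.card_univ, nsmul_eq_mul]
      field_simp
    · intro i j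
      unfold OneForm1_P
      apply div_nonneg _ (by norm_num)
      apply Finset.sum_nonneg
      intro c _
      split_ifs <;> norm_num
    · intro i
      have := OneForm1_P_sum ι i (fun _ => 1)
      simpa using this
    · intro i j
      congr 1
      unfold OneForm1_P
      congr 1
      apply Finset.sum_congr rfl
      intro c _
      have : ι c i = j ↔ ι c j = i := by
        constructor
        · rintro rfl
          exact hι c i
        · rintro rfl
          exact hι c j
      simp only [this]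
  have h1 := h V (OneForm1_P ι) (fun _ : V => (1 : ℝ) / Fintype.card V) hchain f T hT
  have h2 : ∀ i, ∑ j, (1 : ℝ) / Fintype.card V * (OneForm1_P ι ^ T) i j * N (f j - f i) ^ p =
      (1 : ℝ) / Fintype.card V * avgW T (fun w => N (f (pos ι i w) - f i) ^ p) := by
    intro i
    rw [← OneForm1_pow ι T i (fun j => N (f j - f i) ^ p), Finset.mul_sum]
    apply Finset.sum_congr rfl
    intro j _
    ring
  have h3 : ∀ i, ∑ j, (1 : ℝ) / Fintype.card V * OneForm1_P ι i j * N (f j - f i) ^ p =
      (1 : ℝ) / Fintype.card V * ∑ c, N (f (ι c i) - f i) ^ p / 3 := by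
    intro i
    rw [← Finset.sum_div, ← OneForm1_P_sum ι i (fun j => N (f j - f i) ^ p), Finset.mul_sum]
    apply Finset.sum_congr rfl
    intro j _
    ring
  rw [Finset.sum_congr rfl fun i _ => h2 i, Finset.sum_congr rfl fun i _ => h3 i,
    ← Finset.mul_sum, ← Finset.mul_sum] at h1
  have h4 : (1 : ℝ) / Fintype.card V * ∑ i, avgW T (fun w => N (f (pos ι i w) - f i) ^ p) ≤
      (1 : ℝ) / Fintype.card V *
        (K ^ p * T * ∑ v, ∑ c, N (f (ι c v) - f v) ^ p / 3) := by
    calc _ ≤ _ := h1
      _ = _ := by ring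
  exact le_of_mul_le_mul_left h4 (by positivity)

end P125
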