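import Vale.Agent.Lib.P125.Form
import Vale.Agent.Lib.P125.Nest

/-!
# P125, module PATH: the partial sums along a reduced path

Word `w = c_k :: ... :: c_1` (head = last letter), `v_0 = v`, `v_i = ι c_i v_{i-1}` (`= pos` of the
suffix of length `i`).  `B` = number of `i < k` with `v_i` even (`par v_i = false`).
`J(v, j) = [τ v j, tauS v j)`.

(H) by induction on `w ≠ []`: for each index `j_0` at `v_0` with `col j_0 = c_1` (the LAST entry of
the list), in a range, there is an index `j` at `v_{k-1}` with `col j = head w`,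
`|j - j_0| ≤ 2 (k - 1)`, `J(v_{k-1}, j) ⊆ J(v_0, j_0)`, and for all `s ∈ J(v_{k-1}, j)`:
`Phi s (sumW v w) = B_w`.
Step `c :: w`, `c ≠ head w`: apply `nest_in` at `v_{k-1}`, `j`, colour `head w`, new colour `c`:
get `j'` at `v_k` with `J(v_k, j') ⊆ J(v_{k-1}, j)`.  For `s ∈ J(v_k, j')`:
`Phi s (sumW v (c :: w)) = Phi s (sumW v w) + Phi s (form c v_k) = B_w + [v_k even]`
(`Phi_form`).
(L) by induction on `w ≠ []`: for each index `j_1` at `v_1` with `col j_1 = c_1`, in a range, there
is `j` at `v_k = pos v w` with `col j = head w`, `|j - j_1| ≤ 2 (k - 1)`,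
`J(v_1, j_1) ⊆ J(v_k, j)` and for all `s ∈ J(v_1, j_1)`: `Phi s (sumW v w) = B_w - k`.
Base `w = [c_1]`: `form c_1 v_0 = - form c_1 v_1` and `Phi_form` at `v_1`.
Step `c :: w`: `nest_out` at `v_k`, `j`, colour `c`: `J(v_k, j) ⊆ J(v_{k+1}, j')`, and for
`s ∈ J(v_1, j_1)`: `Phi s (form c v_k) = - Phi s (form c v_{k+1}) = -[v_{k+1} even] = -[v_k odd]`.

Conclusion: `j_0 (r) = c_1 + 3 (r + T + 1)`, `r < M - (2 T + 6)`.
`h r = τ v_{k-1} j` from (H) (so `τ v_0 j_0 ≤ h r < tauS v_0 j_0`), and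
`l r = tauS v_0 j_0 = τ v_1 (sIdx (par v_0) j_0)`, the left end of `J(v_1, sIdx (par v_0) j_0)`
(apply (L) with `j_1 = sIdx (par v_0) j_0`; `l r < tauS v_1 j_1` by `Good`).
`h r < l r`; and `l r < τ v_0 (j_0 + 1) ≤ τ v_0 (j_0 + 3) ≤ h (r + 1)`.
-/

open Finset

namespace P125

namespace Path

/-- The last entry of the list `c :: w`. -/
def lastL : Fin 3 → List (Fin 3) → Fin 3
  | c, [] => c
  | _, d :: w => lastL d w

/-- `1` for even, `0` for odd. -/
def evb : Bool → ℕ
  | true => 0
  | false => 1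

theorem ite_evb (b : Bool) : (if b then (0 : ℝ) else 1) = (evb b : ℝ) := by
  cases b <;> simp [evb]

theorem ite_evb_not (b : Bool) : (if (!b) = true then (0 : ℝ) else 1) = 1 - (evb b : ℝ) := by
  cases b <;> simp [evb]

/-- Number of even starting vertices of the steps. -/
def evc {V : Type} (par : V → Bool) (ι : Fin 3 → V → V) (v : V) : List (Fin 3) → ℕ
  | [] => 0
  | _ :: w => evc par ι v w + evb (par (pos ι v w))

theorem evc_le {V : Type} (par : V → Bool) (ι : Fin 3 → V → V) (v : V) (w : List (Fin 3)) :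
    evc par ι v w ≤ w.length := by
  induction w with
  | nil => simp [evc]
  | cons c w ih =>
    simp only [evc, List.length_cons]
    have : evb (par (pos ι v w)) ≤ 1 := by cases par (pos ι v w) <;> simp [evb]
    omega

theorem col_eq_add {j : ℕ} {c : Fin 3} (h : col j = c) : j = (c : ℕ) + 3 * (j / 3) := by
  subst h
  simp only [col]
  omega

theorem pos_lastL {V : Type} (ι : Fin 3 → V → V) (v : V) (c : Fin 3) :
    pos ι v [c] = ι (lastL c []) v := rfl

variable {V : Type} (par : V → Bool) (ι : Fin 3 → V → V) (τ : V → ℕ → ℕ)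
  (hι : ∀ c v, ι c (ι c v) = v) (hpar : ∀ c v, par (ι c v) = !par v)

include hι hpar

theorem Phi_dart (M : ℕ) (c : Fin 3) (v : V)
    (hv : ∀ j < 3 * M + 6, Good par ι τ v j) (hv' : ∀ j < 3 * M + 6, Good par ι τ (ι c v) j)
    (j : ℕ) (hc : col j = c) (hj : j < 3 * M) (s : ℕ) (hs : τ v j ≤ s)
    (hs' : s < tauS par ι τ v j) :
    Phi s (form ι τ M c v) = if par v then 0 else 1 := by
  have h := col_eq_add hc
  have hl : j / 3 < M := by omega
  rw [h] at hs hs'
  exact Phi_form par ι τ hι hpar M c v hv hv' (j / 3) hl s hs hs'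

theorem high (M : ℕ) (v : V) : ∀ (w : List (Fin 3)) (c : Fin 3), Reduced (c :: w) →
    (∀ u, u <:+ (c :: w) → ∀ j < 3 * M + 6, Good par ι τ (pos ι v u) j) →
    ∀ j₀, col j₀ = lastL c w → 3 + 2 * w.length ≤ j₀ → j₀ + 2 * w.length + 3 ≤ 3 * M →
    ∃ j, col j = c ∧ j ≤ j₀ + 2 * w.length ∧ j₀ ≤ j + 2 * w.length ∧
      τ v j₀ ≤ τ (pos ι v w) j ∧ tauS par ι τ (pos ι v w) j ≤ tauS par ι τ v j₀ ∧
      ∀ s, τ (pos ι v w) j ≤ s → s < tauS par ι τ (pos ι v w) j →
        Phi s (sumW ι (form ι τ M) v (c :: w)) = evc par ι v (c :: w) := by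
  intro w
  induction w with
  | nil =>
    intro c _ hgood j₀ hcol h1 h2
    refine ⟨j₀, hcol, by omega, by omega, le_rfl, le_rfl, ?_⟩
    intro s hs hs'
    have hv : ∀ j < 3 * M + 6, Good par ι τ v j := hgood [] (List.nil_suffix)
    have hv' : ∀ j < 3 * M + 6, Good par ι τ (ι c v) j := hgood [c] (List.suffix_refl _)
    have hPhi := Phi_dart par ι τ hι hpar M c v hv hv' j₀ hcol (by simp at h2; omega) s hs hs'
    rw [ite_evb] at hPhi
    have e3 : sumW ι (form ι τ M) v [c] = 0 + form ι τ M c v := rfl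
    have e4 : evc par ι v [c] = 0 + evb (par v) := rfl
    rw [e3, e4, zero_add, zero_add, hPhi]
  | cons d w ih =>
    intro c hred hgood j₀ hcol h1 h2
    have hcd : c ≠ d := hred.1
    have hred' : Reduced (d :: w) := hred.2
    simp only [List.length_cons] at h1 h2
    have hgood' : ∀ u, u <:+ (d :: w) → ∀ j < 3 * M + 6, Good par ι τ (pos ι v u) j :=
      fun u hu => hgood u (hu.trans (List.suffix_cons _ _))
    obtain ⟨j, hj1, hj2, hj3, hj4, hj5, hj6⟩ := ih d hred' hgood' j₀ hcol (by omega) (by omega)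
    have hy : ∀ j < 3 * M + 6, Good par ι τ (ι d (pos ι v w)) j :=
      hgood (d :: w) (List.suffix_cons _ _)
    obtain ⟨j', hc', h1', h2', h3', h4'⟩ := nest_in par ι τ hι hpar (3 * M + 6) (pos ι v w) d hy j
      (by omega) (by omega) hj1 c hcd
    refine ⟨j', hc', by simp only [List.length_cons]; omega, by simp only [List.length_cons]; omega,
      hj4.trans h3', h4'.trans hj5, ?_⟩
    intro s hs hs'
    change τ (ι d (pos ι v w)) j' ≤ s at hs
    change s < tauS par ι τ (ι d (pos ι v w)) j' at hs'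
    have e1 := hj6 s (h3'.trans hs) (lt_of_lt_of_le hs' h4')
    have hz : ∀ j < 3 * M + 6, Good par ι τ (ι c (ι d (pos ι v w))) j :=
      hgood (c :: d :: w) (List.suffix_refl _)
    have e2 := Phi_dart par ι τ hι hpar M c (ι d (pos ι v w)) hy hz j' hc' (by omega) s hs hs'
    have e3 : sumW ι (form ι τ M) v (c :: d :: w) =
        sumW ι (form ι τ M) v (d :: w) + form ι τ M c (ι d (pos ι v w)) := rfl
    have e4 : evc par ι v (c :: d :: w) =
        evc par ι v (d :: w) + evb (par (ι d (pos ι v w))) := rfl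
    rw [e3, Phi_add, e1, e2, e4, ite_evb]
    push_cast
    ring

theorem low (M : ℕ) (v : V) : ∀ (w : List (Fin 3)) (c : Fin 3), Reduced (c :: w) →
    (∀ u, u <:+ (c :: w) → ∀ j < 3 * M + 6, Good par ι τ (pos ι v u) j) →
    ∀ j₁, col j₁ = lastL c w → 3 + 2 * w.length ≤ j₁ → j₁ + 2 * w.length + 3 ≤ 3 * M →
    ∃ j, col j = c ∧ j ≤ j₁ + 2 * w.length ∧ j₁ ≤ j + 2 * w.length ∧
      τ (pos ι v (c :: w)) j ≤ τ (ι (lastL c w) v) j₁ ∧
      tauS par ι τ (ι (lastL c w) v) j₁ ≤ tauS par ι τ (pos ι v (c :: w)) j ∧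
      ∀ s, τ (ι (lastL c w) v) j₁ ≤ s → s < tauS par ι τ (ι (lastL c w) v) j₁ →
        Phi s (sumW ι (form ι τ M) v (c :: w)) =
          (evc par ι v (c :: w) : ℝ) - (c :: w).length := by
  intro w
  induction w with
  | nil =>
    intro c _ hgood j₁ hcol h1 h2
    refine ⟨j₁, hcol, by omega, by omega, le_rfl, le_rfl, ?_⟩
    intro s hs hs'
    have hv : ∀ j < 3 * M + 6, Good par ι τ v j := hgood [] (List.nil_suffix)
    have hv' : ∀ j < 3 * M + 6, Good par ι τ (ι c v) j := hgood [c] (List.suffix_refl _)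
    have hvv : ∀ j < 3 * M + 6, Good par ι τ (ι c (ι c v)) j := by rw [hι]; exact hv
    have hPhi := Phi_dart par ι τ hι hpar M c (ι c v) hv' hvv j₁ hcol (by simp at h2; omega) s hs hs'
    rw [form_anti ι τ hι, Phi_neg, hpar] at hPhi
    rw [ite_evb_not] at hPhi
    have e3 : sumW ι (form ι τ M) v [c] = 0 + form ι τ M c v := rfl
    have e4 : evc par ι v [c] = 0 + evb (par v) := rfl
    rw [e3, e4, zero_add, zero_add]
    simp only [List.length_singleton]
    push_cast
    linarith
  | cons d w ih =>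
    intro c hred hgood j₁ hcol h1 h2
    have hcd : c ≠ d := hred.1
    have hred' : Reduced (d :: w) := hred.2
    simp only [List.length_cons] at h1 h2
    have hgood' : ∀ u, u <:+ (d :: w) → ∀ j < 3 * M + 6, Good par ι τ (pos ι v u) j :=
      fun u hu => hgood u (hu.trans (List.suffix_cons _ _))
    obtain ⟨j, hj1, hj2, hj3, hj4, hj5, hj6⟩ := ih d hred' hgood' j₁ hcol (by omega) (by omega)
    have hy : ∀ j < 3 * M + 6, Good par ι τ (pos ι v (d :: w)) j :=
      hgood (d :: w) (List.suffix_cons _ _)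
    have hz : ∀ j < 3 * M + 6, Good par ι τ (ι c (pos ι v (d :: w))) j :=
      hgood (c :: d :: w) (List.suffix_refl _)
    have hyy : ∀ j < 3 * M + 6, Good par ι τ (ι c (ι c (pos ι v (d :: w)))) j := by
      rw [hι]; exact hy
    obtain ⟨j', hc', h1', h2', h3', h4'⟩ := nest_out par ι τ hι hpar (3 * M + 6)
      (pos ι v (d :: w)) hy c j (by omega) (by omega) (by rw [hj1]; exact hcd)
    refine ⟨j', hc', by simp only [List.length_cons]; omega, by simp only [List.length_cons]; omega,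
      ?_, ?_, ?_⟩
    · exact le_trans h3' hj4
    · exact le_trans hj5 h4'
    · intro s hs hs'
      change τ (ι (lastL d w) v) j₁ ≤ s at hs
      change s < tauS par ι τ (ι (lastL d w) v) j₁ at hs'
      have e1 := hj6 s hs hs'
      have e2 := Phi_dart par ι τ hι hpar M c (ι c (pos ι v (d :: w))) hz hyy j' hc' (by omega) s
        (h3'.trans (hj4.trans hs)) (lt_of_lt_of_le hs' (hj5.trans h4'))
      rw [form_anti ι τ hι, Phi_neg, hpar] at e2
      rw [ite_evb_not] at e2
      have e3 : sumW ι (form ι τ M) v (c :: d :: w) =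
          sumW ι (form ι τ M) v (d :: w) + form ι τ M c (pos ι v (d :: w)) := rfl
      have e4 : evc par ι v (c :: d :: w) =
          evc par ι v (d :: w) + evb (par (pos ι v (d :: w))) := rfl
      rw [e3, Phi_add, e1, e4]
      simp only [List.length_cons]
      push_cast
      linarith

end Path

theorem path_pattern {V : Type} (par : V → Bool) (ι : Fin 3 → V → V) (τ : V → ℕ → ℕ)
    (hι : ∀ c v, ι c (ι c v) = v) (hpar : ∀ c v, par (ι c v) = !par v)
    (M T : ℕ) (hM : 2 * T + 6 < M) (v : V) (w : List (Fin 3)) (hw : w ≠ []) (hred : Reduced w)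
    (hlen : w.length ≤ T)
    (hgood : ∀ w', w' <:+ w → ∀ j < 3 * M + 6, Good par ι τ (pos ι v w') j) :
    ∃ (B : ℕ) (h l : ℕ → ℕ), B ≤ w.length ∧
      (∀ r < M - (2 * T + 6), h r < l r) ∧
      (∀ r, r + 1 < M - (2 * T + 6) → l r < h (r + 1)) ∧
      (∀ r < M - (2 * T + 6), Phi (h r) (sumW ι (form ι τ M) v w) = B) ∧
      (∀ r < M - (2 * T + 6), Phi (l r) (sumW ι (form ι τ M) v w) = (B : ℝ) - w.length) := by
  obtain ⟨c, w', rfl⟩ := List.exists_cons_of_ne_nil hw
  set c₁ := Path.lastL c w' with hc₁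
  have hlen' : w'.length + 1 ≤ T := by simpa using hlen
  have hc₁lt : (c₁ : ℕ) < 3 := c₁.2
  -- indices of the first dart
  let J : ℕ → ℕ := fun r => (c₁ : ℕ) + 3 * (r + T + 1)
  have hJcol : ∀ r, col (J r) = c₁ := fun r => col_add c₁ (r + T + 1)
  have hv : ∀ j < 3 * M + 6, Good par ι τ v j := hgood [] (List.nil_suffix)
  -- the suffix `[c₁]`
  have hlast : ∀ (u : List (Fin 3)) (d : Fin 3), [Path.lastL d u] <:+ (d :: u) := by
    intro u
    induction u with
    | nil => intro d; exact List.suffix_refl _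
    | cons x u ih => intro d; exact (ih x).trans (List.suffix_cons _ _)
  have hv₁ : ∀ j < 3 * M + 6, Good par ι τ (ι c₁ v) j := hgood [c₁] (hlast w' c)
  have key1 : ∀ r, r < M - (2 * T + 6) → ∃ h, τ v (J r) ≤ h ∧ h < tauS par ι τ v (J r) ∧
      Phi h (sumW ι (form ι τ M) v (c :: w')) = Path.evc par ι v (c :: w') := by
    intro r hr
    obtain ⟨j, h1, h2, h3, h4, h5, h6⟩ := Path.high par ι τ hι hpar M v w' c hred hgood (J r)
      (hJcol r) (by simp only [J]; omega) (by simp only [J]; omega)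
    have hg : Good par ι τ (pos ι v w') j :=
      hgood w' (List.suffix_cons _ _) j (by simp only [J] at h2; omega)
    exact ⟨τ (pos ι v w') j, h4, lt_of_lt_of_le hg.1 h5, h6 _ le_rfl hg.1⟩
  choose! h hh1 hh2 hh3 using key1
  refine ⟨Path.evc par ι v (c :: w'), h, fun r => tauS par ι τ v (J r), Path.evc_le par ι v _,
    hh2, ?_, hh3, ?_⟩
  · intro r hr
    have g1 : Good par ι τ v (J r) := hv _ (by simp only [J]; omega)
    have g2 : Good par ι τ v (J r + 1) := hv _ (by simp only [J]; omega)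
    have g3 : Good par ι τ v (J r + 1 + 1) := hv _ (by simp only [J]; omega)
    have e : J r + 1 + 1 + 1 = J (r + 1) := by simp only [J]; ring
    have h' := hh1 (r + 1) hr
    rw [← e] at h'
    have g1' := g1.2
    have g2' := g2.1.trans g2.2
    have g3' := g3.1.trans g3.2
    show tauS par ι τ v (J r) < h (r + 1)
    omega
  · intro r hr
    -- index at `v₁`
    set j₁ := sIdx (par v) (J r) with hj₁
    have hj₁' : j₁ = J r ∨ j₁ = J r + 3 := by
      rw [hj₁]; unfold sIdx; split_ifs <;> simp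
    have hcolj₁ : col j₁ = c₁ := by
      rcases hj₁' with h | h
      · rw [h]; exact hJcol r
      · rw [h]
        have := col_add c₁ (r + T + 1 + 1)
        rw [← this]
        congr 1
    obtain ⟨j, h1, h2, h3, h4, h5, h6⟩ := Path.low par ι τ hι hpar M v w' c hred hgood j₁
      hcolj₁ (by simp only [J] at hj₁'; omega) (by simp only [J] at hj₁'; omega)
    have hs : tauS par ι τ v (J r) = τ (ι c₁ v) j₁ := by
      unfold tauS
      rw [hJcol r]
    have hg : Good par ι τ (ι c₁ v) j₁ := hv₁ _ (by simp only [J] at hj₁'; omega)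
    show Phi (tauS par ι τ v (J r)) _ = _
    rw [hs]
    exact h6 _ le_rfl hg.1

end P125
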