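import Vale.Agent.Lib.P125.Main

/-!
# P125 : expectations over trajectories, and the plain form of the renorming theorem
-/

open Finset

namespace Vale.Agent.Lib.P125.PathSum

private theorem path_aux {S : Type} [Fintype S] [DecidableEq S] (P : Matrix S S ℝ) (h : S → ℝ) :
    ∀ (t : ℕ) (u : S → ℝ),
      ∑ z : Fin (t + 1) → S, u (z 0) * (∏ k : Fin t, P (z k.castSucc) (z k.succ))
        * h (z (Fin.last t)) = ∑ i, ∑ j, u i * (P ^ t) i j * h j := by
  intro t
  induction t with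
  | zero =>
    intro u
    have h1 : ∑ z : Fin (0 + 1) → S, u (z 0) * (∏ k : Fin 0, P (z k.castSucc) (z k.succ))
        * h (z (Fin.last 0)) = ∑ i : S, u i * h i := by
      refine Fintype.sum_equiv (Equiv.funUnique (Fin 1) S) _ _ fun z => ?_
      simp
    rw [h1]
    refine Finset.sum_congr rfl fun i _ => ?_
    simp [Matrix.one_apply]
  | succ t ih =>
    intro u
    have h1 : ∑ z : Fin (t + 1 + 1) → S,
        u (z 0) * (∏ k : Fin (t + 1), P (z k.castSucc) (z k.succ)) * h (z (Fin.last (t + 1)))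
        = ∑ a : S, ∑ z : Fin (t + 1) → S,
          u a * (P a (z 0) * ∏ k : Fin t, P (z k.castSucc) (z k.succ)) * h (z (Fin.last t)) := by
      rw [← Fintype.sum_prod_type']
      symm
      refine Fintype.sum_equiv (Fin.consEquiv fun _ => S) _ _ fun q => ?_
      obtain ⟨a, z⟩ := q
      rw [Fin.prod_univ_succ]
      rfl
    rw [h1, Finset.sum_comm]
    have h2 : ∀ z : Fin (t + 1) → S,
        ∑ a : S, u a * (P a (z 0) * ∏ k : Fin t, P (z k.castSucc) (z k.succ))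
          * h (z (Fin.last t)) = (∑ a : S, u a * P a (z 0))
          * (∏ k : Fin t, P (z k.castSucc) (z k.succ)) * h (z (Fin.last t)) := by
      intro z
      rw [Finset.sum_mul, Finset.sum_mul]
      refine Finset.sum_congr rfl fun a _ => ?_
      ring
    rw [Finset.sum_congr rfl fun z _ => h2 z, ih (fun b => ∑ a : S, u a * P a b)]
    have h3 : ∀ i j, (P ^ (t + 1)) i j = ∑ b, P i b * (P ^ t) b j := by
      intro i j
      rw [pow_succ', Matrix.mul_apply]
    calc ∑ b, ∑ j, (∑ a, u a * P a b) * (P ^ t) b j * h j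
        = ∑ b, ∑ j, ∑ a, u a * P a b * (P ^ t) b j * h j := by
          simp only [Finset.sum_mul]
      _ = ∑ b, ∑ a, ∑ j, u a * P a b * (P ^ t) b j * h j :=
          Finset.sum_congr rfl fun b _ => Finset.sum_comm
      _ = ∑ a, ∑ b, ∑ j, u a * P a b * (P ^ t) b j * h j := Finset.sum_comm
      _ = ∑ a, ∑ j, ∑ b, u a * P a b * (P ^ t) b j * h j :=
          Finset.sum_congr rfl fun a _ => Finset.sum_comm
      _ = ∑ a, ∑ j, u a * (P ^ (t + 1)) a j * h j := by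
          refine Finset.sum_congr rfl fun a _ => Finset.sum_congr rfl fun j _ => ?_
          rw [h3, Finset.mul_sum, Finset.sum_mul]
          refine Finset.sum_congr rfl fun b _ => ?_
          ring

/-- expectation over the trajectories `z 0, ..., z t` -/
theorem path_sum {S : Type} [Fintype S] [DecidableEq S] (P : Matrix S S ℝ) (π : S → ℝ)
    (g : S → S → ℝ) (t : ℕ) :
    ∑ z : Fin (t + 1) → S, π (z 0) * (∏ k : Fin t, P (z k.castSucc) (z k.succ))
        * g (z 0) (z (Fin.last t)) = ∑ i, ∑ j, π i * (P ^ t) i j * g i j := by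
  have h1 : ∀ z : Fin (t + 1) → S, π (z 0) * (∏ k : Fin t, P (z k.castSucc) (z k.succ))
        * g (z 0) (z (Fin.last t)) = ∑ i : S, (if z 0 = i then π i else 0)
        * (∏ k : Fin t, P (z k.castSucc) (z k.succ)) * g i (z (Fin.last t)) := by
    intro z
    rw [Finset.sum_eq_single (z 0)]
    · rw [if_pos rfl]
    · intro b _ hb
      rw [if_neg (Ne.symm hb)]
      ring
    · intro h
      exact absurd (Finset.mem_univ _) h
  rw [Finset.sum_congr rfl fun z _ => h1 z, Finset.sum_comm]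
  refine Finset.sum_congr rfl fun i _ => ?_
  rw [path_aux P (g i) t (fun a => if a = i then π i else 0)]
  rw [Finset.sum_eq_single i]
  · simp
  · intro b _ hb
    simp [hb]
  · intro h
    exact absurd (Finset.mem_univ _) h

/-- the Markov type inequality over trajectories on `Fin n` gives `MT` -/
theorem mt_of_paths {X : Type*} [NormedAddCommGroup X] {p K : ℝ}
    (h : ∀ (n : ℕ) (π : Fin n → ℝ) (P : Fin n → Fin n → ℝ),
        (∀ i, 0 ≤ π i) → ∑ i, π i = 1 → (∀ i j, 0 ≤ P i j) → (∀ i, ∑ j, P i j = 1) →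
        (∀ i j, π i * P i j = π j * P j i) →
        ∀ (f : Fin n → X) (t : ℕ), 1 ≤ t →
          ∑ z : Fin (t + 1) → Fin n, π (z 0) * (∏ k : Fin t, P (z k.castSucc) (z k.succ)) *
              ‖f (z (Fin.last t)) - f (z 0)‖ ^ p ≤
            K ^ p * t * ∑ i, ∑ j, π i * P i j * ‖f j - f i‖ ^ p) :
    _root_.P125.MT p K (fun x : X => ‖x‖) := by
  intro S _ _ P μ hP f t ht
  let e : Fin (Fintype.card S) ≃ S := (Fintype.equivFin S).symm
  have h1 := h (Fintype.card S) (fun i => μ (e i)) (fun i j => P (e i) (e j))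
    (fun i => hP.mu_nonneg _) ((Equiv.sum_comp e μ).trans hP.mu_sum)
    (fun i j => hP.P_nonneg _ _) (fun i => (Equiv.sum_comp e (P (e i))).trans (hP.P_sum _))
    (fun i j => hP.rev _ _) (fun i => f (e i)) t ht
  have h2 : ∑ z : Fin (t + 1) → Fin (Fintype.card S), μ (e (z 0)) *
      (∏ k : Fin t, P (e (z k.castSucc)) (e (z k.succ))) *
        ‖f (e (z (Fin.last t))) - f (e (z 0))‖ ^ p
      = ∑ z : Fin (t + 1) → S, μ (z 0) * (∏ k : Fin t, P (z k.castSucc) (z k.succ)) *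
        ‖f (z (Fin.last t)) - f (z 0)‖ ^ p :=
    Fintype.sum_equiv (Equiv.arrowCongr (Equiv.refl _) e) _ _ fun z => rfl
  have h3 : ∑ i, ∑ j, μ (e i) * P (e i) (e j) * ‖f (e j) - f (e i)‖ ^ p
      = ∑ i, ∑ j, μ i * P i j * ‖f j - f i‖ ^ p := by
    rw [← Equiv.sum_comp e]
    refine Finset.sum_congr rfl fun i _ => ?_
    exact Equiv.sum_comp e fun j => μ (e i) * P (e i) j * ‖f j - f (e i)‖ ^ p
  rw [h2, h3, path_sum P μ (fun i j => ‖f j - f i‖ ^ p) t] at h1
  exact h1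

theorem renorming_plain {X : Type*} [NormedAddCommGroup X] [NormedSpace ℝ X] {p K : ℝ}
    (hp : 1 < p) (hK : 0 ≤ K)
    (h : ∀ (n : ℕ) (π : Fin n → ℝ) (P : Fin n → Fin n → ℝ),
        (∀ i, 0 ≤ π i) → ∑ i, π i = 1 → (∀ i j, 0 ≤ P i j) → (∀ i, ∑ j, P i j = 1) →
        (∀ i j, π i * P i j = π j * P j i) →
        ∀ (f : Fin n → X) (t : ℕ), 1 ≤ t →
          ∑ z : Fin (t + 1) → Fin n, π (z 0) * (∏ k : Fin t, P (z k.castSucc) (z k.succ)) *
              ‖f (z (Fin.last t)) - f (z 0)‖ ^ p ≤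
            K ^ p * t * ∑ i, ∑ j, π i * P i j * ‖f j - f i‖ ^ p) :
    ∃ N : X → ℝ,
      (∀ x y : X, N (x + y) ≤ N x + N y) ∧
      (∀ (c : ℝ) (x : X), N (c • x) = |c| * N x) ∧
      (∃ a b : ℝ, 0 < a ∧ 0 < b ∧ ∀ x : X, a * ‖x‖ ≤ N x ∧ N x ≤ b * ‖x‖) ∧
      (∀ ε : ℝ, 0 < ε → ∃ τ₀ : ℝ, 0 < τ₀ ∧ ∀ τ : ℝ, 0 < τ → τ ≤ τ₀ →
        ∀ x y : X, N x = 1 → N y = 1 → (N (x + τ • y) + N (x - τ • y)) / 2 - 1 ≤ ε * τ) ∧
      ∃ r C : ℝ, 1 < r ∧ ∀ τ : ℝ, 0 < τ →
        ∀ x y : X, N x = 1 → N y = 1 → (N (x + τ • y) + N (x - τ • y)) / 2 - 1 ≤ C * τ ^ r := by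
  obtain ⟨N, h1, h2, r, hr, c, hc⟩ := _root_.P125.renorming hp hK (mt_of_paths h)
  have hb : ∀ τ : ℝ, 0 < τ → ∀ x y : X, N x = 1 → N y = 1 →
      (N (x + τ • y) + N (x - τ • y)) / 2 - 1 ≤ _root_.P125.smoothMod N τ := by
    intro τ hτ x y hx hy
    refine le_csSup ?_ ⟨x, y, hx, hy, rfl⟩
    refine ⟨τ, ?_⟩
    rintro s ⟨a, b, ha, hb, rfl⟩
    have h8 : N (a + τ • b) ≤ N a + N (τ • b) := map_add_le_add N _ _
    have h9 : N (a - τ • b) ≤ N a + N (τ • b) := map_sub_le_add N _ _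
    rw [map_smul_eq_mul, Real.norm_of_nonneg hτ.le, ha, hb] at h8 h9
    linarith
  refine ⟨N, fun x y => map_add_le_add N x y, fun c x => ?_, h1, ?_, r, c, hr, ?_⟩
  · rw [map_smul_eq_mul, Real.norm_eq_abs]
  · intro ε hε
    obtain ⟨δ, hδ, h4⟩ := (Metric.tendsto_nhdsWithin_nhds.1 h2) ε hε
    refine ⟨δ / 2, half_pos hδ, fun τ hτ hτ2 x y hx hy => ?_⟩
    have h5 := h4 (x := τ) hτ (by rw [Real.dist_eq, sub_zero, abs_of_pos hτ]; linarith)
    rw [Real.dist_eq, sub_zero] at h5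
    have h6 : _root_.P125.smoothMod N τ / τ < ε := (le_abs_self _).trans_lt h5
    rw [div_lt_iff₀ hτ] at h6
    exact (hb τ hτ x y hx hy).trans h6.le
  · intro τ hτ x y hx hy
    exact (hb τ hτ x y hx hy).trans (hc τ hτ)

end Vale.Agent.Lib.P125.PathSum
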