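import Vale.Agent.Lib.P125.Lamp

/-!
# P125, module ROTOR1: from the lamplighter lemma to time functions

PROOF.  Take `Z, T, lam` from `lamp N' ε'` with `N' = N + 4` (or larger) and a small `ε'`
(`(2 N + 3) ε' ≤ ε / 2` is enough).  Put `g n z = 8 ^ (C - 4 * lam z - n)` (as an integer), where
`C` is a natural number with `C ≥ 4 * lam z + N + 10` for all `z`.  Define `H : ℕ → Z → ℤ` by
`H 0 = H 1 = H 2 = 1` and
`H (m+3) z = g (m+1) (T (m+2) z) - g m (T (m+1) z) - g (m+2) (T (m+2) z) - H m (T (m+2) z)`,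
and `E m z = H m z + g m (T m z) + g (m+2) z`.
`U = Z × ZMod Θ`, `t (z, s) = s.val`,
`ρ m (z, s) = ((T (m+1))⁻¹ z, s + g (m+1) z)`,
`S m (z, s) = ((T (m+2))⁻¹ z, s + E m z)`.
Identity `ρ (m+4) * ρ (m+2) * ρ m = S (m+3) * S m`: with `z' = (T (m+2))⁻¹ z` one has
`T (m+3) z' = (T (m+1))⁻¹ z` and `(T (m+3))⁻¹ (T (m+1))⁻¹ z = z'` (because
`T (m+2) = T (m+1) * T (m+3)`), `T m z = T m (T (m+2) z') = T (m+1) z'`, and
`E m z + E (m+3) z' = g (m+1) z + g (m+3) ((T (m+1))⁻¹ z) + g (m+5) z'`
holds identically (no goodness needed).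
Goodness.  Let `Q m z` be: `0 < H m z` and `2 * H m z ≤ g (m+1) z`.
`Q 0, Q 1, Q 2` always hold.  If `Q m z`, `lam z < lam (T m z)` and
`lam ((T (m+2))⁻¹ z) < lam z` then `Q (m+3) ((T (m+2))⁻¹ z)`: indeed
`8 * g m (T m z) ≤ g (m+1) z`, `8 * g (m+2) z = g (m+1) z`,
`H (m+3) z' = g (m+1) z - g m (T m z) - g (m+2) z - H m z ≥ g (m+1) z / 4 > 0`, and
`H (m+3) z' ≤ g (m+1) z ≤ g (m+4) z' / 2` since `4 * lam z' + (m+4) ≤ 4 * lam z + (m+1) - 1`.
So the number of `z` with `¬ Q m z` is at most `2 m ε' |Z|` (`m + 3 ≤ N + 3`).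
If `Q m z` and `Q (m+3) ((T (m+2))⁻¹ z)` then `0 < E m z < g (m+1) z`
(`g (m+1) z - E m z = H (m+3) z' > 0`).
If moreover `s.val + g (m+1) z < Θ` then
`s.val < (s + E m z).val < (s + g (m+1) z).val`, which is the condition wanted at `(z, s)`.
The fraction of `s` with `s.val + g (m+1) z ≥ Θ` is at most `8 ^ C / Θ`; take `Θ` large.
-/

open Finset

namespace P125

namespace Rotor1

variable {Z : Type}

/-- The main weight. -/
def g (C : ℕ) (lam : Z → ℕ) (n : ℕ) (z : Z) : ℤ := 8 ^ (C - 4 * lam z - n)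

theorem g_pos (C : ℕ) (lam : Z → ℕ) (n : ℕ) (z : Z) : 0 < g C lam n z := by
  unfold g; positivity

theorem g_le (C : ℕ) (lam : Z → ℕ) (n : ℕ) (z : Z) : g C lam n z ≤ 8 ^ C := by
  unfold g
  exact pow_le_pow_right₀ (by norm_num) (by omega)

/-- The auxiliary function. -/
def H (C : ℕ) (lam : Z → ℕ) (T : ℕ → Equiv.Perm Z) : ℕ → Z → ℤ
  | 0, _ => 1
  | 1, _ => 1
  | 2, _ => 1
  | (m + 3), z => g C lam (m + 1) (T (m + 2) z) - g C lam m (T (m + 1) z)
      - g C lam (m + 2) (T (m + 2) z) - H C lam T m (T (m + 2) z)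

/-- The delay of `S`. -/
def E (C : ℕ) (lam : Z → ℕ) (T : ℕ → Equiv.Perm Z) (m : ℕ) (z : Z) : ℤ :=
  H C lam T m z + g C lam m (T m z) + g C lam (m + 2) z

/-- Skew product permutation. -/
def shear {Θ : ℕ} (π : Equiv.Perm Z) (a : Z → ℤ) : Equiv.Perm (Z × ZMod Θ) where
  toFun x := (π x.1, x.2 + (a x.1 : ZMod Θ))
  invFun y := (π.symm y.1, y.2 - (a (π.symm y.1) : ZMod Θ))
  left_inv x := by simp
  right_inv y := by simp

theorem H_succ (C : ℕ) (lam : Z → ℕ) (T : ℕ → Equiv.Perm Z)
    (hT : ∀ n, T (n + 1) = T n * T (n + 2)) (m : ℕ) (z : Z) :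
    H C lam T (m + 3) ((T (m + 2)).symm z) =
      g C lam (m + 1) z - g C lam m (T m z) - g C lam (m + 2) z - H C lam T m z := by
  have h1 : T (m + 1) ((T (m + 2)).symm z) = T m z := by
    rw [hT m]; simp
  rw [H, h1]
  simp

theorem key (C : ℕ) (lam : Z → ℕ) (T : ℕ → Equiv.Perm Z)
    (hT : ∀ n, T (n + 1) = T n * T (n + 2)) (m : ℕ) (z : Z) :
    E C lam T m z + E C lam T (m + 3) ((T (m + 2)).symm z) =
      g C lam (m + 1) z + g C lam (m + 3) ((T (m + 1)).symm z) +
        g C lam (m + 5) ((T (m + 2)).symm z) := by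
  have h1 : T (m + 3) ((T (m + 2)).symm z) = (T (m + 1)).symm z := by
    rw [Equiv.eq_symm_apply]
    have := hT (m + 1)
    rw [show m + 1 + 1 = m + 2 by omega, show m + 1 + 2 = m + 3 by omega] at this
    have h2 : (T (m + 1) * T (m + 3)) ((T (m + 2)).symm z) = z := by rw [← this]; simp
    exact h2
  unfold E
  rw [H_succ C lam T hT, h1]
  rw [show m + 3 + 2 = m + 5 by omega]
  ring

/-- Goodness. -/
def Q (C : ℕ) (lam : Z → ℕ) (T : ℕ → Equiv.Perm Z) (m : ℕ) (z : Z) : Prop :=
  0 < H C lam T m z ∧ 2 * H C lam T m z ≤ g C lam (m + 1) z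

theorem Q_step (C N : ℕ) (lam : Z → ℕ) (hC : ∀ z, 4 * lam z + N + 10 ≤ C)
    (T : ℕ → Equiv.Perm Z)
    (hT : ∀ n, T (n + 1) = T n * T (n + 2)) (m : ℕ) (hm : m ≤ N) (z : Z)
    (hQ : Q C lam T m z) (h1 : lam z < lam (T m z))
    (h2 : lam ((T (m + 2)).symm z) < lam z) :
    Q C lam T (m + 3) ((T (m + 2)).symm z) := by
  have a1 : 8 * g C lam m (T m z) ≤ g C lam (m + 1) z := by
    unfold g
    rw [← pow_succ']
    refine pow_le_pow_right₀ (by norm_num) ?_
    have := hC (T m z)
    have := hC z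
    omega
  have a2 : 8 * g C lam (m + 2) z = g C lam (m + 1) z := by
    unfold g
    rw [← pow_succ']
    congr 1
    have := hC z
    omega
  have a3 : 2 * g C lam (m + 1) z ≤ g C lam (m + 3 + 1) ((T (m + 2)).symm z) := by
    have : 8 * g C lam (m + 1) z ≤ g C lam (m + 3 + 1) ((T (m + 2)).symm z) := by
      unfold g
      rw [← pow_succ']
      refine pow_le_pow_right₀ (by norm_num) ?_
      have := hC ((T (m + 2)).symm z)
      have := hC z
      omega
    have := g_pos C lam (m + 1) z
    omega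
  have a4 := g_pos C lam m (T m z)
  have a5 := g_pos C lam (m + 1) z
  obtain ⟨q1, q2⟩ := hQ
  unfold Q
  rw [H_succ C lam T hT]
  constructor
  · omega
  · omega

open Classical in
theorem Q_count [Fintype Z] (C N : ℕ) (lam : Z → ℕ) (hC : ∀ z, 4 * lam z + N + 10 ≤ C)
    (T : ℕ → Equiv.Perm Z)
    (hT : ∀ n, T (n + 1) = T n * T (n + 2)) (ε : ℝ) (hε : 0 ≤ ε)
    (hlam : ∀ n < N + 4, ((univ.filter fun z => lam (T n z) ≤ lam z).card : ℝ) ≤
      ε * Fintype.card Z) :
    ∀ m ≤ N + 3, ((univ.filter fun z => ¬ Q C lam T m z).card : ℝ) ≤ m * (ε * Fintype.card Z) := by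
  intro m
  induction m using Nat.strong_induction_on with
  | _ m ih =>
    intro hm
    have hbase : (∀ z, Q C lam T m z) →
        ((univ.filter fun z => ¬ Q C lam T m z).card : ℝ) ≤ m * (ε * Fintype.card Z) := by
      intro h
      have : (univ.filter fun z => ¬ Q C lam T m z) = ∅ := by
        apply Finset.filter_eq_empty_iff.2
        intro z _
        simp [h z]
      rw [this]
      simp only [card_empty, Nat.cast_zero]
      positivity
    have h2le : ∀ (k : ℕ), k ≤ 2 → ∀ z, (2 : ℤ) ≤ g C lam (k + 1) z := by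
      intro k hk z
      unfold g
      have h8 : (8 : ℤ) ^ 1 ≤ 8 ^ (C - 4 * lam z - (k + 1)) := by
        refine pow_le_pow_right₀ (by norm_num) ?_
        have := hC z
        omega
      linarith
    match m, ih, hm, hbase with
    | 0, _, _, hbase =>
      exact hbase fun z => ⟨by simp [H], by simpa [H] using h2le 0 (by omega) z⟩
    | 1, _, _, hbase =>
      exact hbase fun z => ⟨by simp [H], by simpa [H] using h2le 1 (by omega) z⟩
    | 2, _, _, hbase =>
      exact hbase fun z => ⟨by simp [H], by simpa [H] using h2le 2 (by omega) z⟩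
    | (m + 3), ih, hm, _ =>
      have i1 := ih m (by omega) (by omega)
      have hA := hlam m (by omega)
      have hB := hlam (m + 2) (by omega)
      -- transport by the permutation
      have e1 : (univ.filter fun z => ¬ Q C lam T (m + 3) z).card =
          (univ.filter fun z => ¬ Q C lam T (m + 3) ((T (m + 2)).symm z)).card := by
        refine Finset.card_bij (fun z _ => T (m + 2) z) ?_ ?_ ?_
        · intro z hz; simpa using hz
        · intro a _ b _ h; exact (T (m + 2)).injective h
        · intro b hb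
          exact ⟨(T (m + 2)).symm b, by simpa using hb, by simp⟩
      have e2 : (univ.filter fun z => lam (T (m + 2) z) ≤ lam z).card =
          (univ.filter fun z => lam z ≤ lam ((T (m + 2)).symm z)).card := by
        refine Finset.card_bij (fun z _ => T (m + 2) z) ?_ ?_ ?_
        · intro z hz; simpa using hz
        · intro a _ b _ h; exact (T (m + 2)).injective h
        · intro b hb
          exact ⟨(T (m + 2)).symm b, by simpa using hb, by simp⟩
      have hsub : (univ.filter fun z => ¬ Q C lam T (m + 3) ((T (m + 2)).symm z)) ⊆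
          (univ.filter fun z => ¬ Q C lam T m z) ∪
            ((univ.filter fun z => lam (T m z) ≤ lam z) ∪
              (univ.filter fun z => lam z ≤ lam ((T (m + 2)).symm z))) := by
        intro z hz
        simp only [mem_filter, mem_univ, true_and, mem_union] at hz ⊢
        by_contra hcon
        push Not at hcon
        obtain ⟨c1, c2, c3⟩ := hcon
        exact hz (Q_step C N lam hC T hT m (by omega) z c1 c2 c3)
      have hcard := (Finset.card_le_card hsub).trans (Finset.card_union_le _ _)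
      have hcard2 := Finset.card_union_le (univ.filter fun z => lam (T m z) ≤ lam z)
        (univ.filter fun z => lam z ≤ lam ((T (m + 2)).symm z))
      have hfin : ((univ.filter fun z => ¬ Q C lam T (m + 3) z).card : ℝ) ≤
          ((univ.filter fun z => ¬ Q C lam T m z).card : ℝ) +
          (((univ.filter fun z => lam (T m z) ≤ lam z).card : ℝ) +
            ((univ.filter fun z => lam (T (m + 2) z) ≤ lam z).card : ℝ)) := by
        rw [e1, e2]
        exact_mod_cast hcard.trans (Nat.add_le_add_left hcard2 _)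
      have hpos : 0 ≤ ε * (Fintype.card Z : ℝ) := by positivity
      push_cast
      nlinarith

/-- Number of residues close to the end. -/
theorem card_end (Θ : ℕ) [NeZero Θ] (w : ℕ) :
    (univ.filter fun s : ZMod Θ => ¬ (s.val + w < Θ)).card ≤ w := by
  have h : (univ.filter fun s : ZMod Θ => ¬ (s.val + w < Θ)).card ≤
      (Finset.Ico (Θ - w) Θ).card := by
    refine Finset.card_le_card_of_injOn (fun s => s.val) ?_ ?_
    · intro s hs
      simp only [coe_filter, mem_univ, true_and, Set.mem_ofPred_eq] at hs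
      simp only [coe_Ico, Set.mem_Ico]
      have := ZMod.val_lt s
      omega
    · intro a _ b _ hab
      exact ZMod.val_injective Θ hab
  refine h.trans ?_
  rw [Nat.card_Ico]
  omega

theorem val_add_int {Θ : ℕ} [NeZero Θ] (s : ZMod Θ) (a : ℤ) (ha : 0 ≤ a)
    (h : (s.val : ℤ) + a < Θ) : ((s + (a : ZMod Θ)).val : ℤ) = s.val + a := by
  obtain ⟨k, rfl⟩ := Int.eq_ofNat_of_zero_le ha
  have hk : s.val + k < Θ := by exact_mod_cast h
  have e : s + ((k : ℤ) : ZMod Θ) = ((s.val + k : ℕ) : ZMod Θ) := by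
    push_cast
    rw [ZMod.natCast_val, ZMod.cast_id', id]
  rw [e, ZMod.val_natCast, Nat.mod_eq_of_lt hk]
  push_cast
  rfl

end Rotor1

open Rotor1 in
open Classical in
theorem rotor1 (N : ℕ) (ε : ℝ) (hε : 0 < ε) :
    ∃ (U : Type) (_ : Fintype U) (_ : Nonempty U) (ρ S : ℕ → Equiv.Perm U) (t : U → ℕ),
      (∀ n, ρ (n + 4) * ρ (n + 2) * ρ n = S (n + 3) * S n) ∧
      ∀ n < N, ((univ.filter fun x => ¬ (t x < t (S n x) ∧ t (S n x) < t (ρ n x))).card : ℝ)
        ≤ ε * Fintype.card U := by
  have hden : (0 : ℝ) < 2 * (2 * N + 3) := by positivity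
  obtain ⟨Z, iF, iN, T, lam, hT, hlam⟩ := lamp (N + 4) (ε / (2 * (2 * N + 3))) (by positivity)
  set ε' : ℝ := ε / (2 * (2 * N + 3)) with hε'
  have hε'0 : 0 < ε' := by positivity
  obtain ⟨C, hC⟩ : ∃ C : ℕ, ∀ z, 4 * lam z + N + 10 ≤ C := by
    refine ⟨4 * (univ.sup lam) + N + 10, fun z => ?_⟩
    have : lam z ≤ univ.sup lam := Finset.le_sup (Finset.mem_univ z)
    omega
  obtain ⟨Θ₀, hΘ₀⟩ := exists_nat_gt ((8 : ℝ) ^ C * 2 / ε)
  set Θ : ℕ := Θ₀ + 1 with hΘ
  have hΘ1 : (8 : ℝ) ^ C ≤ ε / 2 * Θ := by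
    have : (8 : ℝ) ^ C * 2 / ε < Θ := by
      rw [hΘ]; push_cast; linarith
    rw [div_lt_iff₀ hε] at this
    linarith
  have : NeZero Θ := ⟨by omega⟩
  refine ⟨Z × ZMod Θ, inferInstance, inferInstance,
    fun m => shear (T (m + 1)).symm (g C lam (m + 1)),
    fun m => shear (T (m + 2)).symm (E C lam T m), fun x => x.2.val, ?_, ?_⟩
  · intro m
    ext1 x
    obtain ⟨z, s⟩ := x
    simp only [Equiv.Perm.coe_mul, Function.comp_apply, shear, Equiv.coe_fn_mk]
    have e1 : (T (m + 3)).symm ((T (m + 1)).symm z) = (T (m + 2)).symm z := by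
      have := hT (m + 1)
      rw [show m + 1 + 1 = m + 2 by omega, show m + 1 + 2 = m + 3 by omega] at this
      rw [Equiv.symm_apply_eq, Equiv.symm_apply_eq]
      have h2 : (T (m + 1) * T (m + 3)) ((T (m + 2)).symm z) = z := by rw [← this]; simp
      exact h2.symm
    have e2 := key C lam T hT m z
    have i1 : m + 2 + 1 = m + 3 := by omega
    have i2 : m + 4 + 1 = m + 5 := by omega
    simp only [i1, i2, e1]
    refine Prod.ext rfl ?_
    show s + (g C lam (m + 1) z : ZMod Θ) + (g C lam (m + 3) ((T (m + 1)).symm z) : ZMod Θ) +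
      (g C lam (m + 5) ((T (m + 2)).symm z) : ZMod Θ) =
      s + (E C lam T m z : ZMod Θ) + (E C lam T (m + 3) ((T (m + 2)).symm z) : ZMod Θ)
    have e3 : ((E C lam T m z + E C lam T (m + 3) ((T (m + 2)).symm z) : ℤ) : ZMod Θ) =
      ((g C lam (m + 1) z + g C lam (m + 3) ((T (m + 1)).symm z) +
        g C lam (m + 5) ((T (m + 2)).symm z) : ℤ) : ZMod Θ) := by rw [e2]
    push_cast at e3
    rw [add_assoc s (E C lam T m z : ZMod Θ), e3]
    ring
  · intro n hn
    have hcount := Q_count C N lam hC T hT ε' hε'0.le hlam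
    have c1 := hcount n (by omega)
    have c2 := hcount (n + 3) (by omega)
    -- bad set of z
    have e1 : (univ.filter fun z => ¬ Q C lam T (n + 3) z).card =
        (univ.filter fun z => ¬ Q C lam T (n + 3) ((T (n + 2)).symm z)).card := by
      refine Finset.card_bij (fun z _ => T (n + 2) z) ?_ ?_ ?_
      · intro z hz; simpa using hz
      · intro a _ b _ h; exact (T (n + 2)).injective h
      · intro b hb
        exact ⟨(T (n + 2)).symm b, by simpa using hb, by simp⟩
    set B : Finset Z := (univ.filter fun z => ¬ Q C lam T n z) ∪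
      (univ.filter fun z => ¬ Q C lam T (n + 3) ((T (n + 2)).symm z)) with hB
    have hBcard : (B.card : ℝ) ≤ (2 * N + 3) * (ε' * Fintype.card Z) := by
      have h1 : (B.card : ℝ) ≤ ((univ.filter fun z => ¬ Q C lam T n z).card : ℝ) +
          ((univ.filter fun z => ¬ Q C lam T (n + 3) ((T (n + 2)).symm z)).card : ℝ) := by
        exact_mod_cast Finset.card_union_le _ _
      rw [← e1] at h1
      have h2 : (n : ℝ) ≤ N := by exact_mod_cast hn.le
      have h3 : 0 ≤ ε' * (Fintype.card Z : ℝ) := by positivity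
      push_cast at c2
      nlinarith
    set D : Finset (ZMod Θ) := univ.filter fun s : ZMod Θ => ¬ (s.val + 8 ^ C < Θ) with hD
    have hDcard : (D.card : ℝ) ≤ 8 ^ C := by
      have := card_end Θ (8 ^ C)
      exact_mod_cast this
    have hsub : (univ.filter fun x : Z × ZMod Θ => ¬ (x.2.val <
        ((shear (T (n + 2)).symm (E C lam T n) : Equiv.Perm (Z × ZMod Θ)) x).2.val ∧
        ((shear (T (n + 2)).symm (E C lam T n) : Equiv.Perm (Z × ZMod Θ)) x).2.val <
        ((shear (T (n + 1)).symm (g C lam (n + 1)) : Equiv.Perm (Z × ZMod Θ)) x).2.val)) ⊆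
        (B ×ˢ (univ : Finset (ZMod Θ))) ∪ ((univ : Finset Z) ×ˢ D) := by
      intro x hx
      obtain ⟨z, s⟩ := x
      simp only [mem_filter, mem_univ, true_and] at hx
      simp only [mem_union, mem_product, mem_univ, and_true, true_and]
      by_contra hcon
      rw [not_or] at hcon
      obtain ⟨hz, hs⟩ := hcon
      apply hx
      rw [hB] at hz
      simp only [mem_union, mem_filter, mem_univ, true_and, not_or, not_not] at hz
      rw [hD] at hs
      simp only [mem_filter, mem_univ, true_and, not_not] at hs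
      obtain ⟨q1, q2⟩ := hz
      have hE1 : 0 < E C lam T n z := by
        unfold E
        have := q1.1
        have := g_pos C lam n (T n z)
        have := g_pos C lam (n + 2) z
        omega
      have hE2 : E C lam T n z < g C lam (n + 1) z := by
        have h3 := q2.1
        rw [H_succ C lam T hT] at h3
        unfold E
        linarith
      have hg := g_le C lam (n + 1) z
      have hs' : (s.val : ℤ) + 8 ^ C < Θ := by exact_mod_cast hs
      have v1 := val_add_int s (E C lam T n z) hE1.le (by linarith)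
      have v2 := val_add_int s (g C lam (n + 1) z) (by linarith) (by linarith)
      simp only [shear, Equiv.coe_fn_mk]
      constructor
      · zify
        rw [v1]
        linarith
      · zify
        rw [v1, v2]
        linarith
    have h1 := Finset.card_le_card hsub
    have h2 := h1.trans (Finset.card_union_le _ _)
    rw [Finset.card_product, Finset.card_product, Finset.card_univ, Finset.card_univ,
      ZMod.card] at h2
    have h3 : ((univ.filter fun x : Z × ZMod Θ => ¬ (x.2.val <
        ((shear (T (n + 2)).symm (E C lam T n) : Equiv.Perm (Z × ZMod Θ)) x).2.val ∧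
        ((shear (T (n + 2)).symm (E C lam T n) : Equiv.Perm (Z × ZMod Θ)) x).2.val <
        ((shear (T (n + 1)).symm (g C lam (n + 1)) : Equiv.Perm (Z × ZMod Θ)) x).2.val)).card : ℝ) ≤
        B.card * Θ + Fintype.card Z * D.card := by
      exact_mod_cast h2
    refine h3.trans ?_
    rw [Fintype.card_prod, ZMod.card]
    push_cast
    have hZ : (0 : ℝ) ≤ Fintype.card Z := by positivity
    have hΘr : (0 : ℝ) ≤ Θ := by positivity
    have k1 : (B.card : ℝ) * Θ ≤ (2 * N + 3) * (ε' * Fintype.card Z) * Θ :=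
      mul_le_mul_of_nonneg_right hBcard hΘr
    have k2 : (Fintype.card Z : ℝ) * D.card ≤ Fintype.card Z * (ε / 2 * Θ) :=
      mul_le_mul_of_nonneg_left (hDcard.trans hΘ1) hZ
    have k3 : (2 * (N : ℝ) + 3) * ε' = ε / 2 := by
      rw [hε']
      field_simp
    calc (B.card : ℝ) * Θ + Fintype.card Z * D.card
        ≤ (2 * N + 3) * (ε' * Fintype.card Z) * Θ + Fintype.card Z * (ε / 2 * Θ) :=
          add_le_add k1 k2
      _ = ((2 * (N : ℝ) + 3) * ε') * Fintype.card Z * Θ + Fintype.card Z * (ε / 2 * Θ) := by ring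
      _ = ε * (Fintype.card Z * Θ) := by rw [k3]; ring

end P125
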