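import Vale.Agent.Lib.P125.Tree

/-!
# P125, module SPLIT: big steps and blocks of small steps

`t` has `∑ ‖d‖^r ≤ 1` along every branch.  A step is small if `‖d‖^r ≤ 1/n`.
`S` = running sum of `‖d‖^r` over the small steps, this step included.
Tree `s`: same shape; a small step keeps `d` and gets the label `⌈n S⌉₊ - 1` (natural number
subtraction); a big step gets `d = 0` and the label `⌈n S⌉₊ - 1` of the current `S`.
Labels are nondecreasing, and `< n` as `S ≤ 1`, `n ≥ 1`.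
Tree `u` for the label `i`: same shape, steps of `s` with label `≠ i` replaced by `0`.
The steps with label `i` have `S ∈ ((i-1)..]`: precisely `n S ≤ i + 1` and (`i < n S` or `i = 0`),
so along a branch their `‖d‖^r` add up to at most
`(i+1)/n - (S before the first one) ≤ (i+1)/n - (i/n - 1/n) = 2/n`.
First inequality: `‖∑ big steps‖ ≤ 2` pointwise: for a big step
`‖d‖ = ‖d‖^r ‖d‖^(1-r) ≤ ‖d‖^r n^((r-1)/r) ≤ 2 ‖d‖^r` (as `1 - 1/r = (r-1)/r`).
Then Minkowski: relabel `t` with `0` for big steps and `1` for small ones and use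
`ev_minkowski` with the coefficient functions `(1,0,..)` and `(0,1,..)`.
-/

open Finset

set_option linter.unusedSectionVars false

namespace P125

namespace Split

variable {X : Type*} [NormedAddCommGroup X]

/-- the tree of the small steps, with labels -/
noncomputable def sTree (n : ℕ) (r : ℝ) : LTree X → ℝ → LTree X
  | LTree.leaf, _ => LTree.leaf
  | LTree.node d _ l r', S =>
    if ‖d‖ ^ r ≤ 1 / (n : ℝ) then
      LTree.node d (⌈(n : ℝ) * (S + ‖d‖ ^ r)⌉₊ - 1) (sTree n r l (S + ‖d‖ ^ r))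
        (sTree n r r' (S + ‖d‖ ^ r))
    else LTree.node 0 (⌈(n : ℝ) * S⌉₊ - 1) (sTree n r l S) (sTree n r r' S)

/-- the tree of the small steps with label `i` -/
noncomputable def uTree (n : ℕ) (r : ℝ) (i : ℕ) : LTree X → ℝ → LTree X
  | LTree.leaf, _ => LTree.leaf
  | LTree.node d _ l r', S =>
    if ‖d‖ ^ r ≤ 1 / (n : ℝ) then
      LTree.node (if ⌈(n : ℝ) * (S + ‖d‖ ^ r)⌉₊ - 1 = i then d else 0) 0
        (uTree n r i l (S + ‖d‖ ^ r)) (uTree n r i r' (S + ‖d‖ ^ r))
    else LTree.node 0 0 (uTree n r i l S) (uTree n r i r' S)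

/-- relabelling: `0` for big steps, `1` for small ones -/
noncomputable def bTree (n : ℕ) (r : ℝ) : LTree X → LTree X
  | LTree.leaf => LTree.leaf
  | LTree.node d _ l r' =>
    LTree.node d (if ‖d‖ ^ r ≤ 1 / (n : ℝ) then 1 else 0) (bTree n r l) (bTree n r r')

theorem pow_nn (d : X) (r : ℝ) : 0 ≤ ‖d‖ ^ r := Real.rpow_nonneg (norm_nonneg _) _

theorem bud_nonneg {r : ℝ} (t : LTree X) : ∀ σ : ℝ, t.bud r σ → 0 ≤ σ := by
  induction t with
  | leaf => intro σ h; exact h
  | node d i l r' ihl _ =>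
    intro σ h
    have := ihl _ h.1
    have := pow_nn d r
    linarith

theorem bud_mono {r : ℝ} (t : LTree X) : ∀ σ σ' : ℝ, σ ≤ σ' → t.bud r σ → t.bud r σ' := by
  induction t with
  | leaf => intro σ σ' h h1; exact le_trans h1 h
  | node d i l r' ihl ihr =>
    intro σ σ' h h1
    exact ⟨ihl _ _ (by linarith) h1.1, ihr _ _ (by linarith) h1.2⟩

theorem lab_mono (t : LTree X) (m m' : ℕ) (h : m ≤ m') (h1 : t.lab m') : t.lab m := by
  cases t with
  | leaf => trivial
  | node d i l r' => exact ⟨h.trans h1.1, h1.2.1, h1.2.2⟩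

theorem s_lab (n : ℕ) (r : ℝ) (t : LTree X) :
    ∀ S : ℝ, (sTree n r t S).lab (⌈(n : ℝ) * S⌉₊ - 1) := by
  induction t with
  | leaf => intro S; trivial
  | node d i l r' ihl ihr =>
    intro S
    by_cases h : ‖d‖ ^ r ≤ 1 / (n : ℝ)
    · simp only [sTree, if_pos h]
      refine ⟨?_, ihl _, ihr _⟩
      refine Nat.sub_le_sub_right (Nat.ceil_mono ?_) 1
      exact mul_le_mul_of_nonneg_left (by linarith [pow_nn d r]) (Nat.cast_nonneg n)
    · simp only [sTree, if_neg h]
      exact ⟨le_rfl, ihl _, ihr _⟩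

theorem u_depth (n : ℕ) (r : ℝ) (i : ℕ) (t : LTree X) :
    ∀ S : ℝ, (uTree n r i t S).depth = t.depth := by
  induction t with
  | leaf => intro S; rfl
  | node d j l r' ihl ihr =>
    intro S
    by_cases h : ‖d‖ ^ r ≤ 1 / (n : ℝ)
    · simp only [uTree, if_pos h, LTree.depth, ihl, ihr]
    · simp only [uTree, if_neg h, LTree.depth, ihl, ihr]

/-- the remaining budget of the label `i` -/
noncomputable def B (n i : ℕ) (S : ℝ) : ℝ := min (2 / (n : ℝ)) (max 0 (((i : ℝ) + 1) / n - S))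

theorem B_nonneg (n i : ℕ) (S : ℝ) : 0 ≤ B n i S := by
  unfold B
  exact le_min (by positivity) (le_max_left _ _)

theorem B_anti (n i : ℕ) {S S' : ℝ} (h : S ≤ S') : B n i S' ≤ B n i S := by
  unfold B
  exact min_le_min le_rfl (max_le_max le_rfl (by linarith))

theorem u_bud (n : ℕ) (hn : 1 ≤ n) {r : ℝ} (hr : 1 < r) (i : ℕ) (t : LTree X) :
    ∀ S : ℝ, 0 ≤ S → (uTree n r i t S).bud r (B n i S) := by
  induction t with
  | leaf => intro S _; exact B_nonneg n i S
  | node d j l r' ihl ihr =>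
    intro S hS
    have hd := pow_nn d r
    have hn0 : (0 : ℝ) < n := by exact_mod_cast hn
    have h0 : ‖(0 : X)‖ ^ r = 0 := by
      rw [norm_zero]
      exact Real.zero_rpow (by linarith)
    by_cases h : ‖d‖ ^ r ≤ 1 / (n : ℝ)
    · simp only [uTree, if_pos h]
      by_cases hi : ⌈(n : ℝ) * (S + ‖d‖ ^ r)⌉₊ - 1 = i
      · simp only [if_pos hi]
        have h1 : (n : ℝ) * (S + ‖d‖ ^ r) ≤ i + 1 := by
          have : ⌈(n : ℝ) * (S + ‖d‖ ^ r)⌉₊ ≤ i + 1 := by omega
          have h2 := Nat.ceil_le.1 this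
          push_cast at h2
          exact h2
        have h2 : (i : ℝ) ≤ (n : ℝ) * (S + ‖d‖ ^ r) := by
          rcases Nat.eq_zero_or_pos i with h3 | h3
          · subst h3
            simp only [Nat.cast_zero]
            positivity
          · have h4 : i < ⌈(n : ℝ) * (S + ‖d‖ ^ r)⌉₊ := by omega
            exact (Nat.lt_ceil.1 h4).le
        have h3 : ((i : ℝ) + 1) / n - (S + ‖d‖ ^ r) ≤ 1 / n := by
          rw [sub_le_iff_le_add, div_add' _ _ _ hn0.ne', div_le_div_iff_of_pos_right hn0]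
          linarith
        have h4 : 0 ≤ ((i : ℝ) + 1) / n - (S + ‖d‖ ^ r) := by
          rw [sub_nonneg, le_div_iff₀ hn0]
          linarith
        have h5 : (2 : ℝ) / n = 1 / n + 1 / n := by ring
        have h6 : B n i (S + ‖d‖ ^ r) ≤ B n i S - ‖d‖ ^ r := by
          unfold B
          rw [max_eq_right h4, max_eq_right (by linarith),
            min_eq_right (by rw [h5]; have := hd; linarith),
            min_eq_right (by rw [h5]; linarith)]
          linarith
        exact ⟨bud_mono _ _ _ h6 (ihl _ (by positivity)), bud_mono _ _ _ h6 (ihr _ (by positivity))⟩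
      · simp only [if_neg hi]
        have h6 : B n i (S + ‖d‖ ^ r) ≤ B n i S - ‖(0 : X)‖ ^ r := by
          rw [h0, sub_zero]
          exact B_anti n i (by linarith)
        exact ⟨bud_mono _ _ _ h6 (ihl _ (by positivity)), bud_mono _ _ _ h6 (ihr _ (by positivity))⟩
    · simp only [uTree, if_neg h]
      have h6 : B n i S ≤ B n i S - ‖(0 : X)‖ ^ r := by
        rw [h0, sub_zero]
      exact ⟨bud_mono _ _ _ h6 (ihl _ hS), bud_mono _ _ _ h6 (ihr _ hS)⟩

variable [NormedSpace ℝ X]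

theorem s_ev_u (n : ℕ) (r : ℝ) (i : ℕ) (p : ℝ) (t : LTree X) :
    ∀ (S : ℝ) (y : X), (sTree n r t S).ev p y (fun j => if j = i then 1 else 0) =
      (uTree n r i t S).ev p y (fun _ => 1) := by
  induction t with
  | leaf => intro S y; rfl
  | node d j l r' ihl ihr =>
    intro S y
    by_cases h : ‖d‖ ^ r ≤ 1 / (n : ℝ)
    · by_cases hi : ⌈(n : ℝ) * (S + ‖d‖ ^ r)⌉₊ - 1 = i
      · simp only [sTree, uTree, if_pos h, LTree.ev, if_pos hi, ihl, ihr]
      · simp only [sTree, uTree, if_pos h, LTree.ev, if_neg hi, ihl, ihr, zero_smul, smul_zero]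
    · simp only [sTree, uTree, if_neg h, LTree.ev, ihl, ihr, smul_zero]

theorem b_ev (n : ℕ) (r : ℝ) (p : ℝ) (t : LTree X) :
    ∀ y : X, (bTree n r t).ev p y (fun _ => 1) = t.ev p y (fun _ => 1) := by
  induction t with
  | leaf => intro y; rfl
  | node d j l r' ihl ihr =>
    intro y
    simp only [bTree, LTree.ev, ihl, ihr]

theorem b_ev_s (n : ℕ) (hn : 1 ≤ n) (r : ℝ) (p : ℝ) (t : LTree X) :
    ∀ (S : ℝ) (y : X), t.bud r (1 - S) →
      (bTree n r t).ev p y (fun i => if i = 0 then 0 else 1) =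
        (sTree n r t S).ev p y (fun i => if i < n then 1 else 0) := by
  induction t with
  | leaf => intro S y _; rfl
  | node d j l r' ihl ihr =>
    intro S y hb
    have hn0 : (0 : ℝ) < n := by exact_mod_cast hn
    have hd := pow_nn d r
    by_cases h : ‖d‖ ^ r ≤ 1 / (n : ℝ)
    · have hS : 0 ≤ 1 - S - ‖d‖ ^ r := bud_nonneg _ _ hb.1
      have h1 : (n : ℝ) * (S + ‖d‖ ^ r) ≤ n := by nlinarith
      have h2 : ⌈(n : ℝ) * (S + ‖d‖ ^ r)⌉₊ - 1 < n := by
        have : ⌈(n : ℝ) * (S + ‖d‖ ^ r)⌉₊ ≤ n := Nat.ceil_le.2 h1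
        omega
      have e1 : 1 - S - ‖d‖ ^ r = 1 - (S + ‖d‖ ^ r) := by ring
      have hl := hb.1
      have hr := hb.2
      rw [e1] at hl hr
      simp only [bTree, sTree, if_pos h, LTree.ev, if_pos h2, one_ne_zero, if_false,
        ihl _ _ hl, ihr _ _ hr]
    · have hl := bud_mono _ _ (1 - S) (by linarith) hb.1
      have hr := bud_mono _ _ (1 - S) (by linarith) hb.2
      simp only [bTree, sTree, if_neg h, LTree.ev, if_true, zero_smul, add_zero, sub_zero,
        smul_zero, ihl _ _ hl, ihr _ _ hr]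

theorem big_step (n : ℕ) (hn : 1 ≤ n) {r : ℝ} (hr : 1 < r) (hnr : (n : ℝ) ^ (1 - 1 / r) ≤ 2)
    (d : X) (h : ¬ ‖d‖ ^ r ≤ 1 / (n : ℝ)) : ‖d‖ ≤ 2 * ‖d‖ ^ r := by
  have hn0 : (0 : ℝ) < n := by exact_mod_cast hn
  push Not at h
  have hx : 0 < ‖d‖ ^ r := lt_trans (by positivity) h
  have hd : 0 < ‖d‖ := by
    rcases (norm_nonneg d).eq_or_lt with h0 | h0
    · rw [← h0, Real.zero_rpow (by linarith)] at hx
      exact absurd hx (lt_irrefl _)
    · exact h0
  have hr0 : 0 < r := by linarith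
  -- ‖d‖ = x^(1/r) with x = ‖d‖^r
  have e1 : ‖d‖ = (‖d‖ ^ r) ^ (1 / r) := by
    rw [← Real.rpow_mul hd.le, mul_one_div_cancel hr0.ne', Real.rpow_one]
  have e2 : (‖d‖ ^ r) ^ (1 / r) = (‖d‖ ^ r) ^ (1 / r - 1) * ‖d‖ ^ r := by
    rw [← Real.rpow_add_one hx.ne']
    congr 1
    ring
  have h3 : (‖d‖ ^ r) ^ (1 / r - 1) ≤ (1 / (n : ℝ)) ^ (1 / r - 1) := by
    refine Real.rpow_le_rpow_of_nonpos (by positivity) h.le ?_
    rw [sub_nonpos, div_le_one hr0]
    exact hr.le
  have h4 : (1 / (n : ℝ)) ^ (1 / r - 1) = (n : ℝ) ^ (1 - 1 / r) := by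
    rw [one_div (n : ℝ), Real.inv_rpow hn0.le, ← Real.rpow_neg hn0.le]
    congr 1
    ring
  calc ‖d‖ = (‖d‖ ^ r) ^ (1 / r - 1) * ‖d‖ ^ r := by rw [← e2, ← e1]
    _ ≤ 2 * ‖d‖ ^ r := by
      refine mul_le_mul_of_nonneg_right ?_ hx.le
      exact h3.trans (h4.trans_le hnr)

theorem b_big (n : ℕ) (hn : 1 ≤ n) {r : ℝ} (hr : 1 < r) (hnr : (n : ℝ) ^ (1 - 1 / r) ≤ 2)
    {p : ℝ} (hp : 1 ≤ p) (t : LTree X) :
    ∀ (σ : ℝ) (y : X), t.bud r σ →
      (bTree n r t).ev p y (fun i => if i = 0 then 1 else 0) ≤ (‖y‖ + 2 * σ) ^ p := by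
  induction t with
  | leaf =>
    intro σ y hb
    have hσ : 0 ≤ σ := hb
    simp only [bTree, LTree.ev]
    exact Real.rpow_le_rpow (norm_nonneg _) (by linarith) (by linarith)
  | node d j l r' ihl ihr =>
    intro σ y hb
    have hd := pow_nn d r
    have hl0 := bud_nonneg _ _ hb.1
    by_cases h : ‖d‖ ^ r ≤ 1 / (n : ℝ)
    · have h1 := ihl _ y hb.1
      have h2 := ihr _ y hb.2
      have h3 : (‖y‖ + 2 * (σ - ‖d‖ ^ r)) ^ p ≤ (‖y‖ + 2 * σ) ^ p :=
        Real.rpow_le_rpow (by linarith [norm_nonneg y]) (by linarith) (by linarith)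
      simp only [bTree, if_pos h, LTree.ev, one_ne_zero, if_false, zero_smul, add_zero, sub_zero]
      linarith
    · have hbig := big_step n hn hr hnr d h
      have h1 := ihl _ (y + d) hb.1
      have h2 := ihr _ (y - d) hb.2
      have h3 : (‖y + d‖ + 2 * (σ - ‖d‖ ^ r)) ^ p ≤ (‖y‖ + 2 * σ) ^ p :=
        Real.rpow_le_rpow (by linarith [norm_nonneg (y + d)])
          (by linarith [norm_add_le y d]) (by linarith)
      have h4 : (‖y - d‖ + 2 * (σ - ‖d‖ ^ r)) ^ p ≤ (‖y‖ + 2 * σ) ^ p :=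
        Real.rpow_le_rpow (by linarith [norm_nonneg (y - d)])
          (by linarith [norm_sub_le y d]) (by linarith)
      simp only [bTree, if_neg h, LTree.ev, if_true, one_smul]
      linarith

end Split

theorem tree_split {X : Type*} [NormedAddCommGroup X] [NormedSpace ℝ X] (n : ℕ) (hn : 1 ≤ n)
    {r : ℝ} (hr : 1 < r) (hnr : (n : ℝ) ^ (1 - 1 / r) ≤ 2) (t : LTree X) (ht : t.bud r 1) :
    ∃ s : LTree X, s.lab 0 ∧
      (∀ p : ℝ, 1 ≤ p → (t.ev p 0 (fun _ => 1)) ^ (1 / p) ≤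
        2 + (s.ev p 0 (fun i => if i < n then 1 else 0)) ^ (1 / p)) ∧
      ∀ i : ℕ, ∃ u : LTree X, u.depth = t.depth ∧ u.bud r (2 / n) ∧
        ∀ p : ℝ, s.ev p 0 (fun j => if j = i then 1 else 0) = u.ev p 0 (fun _ => 1) := by
  refine ⟨Split.sTree n r t 0, ?_, ?_, ?_⟩
  · exact Split.lab_mono _ _ _ (Nat.zero_le _) (Split.s_lab n r t 0)
  · intro p hp
    have hmin := ev_minkowski hp (Split.bTree n r t) 0 0
      (fun i => if i = 0 then 1 else 0) (fun i => if i = 0 then 0 else 1)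
    have e1 : ((fun i : ℕ => if i = 0 then (1 : ℝ) else 0) + fun i : ℕ => if i = 0 then 0 else 1) =
        fun _ => 1 := by
      funext i
      by_cases h : i = 0
      · simp [h]
      · simp [h]
    rw [e1, add_zero, Split.b_ev, Split.b_ev_s n hn r p t 0 0 (by rw [sub_zero]; exact ht)] at hmin
    refine hmin.trans ?_
    have hb := Split.b_big n hn hr hnr hp t 1 0 ht
    have h0 : 0 ≤ (Split.bTree n r t).ev p 0 (fun i => if i = 0 then 1 else 0) := ev_nonneg _ _ _
    have h2 : ((Split.bTree n r t).ev p 0 (fun i => if i = 0 then 1 else 0)) ^ (1 / p) ≤ 2 := by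
      calc _ ≤ ((‖(0 : X)‖ + 2 * 1) ^ p) ^ (1 / p) :=
            Real.rpow_le_rpow h0 hb (by positivity)
        _ = 2 := by
            rw [norm_zero, ← Real.rpow_mul (by norm_num),
              mul_one_div_cancel (by linarith), Real.rpow_one]
            norm_num
    linarith
  · intro i
    refine ⟨Split.uTree n r i t 0, Split.u_depth n r i t 0, ?_, fun p => Split.s_ev_u n r i p t 0 0⟩
    exact Split.bud_mono _ _ _ (min_le_left _ _) (Split.u_bud n hn hr i t 0 le_rfl)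

end P125
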