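import Vale.Agent.Lib.P125.ULim

/-!
# P125, module TREE: dyadic martingales as labelled binary trees

`tree_seminorm`: by induction on `t` prove Minkowski:
`(ev p t (y + y') (a + a'))^(1/p) ≤ (ev p t y a)^(1/p) + (ev p t y' a')^(1/p)`; at a node use
Minkowski for two terms (`Real.Lp_add_le` on `Finset (Fin 2)` or `Bool`), homogeneity
`ev p t (x • y) (x • a) = |x|^p ev p t y a`, `0 ≤ ev`.
(`tree_MT`, `tree_mono` are in `Tree2.lean`.)
-/

open Finset

namespace P125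

theorem ev_nonneg {X : Type*} [NormedAddCommGroup X] [NormedSpace ℝ X] {p : ℝ}
    (t : LTree X) (y : X) (a : ℕ → ℝ) : 0 ≤ t.ev p y a := by
  induction t generalizing y with
  | leaf => exact Real.rpow_nonneg (norm_nonneg _) _
  | node d i l r ihl ihr =>
    have h1 := ihl (y + a i • d)
    have h2 := ihr (y - a i • d)
    show 0 ≤ (l.ev p (y + a i • d) a + r.ev p (y - a i • d) a) / 2
    positivity

/-- convexity of `x ^ p` at the midpoint -/
theorem Tree_mid {p : ℝ} (hp : 1 ≤ p) {u v : ℝ} (hu : 0 ≤ u) (hv : 0 ≤ v) :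
    ((u + v) / 2) ^ p ≤ (u ^ p + v ^ p) / 2 := by
  have h := (convexOn_rpow hp).2 (Set.mem_Ici.mpr hu) (Set.mem_Ici.mpr hv)
    (show (0 : ℝ) ≤ 1 / 2 by norm_num) (show (0 : ℝ) ≤ 1 / 2 by norm_num) (by norm_num)
  simp only [smul_eq_mul] at h
  have e1 : (u + v) / 2 = 1 / 2 * u + 1 / 2 * v := by ring
  rw [e1]
  linarith

/-- Jensen: `‖y‖ ^ p ≤ E ‖y + m‖ ^ p`. -/
theorem norm_le_ev {X : Type*} [NormedAddCommGroup X] [NormedSpace ℝ X] {p : ℝ} (hp : 1 ≤ p)
    (t : LTree X) (y : X) (a : ℕ → ℝ) : ‖y‖ ^ p ≤ t.ev p y a := by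
  induction t generalizing y with
  | leaf => exact le_rfl
  | node d i l r ihl ihr =>
    have h1 := ihl (y + a i • d)
    have h2 := ihr (y - a i • d)
    show ‖y‖ ^ p ≤ (l.ev p (y + a i • d) a + r.ev p (y - a i • d) a) / 2
    have h3 : ‖y‖ ≤ (‖y + a i • d‖ + ‖y - a i • d‖) / 2 := by
      have h4 := norm_add_le (y + a i • d) (y - a i • d)
      have h5 : (y + a i • d) + (y - a i • d) = (2 : ℝ) • y := by
        rw [two_smul]; abel
      rw [h5, norm_smul, Real.norm_of_nonneg (by norm_num)] at h4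
      linarith
    have h6 := Tree_mid hp (norm_nonneg (y + a i • d)) (norm_nonneg (y - a i • d))
    have h7 : ‖y‖ ^ p ≤ ((‖y + a i • d‖ + ‖y - a i • d‖) / 2) ^ p :=
      Real.rpow_le_rpow (norm_nonneg _) h3 (by linarith)
    linarith

theorem ev_smul {X : Type*} [NormedAddCommGroup X] [NormedSpace ℝ X] {p : ℝ}
    (hp : 1 ≤ p) (t : LTree X) (x : ℝ) (y : X) (a : ℕ → ℝ) :
    t.ev p (x • y) (x • a) = |x| ^ p * t.ev p y a := by
  induction t generalizing y with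
  | leaf =>
    show ‖x • y‖ ^ p = |x| ^ p * ‖y‖ ^ p
    rw [norm_smul, Real.norm_eq_abs, Real.mul_rpow (abs_nonneg _) (norm_nonneg _)]
  | node d i l r ihl ihr =>
    show (l.ev p (x • y + (x • a) i • d) (x • a) + r.ev p (x • y - (x • a) i • d) (x • a)) / 2
      = |x| ^ p * ((l.ev p (y + a i • d) a + r.ev p (y - a i • d) a) / 2)
    have e1 : x • y + (x • a) i • d = x • (y + a i • d) := by
      rw [Pi.smul_apply, smul_eq_mul, smul_add, smul_smul]
    have e2 : x • y - (x • a) i • d = x • (y - a i • d) := by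
      rw [Pi.smul_apply, smul_eq_mul, smul_sub, smul_smul]
    rw [e1, e2, ihl, ihr]
    ring

/-- Minkowski for two terms -/
theorem Tree_mink2 {p : ℝ} (hp : 1 ≤ p) {a b c d : ℝ} (ha : 0 ≤ a) (hb : 0 ≤ b) (hc : 0 ≤ c)
    (hd : 0 ≤ d) : (((a + c) ^ p + (b + d) ^ p) / 2) ^ (1 / p) ≤
      ((a ^ p + b ^ p) / 2) ^ (1 / p) + ((c ^ p + d ^ p) / 2) ^ (1 / p) := by
  have h := Real.Lp_add_le (univ : Finset (Fin 2)) ![a, b] ![c, d] hp
  simp only [Fin.sum_univ_two, Matrix.cons_val_zero, Matrix.cons_val_one] at h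
  rw [abs_of_nonneg ha, abs_of_nonneg hb, abs_of_nonneg hc, abs_of_nonneg hd,
    abs_of_nonneg (add_nonneg ha hc), abs_of_nonneg (add_nonneg hb hd)] at h
  have h1 : ∀ u v : ℝ, 0 ≤ u → 0 ≤ v → ((u ^ p + v ^ p) / 2) ^ (1 / p)
      = (u ^ p + v ^ p) ^ (1 / p) * (1 / 2 : ℝ) ^ (1 / p) := by
    intro u v hu hv
    rw [← Real.mul_rpow (add_nonneg (Real.rpow_nonneg hu _) (Real.rpow_nonneg hv _))
      (by norm_num)]
    congr 1
    ring
  rw [h1 _ _ (add_nonneg ha hc) (add_nonneg hb hd), h1 _ _ ha hb, h1 _ _ hc hd, ← add_mul]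
  exact mul_le_mul_of_nonneg_right h (Real.rpow_nonneg (by norm_num) _)

theorem ev_minkowski {X : Type*} [NormedAddCommGroup X] [NormedSpace ℝ X] {p : ℝ} (hp : 1 ≤ p)
    (t : LTree X) (y y' : X) (a a' : ℕ → ℝ) :
    (t.ev p (y + y') (a + a')) ^ (1 / p) ≤
      (t.ev p y a) ^ (1 / p) + (t.ev p y' a') ^ (1 / p) := by
  have hp0 : p ≠ 0 := by positivity
  have hinv : ∀ u : ℝ, 0 ≤ u → (u ^ (1 / p)) ^ p = u := by
    intro u hu
    rw [← Real.rpow_mul hu, one_div_mul_cancel hp0, Real.rpow_one]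
  have hinv' : ∀ u : ℝ, 0 ≤ u → (u ^ p) ^ (1 / p) = u := by
    intro u hu
    rw [← Real.rpow_mul hu, mul_one_div_cancel hp0, Real.rpow_one]
  induction t generalizing y y' with
  | leaf =>
    show (‖y + y'‖ ^ p) ^ (1 / p) ≤ (‖y‖ ^ p) ^ (1 / p) + (‖y'‖ ^ p) ^ (1 / p)
    rw [hinv' _ (norm_nonneg _), hinv' _ (norm_nonneg _), hinv' _ (norm_nonneg _)]
    exact norm_add_le _ _
  | node d i l r ihl ihr =>
    show ((l.ev p (y + y' + (a + a') i • d) (a + a')
        + r.ev p (y + y' - (a + a') i • d) (a + a')) / 2) ^ (1 / p)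
      ≤ ((l.ev p (y + a i • d) a + r.ev p (y - a i • d) a) / 2) ^ (1 / p)
        + ((l.ev p (y' + a' i • d) a' + r.ev p (y' - a' i • d) a') / 2) ^ (1 / p)
    have e1 : y + y' + (a + a') i • d = (y + a i • d) + (y' + a' i • d) := by
      rw [Pi.add_apply, add_smul]; abel
    have e2 : y + y' - (a + a') i • d = (y - a i • d) + (y' - a' i • d) := by
      rw [Pi.add_apply, add_smul]; abel
    rw [e1, e2]
    have h1 := ihl (y + a i • d) (y' + a' i • d)
    have h2 := ihr (y - a i • d) (y' - a' i • d)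
    set A := (l.ev p (y + a i • d) a) ^ (1 / p) with hA
    set A' := (l.ev p (y' + a' i • d) a') ^ (1 / p) with hA'
    set B := (r.ev p (y - a i • d) a) ^ (1 / p) with hB
    set B' := (r.ev p (y' - a' i • d) a') ^ (1 / p) with hB'
    have hA0 : 0 ≤ A := Real.rpow_nonneg (ev_nonneg _ _ _) _
    have hA0' : 0 ≤ A' := Real.rpow_nonneg (ev_nonneg _ _ _) _
    have hB0 : 0 ≤ B := Real.rpow_nonneg (ev_nonneg _ _ _) _
    have hB0' : 0 ≤ B' := Real.rpow_nonneg (ev_nonneg _ _ _) _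
    have hAp : l.ev p (y + a i • d) a = A ^ p := (hinv _ (ev_nonneg _ _ _)).symm
    have hAp' : l.ev p (y' + a' i • d) a' = A' ^ p := (hinv _ (ev_nonneg _ _ _)).symm
    have hBp : r.ev p (y - a i • d) a = B ^ p := (hinv _ (ev_nonneg _ _ _)).symm
    have hBp' : r.ev p (y' - a' i • d) a' = B' ^ p := (hinv _ (ev_nonneg _ _ _)).symm
    rw [hAp, hAp', hBp, hBp']
    have h3 : l.ev p ((y + a i • d) + (y' + a' i • d)) (a + a') ≤ (A + A') ^ p := by
      rw [← hinv _ (ev_nonneg l ((y + a i • d) + (y' + a' i • d)) (a + a'))]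
      exact Real.rpow_le_rpow (Real.rpow_nonneg (ev_nonneg _ _ _) _) h1 (by linarith)
    have h4 : r.ev p ((y - a i • d) + (y' - a' i • d)) (a + a') ≤ (B + B') ^ p := by
      rw [← hinv _ (ev_nonneg r ((y - a i • d) + (y' - a' i • d)) (a + a'))]
      exact Real.rpow_le_rpow (Real.rpow_nonneg (ev_nonneg _ _ _) _) h2 (by linarith)
    refine le_trans ?_ (Tree_mink2 hp hA0 hB0 hA0' hB0')
    apply Real.rpow_le_rpow
    · have h5 := ev_nonneg (p := p) l ((y + a i • d) + (y' + a' i • d)) (a + a')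
      have h6 := ev_nonneg (p := p) r ((y - a i • d) + (y' - a' i • d)) (a + a')
      positivity
    · linarith
    · positivity

theorem tree_seminorm {X : Type*} [NormedAddCommGroup X] [NormedSpace ℝ X] {p : ℝ} (hp : 1 ≤ p)
    (t : LTree X) : ∃ N : Seminorm ℝ (ℕ →₀ ℝ), ∀ a : ℕ →₀ ℝ, N a = (t.ev p 0 a) ^ (1 / p) := by
  have hp0 : p ≠ 0 := by positivity
  refine ⟨Seminorm.of (fun a : ℕ →₀ ℝ => (t.ev p 0 a) ^ (1 / p)) ?_ ?_, fun a => rfl⟩
  · intro a b
    have h := ev_minkowski hp t 0 0 (a : ℕ → ℝ) (b : ℕ → ℝ)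
    rw [add_zero, ← Finsupp.coe_add] at h
    exact h
  · intro x a
    show (t.ev p 0 (⇑(x • a))) ^ (1 / p) = ‖x‖ * (t.ev p 0 a) ^ (1 / p)
    have h := ev_smul hp t x 0 (a : ℕ → ℝ)
    rw [smul_zero] at h
    rw [Finsupp.coe_smul, h, Real.mul_rpow (Real.rpow_nonneg (abs_nonneg _) _) (ev_nonneg _ _ _),
      ← Real.rpow_mul (abs_nonneg _), mul_one_div_cancel hp0, Real.rpow_one, Real.norm_eq_abs]

end P125
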