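import Vale.Agent.Lib.P125.Basic

/-!
# P125 : limits of bounded real sequences along a free ultrafilter
-/

open Finset Filter Topology

namespace P125

/-- Limit along the hyperfilter. -/
noncomputable def ulim (g : ℕ → ℝ) : ℝ := limUnder (hyperfilter ℕ : Filter ℕ) g

theorem tendsto_ulim {g : ℕ → ℝ} {C : ℝ} (h : ∀ n, |g n| ≤ C) :
    Tendsto g (hyperfilter ℕ : Filter ℕ) (𝓝 (ulim g)) := by
  have hc : IsCompact (Set.Icc (-C) C) := isCompact_Icc
  have hle : ((hyperfilter ℕ).map g : Filter ℝ) ≤ 𝓟 (Set.Icc (-C) C) := by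
    rw [Filter.le_principal_iff]
    apply Filter.mem_map.2
    apply Filter.univ_mem'
    intro n
    exact ⟨(abs_le.1 (h n)).1, (abs_le.1 (h n)).2⟩
  obtain ⟨x, -, hx⟩ := hc.ultrafilter_le_nhds ((hyperfilter ℕ).map g) hle
  have hx' : Tendsto g (hyperfilter ℕ : Filter ℕ) (𝓝 x) := hx
  unfold ulim
  exact tendsto_nhds_limUnder ⟨x, hx'⟩

theorem ulim_eq {g : ℕ → ℝ} {x : ℝ} (h : Tendsto g (hyperfilter ℕ : Filter ℕ) (𝓝 x)) :
    ulim g = x := h.limUnder_eq

theorem ulim_const (x : ℝ) : ulim (fun _ => x) = x := ulim_eq tendsto_const_nhds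

/-- The ultrafilter contains every cofinite set. -/
theorem eventually_ge_hyper (m : ℕ) : ∀ᶠ n in (hyperfilter ℕ : Filter ℕ), m ≤ n := by
  have h : (hyperfilter ℕ : Filter ℕ) ≤ cofinite := hyperfilter_le_cofinite
  apply h
  rw [Nat.cofinite_eq_atTop]
  exact eventually_ge_atTop m

theorem ulim_le_ulim {g g' : ℕ → ℝ} {C C' : ℝ} (h : ∀ n, |g n| ≤ C) (h' : ∀ n, |g' n| ≤ C')
    (hle : ∀ᶠ n in (hyperfilter ℕ : Filter ℕ), g n ≤ g' n) : ulim g ≤ ulim g' :=
  le_of_tendsto_of_tendsto (tendsto_ulim h) (tendsto_ulim h') hle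

theorem ulim_le {g : ℕ → ℝ} {C x : ℝ} (h : ∀ n, |g n| ≤ C)
    (hle : ∀ᶠ n in (hyperfilter ℕ : Filter ℕ), g n ≤ x) : ulim g ≤ x :=
  le_of_tendsto (tendsto_ulim h) hle

theorem le_ulim {g : ℕ → ℝ} {C x : ℝ} (h : ∀ n, |g n| ≤ C)
    (hle : ∀ᶠ n in (hyperfilter ℕ : Filter ℕ), x ≤ g n) : x ≤ ulim g :=
  ge_of_tendsto (tendsto_ulim h) hle

/-- A seminorm with `N (e i) ≤ 1` is at most the `ℓ¹` norm. -/
theorem seminorm_le_l1 (N : Seminorm ℝ (ℕ →₀ ℝ)) (h : ∀ i, N (e i) ≤ 1) (a : ℕ →₀ ℝ) :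
    N a ≤ a.sum fun _ x => |x| := by
  classical
  calc N a = N (∑ i ∈ a.support, a i • e i) := by rw [← eq_sum_e]
    _ ≤ ∑ i ∈ a.support, N (a i • e i) :=
        Finset.le_sum_of_subadditive N (map_zero N).le (map_add_le_add N) _ _
    _ ≤ ∑ i ∈ a.support, |a i| := by
        apply Finset.sum_le_sum
        intro i _
        rw [map_smul_eq_mul, Real.norm_eq_abs]
        exact mul_le_of_le_one_right (abs_nonneg _) (h i)
    _ = a.sum fun _ x => |x| := rfl

/-- `MT` passes to precomposition with an additive map. -/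
theorem MT.comp {E F : Type*} [AddCommGroup E] [AddCommGroup F] {p K : ℝ} {N : E → ℝ}
    (h : MT p K N) (L : F →+ E) : MT p K (fun a => N (L a)) := by
  intro S _ _ P μ hP f t ht
  have := h S P μ hP (fun i => L (f i)) t ht
  simpa only [map_sub] using this

end P125
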