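import Vale.Agent.Lib.P125.Basic

/-!
# P125, module WORDS: reduced words and averages over words

`avgW_red_length`: `∑_c length (push c w) ≥ 3 * length w + 1`, so
`avgW (T+1) (length ∘ red) ≥ avgW T (length ∘ red) + 1/3`
(`red (c :: w) = push c (red w)`).
-/

open Finset

namespace P125

theorem Words_reduced_tail {c : Fin 3} {w : List (Fin 3)} (h : Reduced (c :: w)) : Reduced w := by
  cases w with
  | nil => trivial
  | cons d w => exact h.2

theorem Words_reduced_push (c : Fin 3) {w : List (Fin 3)} (h : Reduced w) :
    Reduced (push c w) := by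
  cases w with
  | nil => trivial
  | cons d w =>
    rw [show push c (d :: w) = if c = d then w else c :: d :: w from rfl]
    split_ifs with hcd
    · exact Words_reduced_tail h
    · exact ⟨hcd, h⟩

theorem Words_length_push_le (c : Fin 3) (w : List (Fin 3)) :
    (push c w).length ≤ w.length + 1 := by
  cases w with
  | nil => simp [push]
  | cons d w =>
    rw [show push c (d :: w) = if c = d then w else c :: d :: w from rfl]
    split_ifs with hcd
    · simp only [List.length_cons]; omega
    · simp only [List.length_cons]; omega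

theorem Words_sum_push (w : List (Fin 3)) :
    3 * w.length + 1 ≤ ∑ c : Fin 3, (push c w).length := by
  cases w with
  | nil => simp [push]
  | cons d w =>
    rw [Fin.sum_univ_three]
    unfold push
    fin_cases d <;> simp <;> omega

theorem reduced_red (w : List (Fin 3)) : Reduced (red w) := by
  induction w with
  | nil => trivial
  | cons c w ih => exact Words_reduced_push c ih

theorem length_red_le (w : List (Fin 3)) : (red w).length ≤ w.length := by
  induction w with
  | nil => simp [red]
  | cons c w ih =>
    have := Words_length_push_le c (red w)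
    simp only [red, List.length_cons]
    omega

theorem Words_pos_push {V : Type} (ι : Fin 3 → V → V) (hι : ∀ c v, ι c (ι c v) = v) (v : V)
    (c : Fin 3) (w : List (Fin 3)) : pos ι v (push c w) = ι c (pos ι v w) := by
  cases w with
  | nil => rfl
  | cons d w =>
    rw [show push c (d :: w) = if c = d then w else c :: d :: w from rfl]
    split_ifs with hcd
    · subst hcd
      simp only [pos, hι]
    · rfl

theorem pos_red {V : Type} (ι : Fin 3 → V → V) (hι : ∀ c v, ι c (ι c v) = v) (v : V)
    (w : List (Fin 3)) : pos ι v (red w) = pos ι v w := by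
  induction w with
  | nil => rfl
  | cons c w ih =>
    simp only [red, pos]
    rw [Words_pos_push ι hι, ih]

theorem Words_sumW_push {V E : Type} [AddCommGroup E] (ι : Fin 3 → V → V)
    (hι : ∀ c v, ι c (ι c v) = v) (a : Fin 3 → V → E) (ha : ∀ c v, a c (ι c v) = - a c v) (v : V)
    (c : Fin 3) (w : List (Fin 3)) :
    sumW ι a v (push c w) = sumW ι a v w + a c (pos ι v w) := by
  cases w with
  | nil => rfl
  | cons d w =>
    rw [show push c (d :: w) = if c = d then w else c :: d :: w from rfl]
    split_ifs with hcd
    · subst hcd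
      simp only [sumW, pos, ha]
      abel
    · rfl

theorem sumW_red {V E : Type} [AddCommGroup E] (ι : Fin 3 → V → V) (hι : ∀ c v, ι c (ι c v) = v)
    (a : Fin 3 → V → E) (ha : ∀ c v, a c (ι c v) = - a c v) (v : V) (w : List (Fin 3)) :
    sumW ι a v (red w) = sumW ι a v w := by
  induction w with
  | nil => rfl
  | cons c w ih =>
    simp only [red, sumW]
    rw [Words_sumW_push ι hι a ha, ih, pos_red ι hι]

theorem pos_bijective {V : Type} (ι : Fin 3 → V → V) (hι : ∀ c v, ι c (ι c v) = v)
    (w : List (Fin 3)) : Function.Bijective (fun v => pos ι v w) := by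
  induction w with
  | nil => exact Function.bijective_id
  | cons c w ih =>
    have hinv : Function.Involutive (ι c) := fun v => hι c v
    exact hinv.bijective.comp ih

theorem avgW_mono {T : ℕ} {F G : List (Fin 3) → ℝ} (h : ∀ w, w.length = T → F w ≤ G w) :
    avgW T F ≤ avgW T G := by
  induction T generalizing F G with
  | zero => exact h [] rfl
  | succ T ih =>
    unfold avgW
    apply div_le_div_of_nonneg_right _ (by norm_num)
    apply Finset.sum_le_sum
    intro c _
    apply ih
    intro w hw
    apply h
    simp [hw]

theorem avgW_const_mul (T : ℕ) (x : ℝ) (F : List (Fin 3) → ℝ) :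
    avgW T (fun w => x * F w) = x * avgW T F := by
  induction T generalizing F with
  | zero => rfl
  | succ T ih =>
    unfold avgW
    have : ∀ c : Fin 3, avgW T (fun w => x * F (c :: w)) = x * avgW T (fun w => F (c :: w)) :=
      fun c => ih (fun w => F (c :: w))
    rw [Finset.sum_congr rfl (fun c _ => this c), ← Finset.mul_sum]
    ring

theorem avgW_add (T : ℕ) (F G : List (Fin 3) → ℝ) :
    avgW T (fun w => F w + G w) = avgW T F + avgW T G := by
  induction T generalizing F G with
  | zero => rfl
  | succ T ih =>
    unfold avgW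
    have : ∀ c : Fin 3, avgW T (fun w => F (c :: w) + G (c :: w)) =
        avgW T (fun w => F (c :: w)) + avgW T (fun w => G (c :: w)) :=
      fun c => ih (fun w => F (c :: w)) (fun w => G (c :: w))
    rw [Finset.sum_congr rfl (fun c _ => this c), Finset.sum_add_distrib]
    ring

theorem avgW_const (T : ℕ) (x : ℝ) : avgW T (fun _ => x) = x := by
  induction T with
  | zero => rfl
  | succ T ih =>
    unfold avgW
    rw [Finset.sum_congr rfl (fun c _ => ih)]
    simp

theorem avgW_sum {α : Type} (T : ℕ) (s : Finset α) (F : α → List (Fin 3) → ℝ) :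
    avgW T (fun w => ∑ i ∈ s, F i w) = ∑ i ∈ s, avgW T (F i) := by
  classical
  induction s using Finset.induction_on with
  | empty =>
    simp only [Finset.sum_empty]
    exact avgW_const T 0
  | insert a s ha ih =>
    simp only [Finset.sum_insert ha]
    rw [avgW_add, ih]

theorem avgW_red_length (T : ℕ) : (T : ℝ) / 3 ≤ avgW T (fun w => ((red w).length : ℝ)) := by
  induction T with
  | zero => simp [avgW, red]
  | succ T ih =>
    unfold avgW
    rw [← avgW_sum T Finset.univ (fun (c : Fin 3) (w : List (Fin 3)) => ((red (c :: w)).length : ℝ))]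
    have h1 : avgW T (fun w => 3 * ((red w).length : ℝ) + 1) ≤
        avgW T (fun w => ∑ c : Fin 3, ((red (c :: w)).length : ℝ)) := by
      apply avgW_mono
      intro w _
      have := Words_sum_push (red w)
      have h2 : ((3 * (red w).length + 1 : ℕ) : ℝ) ≤ ((∑ c : Fin 3, (push c (red w)).length : ℕ) : ℝ) := by
        exact_mod_cast this
      push_cast at h2
      exact h2
    rw [avgW_add, avgW_const_mul, avgW_const] at h1
    push_cast
    linarith

theorem Words_avg_rpow {α : Type} [Fintype α] [Nonempty α] {p : ℝ} (hp : 1 ≤ p) (z : α → ℝ)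
    (hz : ∀ i, 0 ≤ z i) :
    ((∑ i, z i) / Fintype.card α) ^ p ≤ (∑ i, z i ^ p) / Fintype.card α := by
  have hc : (0 : ℝ) < Fintype.card α := by exact_mod_cast Fintype.card_pos
  have h := Real.rpow_arith_mean_le_arith_mean_rpow Finset.univ (fun _ : α => (1 : ℝ) / Fintype.card α) z
    (fun _ _ => by positivity) (by
      rw [Finset.sum_const, Finset.card_univ, nsmul_eq_mul]
      field_simp) (fun i _ => hz i) hp
  rw [← Finset.mul_sum, ← Finset.mul_sum] at h
  rw [div_eq_mul_one_div, div_eq_mul_one_div (∑ i, z i ^ p), mul_comm, mul_comm (∑ i, z i ^ p)]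
  exact h

theorem Words_avgW_nonneg {T : ℕ} {F : List (Fin 3) → ℝ} (hF : ∀ w, 0 ≤ F w) : 0 ≤ avgW T F := by
  have := avgW_mono (T := T) (F := fun _ => 0) (G := F) (fun w _ => hF w)
  rwa [avgW_const] at this

theorem Words_avgW_rpow {p : ℝ} (hp : 1 ≤ p) (T : ℕ) (F : List (Fin 3) → ℝ) (hF : ∀ w, 0 ≤ F w) :
    (avgW T F) ^ p ≤ avgW T (fun w => F w ^ p) := by
  induction T generalizing F with
  | zero => exact le_rfl
  | succ T ih =>
    unfold avgW
    have h1 := Words_avg_rpow (α := Fin 3) hp (fun c => avgW T (fun w => F (c :: w)))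
      (fun c => Words_avgW_nonneg (fun w => hF _))
    simp only [Fintype.card_fin, Nat.cast_ofNat] at h1
    refine le_trans h1 ?_
    apply div_le_div_of_nonneg_right _ (by norm_num)
    apply Finset.sum_le_sum
    intro c _
    exact ih (fun w => F (c :: w)) (fun w => hF _)

/-- Jensen for `x ^ p` and the average over `v` and the words. -/
theorem avgW_jensen {V : Type} [Fintype V] [Nonempty V] {p : ℝ} (hp : 1 ≤ p) (T : ℕ)
    (F : V → List (Fin 3) → ℝ) (hF : ∀ v w, 0 ≤ F v w) :
    ((∑ v, avgW T (F v)) / Fintype.card V) ^ p ≤
      (∑ v, avgW T (fun w => F v w ^ p)) / Fintype.card V := by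
  refine le_trans (Words_avg_rpow hp (fun v => avgW T (F v)) (fun v => Words_avgW_nonneg (hF v))) ?_
  have hc : (0 : ℝ) < Fintype.card V := by exact_mod_cast Fintype.card_pos
  apply div_le_div_of_nonneg_right _ hc.le
  apply Finset.sum_le_sum
  intro v _
  exact Words_avgW_rpow hp T (F v) (hF v)

end P125
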